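import Vale.Agent.P047.Disproof.Defs

/-!
Balancing and composition: one witness above the square root gives a power gain (owner: helper20).
-/

namespace Vale.Agent.P047.Disproof

open Finset

section

variable {ι κ : Type*} [Fintype ι] [DecidableEq ι] [Fintype κ] [DecidableEq κ]

/-- Fourier coefficient on a cube over an arbitrary finite index type. -/
noncomputable def cf (f : (ι → Bool) → ℝ) (S : Finset ι) : ℝ :=
  (∑ x, f x * ∏ i ∈ S, sgn (x i)) / 2 ^ Fintype.card ι

lemma sgn_sq (b : Bool) : sgn b * sgn b = 1 := by cases b <;> simp [sgn]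

lemma sgn_not (b : Bool) : sgn (!b) = -sgn b := by cases b <;> simp [sgn]

lemma cf_inversion (f : (ι → Bool) → ℝ) (y : ι → Bool) :
    f y = ∑ S : Finset ι, cf f S * ∏ i ∈ S, sgn (y i) := by
  have key : ∀ x : ι → Bool, (∑ S : Finset ι, ∏ i ∈ S, sgn (x i) * sgn (y i)) =
      if x = y then (2 : ℝ) ^ Fintype.card ι else 0 := by
    intro x
    rw [← Finset.powerset_univ, ← Finset.prod_one_add]
    split_ifs with h
    · subst h
      simp [sgn_sq, one_add_one_eq_two]
    · obtain ⟨i, hi⟩ := Function.ne_iff.1 h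
      refine Finset.prod_eq_zero (Finset.mem_univ i) ?_
      cases hx : x i <;> cases hy : y i <;> simp_all [sgn]
  simp only [cf, div_mul_eq_mul_div, ← Finset.sum_div, Finset.sum_mul, mul_assoc,
    ← Finset.prod_mul_distrib]
  rw [Finset.sum_comm]
  simp only [← Finset.mul_sum, key, mul_ite, mul_zero]
  rw [Finset.sum_ite_eq' Finset.univ y, if_pos (Finset.mem_univ _), mul_div_assoc, div_self]
  · simp
  · positivity

lemma sum_curry_prod (F : ι → (κ → Bool) → ℝ) :
    (∑ x : ι × κ → Bool, ∏ k, F k (fun j => x (k, j))) = ∏ k, ∑ u, F k u := by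
  rw [Fintype.prod_sum]
  exact Fintype.sum_equiv (Equiv.curry ι κ Bool) _ _ fun x => rfl

/-- The value of a `±1` number as a bit. -/
noncomputable def bit (r : ℝ) : Bool := decide (r = 1)

lemma sgn_bit {r : ℝ} (h : r = 1 ∨ r = -1) : sgn (bit r) = r := by
  rcases h with h | h <;> subst h <;> norm_num [sgn, bit]

/-- Block composition. -/
noncomputable def comp (g : (ι → Bool) → ℝ) (h : (κ → Bool) → ℝ) (x : ι × κ → Bool) : ℝ :=
  g fun k => bit (h fun j => x (k, j))

/-- The slice of a set of pairs. -/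
def slice (T : Finset (ι × κ)) (k : ι) : Finset κ := Finset.univ.filter fun j => (k, j) ∈ T

lemma prod_slices (T : Finset (ι × κ)) (x : ι × κ → Bool) :
    ∏ p ∈ T, sgn (x p) = ∏ k, ∏ j ∈ slice T k, sgn (x (k, j)) := by
  have e : ∀ k, ∏ j ∈ slice T k, sgn (x (k, j)) =
      ∏ j, if (k, j) ∈ T then sgn (x (k, j)) else 1 := fun k => by
    rw [slice, Finset.prod_filter]
  simp only [e]
  rw [← Fintype.prod_prod_type' (f := fun k j => if (k, j) ∈ T then sgn (x (k, j)) else 1),
    Finset.prod_ite_mem, Finset.univ_inter]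

lemma card_slices (T : Finset (ι × κ)) : T.card = ∑ k, (slice T k).card := by
  have e : ∀ k, (slice T k).card = ∑ j, if (k, j) ∈ T then 1 else 0 := fun k => by
    rw [slice, Finset.card_filter]
  simp only [e]
  rw [← Fintype.sum_prod_type' (f := fun k j => if (k, j) ∈ T then 1 else 0),
    Finset.sum_ite_mem, Finset.univ_inter, Finset.card_eq_sum_ones]

lemma cf_comp (g : (ι → Bool) → ℝ) (h : (κ → Bool) → ℝ) (hh : ∀ u, h u = 1 ∨ h u = -1)
    (T : Finset (ι × κ)) :
    cf (comp g h) T = ∑ S : Finset ι, cf g S * ∏ k,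
      cf (fun u => if k ∈ S then h u else 1) (slice T k) := by
  have hx : ∀ x : ι × κ → Bool, comp g h x * ∏ p ∈ T, sgn (x p) = ∑ S : Finset ι, cf g S *
      ∏ k, (if k ∈ S then h (fun j => x (k, j)) else 1) * ∏ j ∈ slice T k, sgn (x (k, j)) := by
    intro x
    rw [comp, cf_inversion g, Finset.sum_mul]
    refine Finset.sum_congr rfl fun S _ => ?_
    rw [mul_assoc, Finset.prod_mul_distrib, prod_slices, Finset.prod_ite_mem, Finset.univ_inter]
    simp only [sgn_bit (hh _)]
  conv_lhs => rw [cf, Finset.sum_congr rfl fun x _ => hx x, Finset.sum_comm, Finset.sum_div]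
  refine Finset.sum_congr rfl fun S _ => ?_
  rw [← Finset.mul_sum, sum_curry_prod (F := fun k u =>
    (if k ∈ S then h u else 1) * ∏ j ∈ slice T k, sgn (u j)), mul_div_assoc]
  simp only [cf, Finset.prod_div_distrib, Finset.prod_const, Finset.card_univ, Fintype.card_prod,
    ← pow_mul, mul_comm (Fintype.card κ)]

lemma cf_one_singleton (j : κ) : cf (fun _ : κ → Bool => (1 : ℝ)) {j} = 0 := by
  have h := Fintype.sum_equiv (Equiv.piCongrRight fun i : κ => if i = j then Equiv.boolNot else
    Equiv.refl Bool) (fun x : κ → Bool => sgn (x j)) (fun x => -sgn (x j)) fun x => by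
      simp [sgn_not]
  simp only [Finset.sum_neg_distrib] at h
  simp [cf, self_eq_neg.1 h]

lemma cf_one_eq_zero {T : Finset κ} (hT : T.Nonempty) :
    cf (fun _ : κ → Bool => (1 : ℝ)) T = 0 := by
  obtain ⟨j, hj⟩ := hT
  let e : (κ → Bool) ≃ (κ → Bool) :=
    Equiv.piCongrRight fun i : κ => if i = j then Equiv.boolNot else Equiv.refl Bool
  have h : ∑ x : κ → Bool, ∏ i ∈ T, sgn (x i) = ∑ x : κ → Bool, -∏ i ∈ T, sgn (x i) := by
    refine Fintype.sum_equiv e _ _ fun x => ?_
    rw [← Finset.mul_prod_erase T _ hj, ← Finset.mul_prod_erase T _ hj, ← neg_mul]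
    congr 1
    · simp [e, sgn_not]
    · refine Finset.prod_congr rfl fun i hi => ?_
      simp [e, Finset.ne_of_mem_erase hi]
  simp only [Finset.sum_neg_distrib] at h
  simp [cf, self_eq_neg.1 h]

/-- Degree bound for coefficients over an arbitrary finite index type. -/
def Deg' (f : (ι → Bool) → ℝ) (d : ℕ) : Prop := ∀ S : Finset ι, d < S.card → cf f S = 0

/-- Level one mass over an arbitrary finite index type. -/
noncomputable def mass (f : (ι → Bool) → ℝ) : ℝ := ∑ i, cf f {i}

/-- A balanced `±1` function of degree at most `d`. -/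
def BoolDeg (f : (ι → Bool) → ℝ) (d : ℕ) : Prop :=
  (∀ x, f x = 1 ∨ f x = -1) ∧ cf f ∅ = 0 ∧ Deg' f d

omit [Fintype ι] in
lemma slice_singleton (i k : ι) (j : κ) :
    slice {(i, j)} k = if k = i then {j} else ∅ := by
  ext l
  by_cases h : k = i <;> simp [slice, h]

lemma comp_good {g : (ι → Bool) → ℝ} {h : (κ → Bool) → ℝ} {a b : ℕ} (hg : BoolDeg g a)
    (hh : BoolDeg h b) : BoolDeg (comp g h) (a * b) ∧ mass (comp g h) = mass g * mass h := by
  obtain ⟨hg1, hg2, hg3⟩ := hg
  obtain ⟨hh1, hh2, hh3⟩ := hh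
  refine ⟨⟨fun x => hg1 _, ?_, ?_⟩, ?_⟩
  · rw [cf_comp g h hh1]
    refine Finset.sum_eq_zero fun S _ => ?_
    rcases S.eq_empty_or_nonempty with rfl | ⟨k, hk⟩
    · simp [hg2]
    · rw [Finset.prod_eq_zero (Finset.mem_univ k), mul_zero]
      simpa [hk, slice] using hh2
  · intro T hT
    rw [cf_comp g h hh1]
    refine Finset.sum_eq_zero fun S _ => ?_
    by_contra hne
    rw [← ne_eq, mul_ne_zero_iff, Finset.prod_ne_zero_iff] at hne
    have hS : S.card ≤ a := by
      by_contra hc
      exact hne.1 (hg3 S (by omega))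
    have hk : ∀ k, (slice T k).card ≤ if k ∈ S then b else 0 := by
      intro k
      have := hne.2 k (Finset.mem_univ k)
      by_cases hkS : k ∈ S
      · simp only [hkS, if_true] at this ⊢
        by_contra hc
        exact this (hh3 _ (by omega))
      · simp only [hkS, if_false] at this ⊢
        rcases (slice T k).eq_empty_or_nonempty with he | he
        · simp [he]
        · exact absurd (cf_one_eq_zero he) this
    have : T.card ≤ S.card * b := by
      rw [card_slices]
      refine (Finset.sum_le_sum fun k _ => hk k).trans ?_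
      simp [Finset.sum_ite_mem]
    have := Nat.mul_le_mul_right b hS
    omega
  · rw [mass, mass, mass, Fintype.sum_prod_type, Finset.sum_mul_sum]
    refine Finset.sum_congr rfl fun i _ => Finset.sum_congr rfl fun j _ => ?_
    rw [cf_comp g h hh1, Finset.sum_eq_single {i}]
    · congr 1
      rw [Finset.prod_eq_single i]
      · simp [slice_singleton]
      · intro k _ hk
        simp [slice_singleton, hk, cf]
      · simp
    · intro S _ hS
      by_cases hiS : i ∈ S
      · obtain ⟨k, hk, hki⟩ : ∃ k ∈ S, k ≠ i := by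
          by_contra! hc
          exact hS (Finset.eq_singleton_iff_unique_mem.2 ⟨hiS, hc⟩)
        rw [Finset.prod_eq_zero (Finset.mem_univ k), mul_zero]
        simpa [hk, hki, slice_singleton] using hh2
      · rw [Finset.prod_eq_zero (Finset.mem_univ i), mul_zero]
        simpa [hiS, slice_singleton] using cf_one_singleton j
    · simp

/-- Transport along an equivalence of the index types. -/
lemma good_reindex (e : ι ≃ κ) {f : (ι → Bool) → ℝ} {d : ℕ} (hf : BoolDeg f d) :
    BoolDeg (fun y : κ → Bool => f (fun i => y (e i))) d ∧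
      mass (fun y : κ → Bool => f (fun i => y (e i))) = mass f := by
  have hc : ∀ T : Finset κ, cf (fun y : κ → Bool => f (fun i => y (e i))) T =
      cf f (T.map e.symm.toEmbedding) := by
    intro T
    unfold cf
    rw [Fintype.card_congr e]
    congr 1
    refine Fintype.sum_equiv (Equiv.arrowCongr e.symm (Equiv.refl Bool)) _ _ fun y => ?_
    simp [Finset.prod_map, Equiv.arrowCongr, Function.comp_def]
  refine ⟨⟨fun y => hf.1 _, ?_, fun T hT => ?_⟩, ?_⟩
  · simpa [hc] using hf.2.1
  · rw [hc]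
    exact hf.2.2 _ (by simpa using hT)
  · unfold mass
    simp only [hc, Finset.map_singleton]
    exact Fintype.sum_equiv e.symm _ _ fun i => rfl

end

lemma coef_eq_cf {n : ℕ} (f : Cube n → ℝ) (S : Finset (Fin n)) : coef f S = cf f S := by
  simp [coef, cf]

lemma levelOne_eq_lev {n : ℕ} (f : Cube n → ℝ) : levelOne f = mass f := by
  simp [levelOne, mass, cf]

lemma coef_reflect {n : ℕ} (f : Cube n → ℝ) (S : Finset (Fin n)) :
    cf (fun x => -f (fun i => !x i)) S = -((-1) ^ S.card * cf f S) := by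
  unfold cf
  rw [← mul_div_assoc, ← neg_div, Finset.mul_sum, ← Finset.sum_neg_distrib]
  congr 1
  refine Fintype.sum_equiv (Equiv.piCongrRight fun _ => Equiv.boolNot) _ _ fun x => ?_
  simp only [Equiv.piCongrRight_apply, Pi.map_apply, Equiv.boolNot_apply, sgn_not]
  rw [Finset.prod_neg, ← mul_assoc, mul_comm ((-1 : ℝ) ^ S.card), mul_assoc, ← mul_assoc
    ((-1 : ℝ) ^ S.card), ← pow_add, ← two_mul, pow_mul]
  simp [Equiv.piCongrRight]
  exact Or.inl rfl

/-- Balancing with one more variable. -/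
lemma balance {n D : ℕ} (f : Cube n → ℝ) (hb : IsBool f) (hd : DegLE f D) :
    ∃ g : Cube (n + 1) → ℝ, BoolDeg g (D + 1) ∧ levelOne f ≤ mass g := by
  wlog hm : 0 ≤ cf f ∅ with H
  · have hb' : IsBool fun x => -f (fun i => !x i) := fun x => by
      rcases hb fun i => !x i with h | h <;> simp [h]
    have hd' : DegLE (fun x => -f (fun i => !x i)) D := fun S hS => by
      rw [coef_eq_cf, coef_reflect, ← coef_eq_cf, hd S hS]
      simp
    obtain ⟨g, hg, hl⟩ := H _ hb' hd' (by
      rw [coef_reflect]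
      simp only [Finset.card_empty, pow_zero, one_mul]
      linarith)
    refine ⟨g, hg, le_trans (le_of_eq ?_) hl⟩
    rw [levelOne_eq_lev, levelOne_eq_lev]
    simp [mass, coef_reflect]
  let g : Cube (n + 1) → ℝ := fun y => sgn (y 0) * f (fun i => decide (y 0 = y i.succ))
  have hsum : ∀ F : Cube (n + 1) → ℝ, ∑ y, F y = ∑ b : Bool, ∑ x : Cube n, F (Fin.cons b x) := by
    intro F
    rw [← (Fin.consEquiv fun _ : Fin (n + 1) => Bool).sum_comp F, Fintype.sum_prod_type]
    rfl
  have hflip : ∀ (F : Cube n → ℝ), (∑ x : Cube n, F (fun i => !x i)) = ∑ x, F x := fun F =>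
    Fintype.sum_equiv (Equiv.piCongrRight fun _ => Equiv.boolNot) _ _ fun x => rfl
  have hdec : ∀ b : Bool, decide (false = b) = !b := by decide
  have hdec' : ∀ b : Bool, decide (true = b) = b := by decide
  -- the value of a coefficient of the balanced function
  have hval : ∀ T : Finset (Fin (n + 1)), cf g T =
      let S := Finset.univ.filter fun i : Fin n => i.succ ∈ T
      cf f S * ((1 - (-1) ^ T.card) / 2) := by
    intro T
    have hsplit : ∀ (b : Bool) (x : Cube n),
        ∏ p ∈ T, sgn ((Fin.cons b x : Cube (n + 1)) p) =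
        (if (0 : Fin (n + 1)) ∈ T then sgn b else 1) *
          ∏ i ∈ Finset.univ.filter (fun i : Fin n => i.succ ∈ T), sgn (x i) := by
      intro b x
      have : ∏ p ∈ T, sgn ((Fin.cons b x : Cube (n + 1)) p) =
          ∏ p, if p ∈ T then sgn ((Fin.cons b x : Cube (n + 1)) p) else 1 := by
        rw [Finset.prod_ite_mem, Finset.univ_inter]
      rw [this, Fin.prod_univ_succ, Finset.prod_filter]
      simp
    have hcard : T.card = (if (0 : Fin (n + 1)) ∈ T then 1 else 0) +
        (Finset.univ.filter fun i : Fin n => i.succ ∈ T).card := by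
      have : T.card = ∑ p, if p ∈ T then 1 else 0 := by simp
      rw [this, Fin.sum_univ_succ, Finset.card_filter]
    set S := Finset.univ.filter fun i : Fin n => i.succ ∈ T with hS
    simp only [cf, Fintype.card_fin, hsum, hsplit, Fintype.sum_bool, g, Fin.cons_zero,
      Fin.cons_succ, hdec, hdec']
    have := hflip fun x => sgn false * f x *
      ((if (0 : Fin (n + 1)) ∈ T then sgn false else 1) * ∏ i ∈ S, sgn (!x i))
    simp only [Bool.not_not] at this
    rw [this]
    simp only [sgn_not, Finset.prod_neg, hcard]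
    rw [show (∑ x : Cube n, sgn true * f x *
          ((if (0 : Fin (n + 1)) ∈ T then sgn true else 1) * ∏ i ∈ S, sgn (x i))) =
        ∑ x : Cube n, f x * ∏ i ∈ S, sgn (x i) from Finset.sum_congr rfl fun x _ => by
          simp [sgn],
      show (∑ x : Cube n, sgn false * f x * ((if (0 : Fin (n + 1)) ∈ T then sgn false else 1) *
          ((-1) ^ S.card * ∏ i ∈ S, sgn (x i)))) =
        (-1) * (if (0 : Fin (n + 1)) ∈ T then -1 else 1) * (-1) ^ S.card *
          ∑ x : Cube n, f x * ∏ i ∈ S, sgn (x i) from by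
          rw [Finset.mul_sum]
          refine Finset.sum_congr rfl fun x _ => ?_
          simp only [sgn, Bool.false_eq_true, if_false]
          ring]
    split_ifs <;> simp [pow_add, pow_succ] <;> ring
  refine ⟨g, ⟨fun y => ?_, ?_, fun T hT => ?_⟩, ?_⟩
  · rcases hb (fun i => decide (y 0 = y i.succ)) with h | h <;>
      cases hy : y 0 <;> simp_all [g, sgn]
  · simp [hval]
  · rw [hval]
    dsimp only
    rw [← coef_eq_cf, hd, zero_mul]
    have h1 : T ⊆ insert 0 ((Finset.univ.filter fun i : Fin n => i.succ ∈ T).map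
        (Fin.succEmb n)) := by
      intro p hp
      rcases Fin.eq_zero_or_eq_succ p with rfl | ⟨i, rfl⟩
      · simp
      · simp [hp]
    have h2 := (Finset.card_le_card h1).trans (Finset.card_insert_le _ _)
    rw [Finset.card_map] at h2
    omega
  · have h0 : cf g {0} = cf f ∅ := by
      rw [hval]
      simp [Fin.succ_ne_zero]
    have h1 : ∀ i : Fin n, cf g {i.succ} = cf f {i} := fun i => by
      rw [hval]
      simp [Finset.filter_eq']
    rw [levelOne_eq_lev]
    simp only [mass, Fin.sum_univ_succ, h0, h1]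
    linarith

lemma iterate_good {N b : ℕ} {g : Cube N → ℝ} (hg : BoolDeg g b) :
    ∀ k : ℕ, ∃ (m : ℕ) (F : Cube m → ℝ), BoolDeg F (b ^ (k + 1)) ∧ mass F = mass g ^ (k + 1)
  | 0 => ⟨N, g, by simpa using hg, by simp⟩
  | k + 1 => by
    obtain ⟨m, F, hF, hl⟩ := iterate_good hg k
    obtain ⟨hc, hlc⟩ := comp_good hg hF
    obtain ⟨hr, hlr⟩ := good_reindex finProdFinEquiv hc
    refine ⟨N * m, fun y => comp g F fun i => y (finProdFinEquiv i), ?_, ?_⟩
    · rw [pow_succ']
      exact hr
    · rw [hlr, hlc, hl, pow_succ' _ (k + 1)]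

theorem power_gain {n D : ℕ} (f : Cube n → ℝ) (hb : IsBool f) (hd : DegLE f D)
    (hs : Real.sqrt (D + 1) < levelOne f) :
    ∃ c : ℝ, 0 < c ∧ ∀ d₀ : ℕ, ∃ (m d : ℕ) (g : Cube m → ℝ), d₀ ≤ d ∧ 1 ≤ d ∧
      IsBool g ∧ DegLE g d ∧ (d : ℝ) ^ ((1 : ℝ) / 2 + c) ≤ levelOne g := by
  obtain ⟨g, hg, hl⟩ := balance f hb hd
  have hL : Real.sqrt (D + 1) < mass g := lt_of_lt_of_le hs hl
  have hL1 : 1 < mass g := lt_of_le_of_lt (Real.one_le_sqrt.2 (by simp)) hL
  rcases Nat.eq_zero_or_pos D with rfl | hD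
  · refine ⟨1 / 2, by norm_num, fun d₀ => ?_⟩
    obtain ⟨k, hk⟩ := pow_unbounded_of_one_lt ((max d₀ 1 : ℕ) : ℝ) hL1
    obtain ⟨m, F, hF, hlF⟩ := iterate_good hg k
    refine ⟨m, max d₀ 1, F, le_max_left _ _, le_max_right _ _, hF.1, fun S hS => ?_, ?_⟩
    · rw [coef_eq_cf]
      refine hF.2.2 S ?_
      simp only [zero_add, one_pow]
      exact lt_of_le_of_lt (le_max_right d₀ 1) hS
    · rw [levelOne_eq_lev, hlF, show (1 : ℝ) / 2 + 1 / 2 = 1 by norm_num, Real.rpow_one]
      exact hk.le.trans (pow_le_pow_right₀ hL1.le (Nat.le_succ k))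
  · have hb1 : (1 : ℝ) < ((D + 1 : ℕ) : ℝ) := by
      exact_mod_cast Nat.lt_add_of_pos_left hD
    refine ⟨Real.logb ((D + 1 : ℕ) : ℝ) (mass g) - 1 / 2, ?_, fun d₀ => ?_⟩
    · have h2 : Real.logb ((D + 1 : ℕ) : ℝ) (Real.sqrt ((D + 1 : ℕ) : ℝ)) = 1 / 2 := by
        rw [Real.sqrt_eq_rpow, Real.logb_rpow (by positivity) hb1.ne']
      have h3 := Real.logb_lt_logb hb1 (Real.sqrt_pos.2 (by positivity))
        (show Real.sqrt ((D + 1 : ℕ) : ℝ) < mass g by push_cast; exact hL)
      linarith
    · obtain ⟨m, F, hF, hlF⟩ := iterate_good hg d₀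
      refine ⟨m, (D + 1) ^ (d₀ + 1), F, ?_, Nat.one_le_pow _ _ (Nat.succ_pos D), hF.1,
        fun S hS => by rw [coef_eq_cf]; exact hF.2.2 S hS, ?_⟩
      · exact (Nat.le_succ d₀).trans (Nat.lt_pow_self (by omega)).le
      · rw [levelOne_eq_lev, hlF, show (1 : ℝ) / 2 +
            (Real.logb ((D + 1 : ℕ) : ℝ) (mass g) - 1 / 2) = Real.logb ((D + 1 : ℕ) : ℝ) (mass g)
            by ring, Nat.cast_pow, ← Real.rpow_natCast, ← Real.rpow_mul (by positivity), mul_comm,
          Real.rpow_mul (by positivity), Real.rpow_logb (by positivity) hb1.ne' (by linarith),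
          Real.rpow_natCast]

end Vale.Agent.P047.Disproof
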