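import Vale.Agent.P047.Disproof.TorusBasic

/-!
The kernel correcting a perturbation supported on a small set, and Hoeffding's bound for linear
forms in independent finitely valued variables.
-/

namespace Vale.Agent.P047.Disproof

open Finset

/-- The proportion of characters of level at most `t`. -/
noncomputable def lowFrac (n t : ℕ) : ℝ :=
  ((univ.filter fun S : Finset (Fin n) => S.card ≤ t).card : ℝ) / 2 ^ n

lemma lowFrac_nonneg (n t : ℕ) : 0 ≤ lowFrac n t := by unfold lowFrac; positivity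

lemma parseval {n : ℕ} (f : Cube n → ℝ) : ∑ x, f x ^ 2 = 2 ^ n * ∑ S, coef f S ^ 2 := by
  calc ∑ x, f x ^ 2 = ∑ x, f x * ∑ S, coef f S * chi S x :=
        sum_congr rfl fun x _ => by rw [← expansion, sq]
    _ = ∑ S, coef f S * ∑ x, f x * chi S x := by
        simp_rw [mul_sum]
        rw [sum_comm]
        exact sum_congr rfl fun S _ => sum_congr rfl fun x _ => by ring
    _ = _ := by
        rw [mul_sum]
        refine sum_congr rfl fun S _ => ?_
        rw [coef_eq]
        field_simp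

lemma ev_sq_le {n t : ℕ} (θ : Idx n t → ℝ) (x : Cube n) :
    ev n t θ x ^ 2 ≤ lowFrac n t * ∑ y, ev n t θ y ^ 2 := by
  set A := univ.filter fun S : Finset (Fin n) => S.card ≤ t with hA
  set f := ev n t θ
  have hf : f x = ∑ S ∈ A, coef f S * chi S x := by
    rw [expansion f x]
    refine (sum_filter_of_ne fun S _ hne => not_lt.mp fun hlt => hne ?_).symm
    rw [degLE_ev n t θ S hlt, zero_mul]
  have hchi : ∀ S, chi S x ^ 2 = 1 := fun S => by
    rw [sq, chi, ← prod_mul_distrib]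
    simp [sgn_mul_self]
  calc f x ^ 2 = (∑ S ∈ A, coef f S * chi S x) ^ 2 := by rw [hf]
    _ ≤ (∑ S ∈ A, coef f S ^ 2) * ∑ S ∈ A, chi S x ^ 2 := sum_mul_sq_le_sq_mul_sq _ _ _
    _ ≤ (∑ S, coef f S ^ 2) * A.card := by
        simp only [hchi, sum_const, nsmul_one]
        exact mul_le_mul_of_nonneg_right
          (sum_le_univ_sum_of_nonneg fun S => sq_nonneg _) (Nat.cast_nonneg _)
    _ = _ := by
        rw [parseval, lowFrac, ← hA]
        field_simp

/-- The kernel of the correction off a set `R`. -/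
theorem exists_kernel {n t : ℕ} (R : Finset (Cube n)) {c : ℝ} (hc : 0 < c)
    (hR : ∀ θ : Idx n t → ℝ, c * ∑ x, ev n t θ x ^ 2 ≤ ∑ x ∈ Rᶜ, ev n t θ x ^ 2) :
    ∃ z : Cube n → Cube n → ℝ,
      (∀ (ξ : Cube n → ℝ) (θ : Idx n t → ℝ),
        ∑ x ∈ Rᶜ, (∑ y ∈ R, z x y * ξ y) * ev n t θ x = ∑ y ∈ R, ξ y * ev n t θ y) ∧
      ∀ x, ∑ y, z x y ^ 2 ≤ lowFrac n t / c ^ 2 := by
  classical
  set T : (Idx n t → ℝ) →ₗ[ℝ] Module.Dual ℝ (Idx n t → ℝ) :=
    LinearMap.mk₂ ℝ (fun a b => ∑ x ∈ Rᶜ, ev n t a x * ev n t b x)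
      (fun a a' b => by simp [ev_add, add_mul, sum_add_distrib])
      (fun c a b => by simp [ev_smul, mul_sum, mul_assoc])
      (fun a b b' => by simp [ev_add, mul_add, sum_add_distrib])
      (fun c a b => by simp [ev_smul, mul_sum, mul_left_comm]) with hT
  have hTa : ∀ a b, T a b = ∑ x ∈ Rᶜ, ev n t a x * ev n t b x := fun a b => rfl
  have hinj : Function.Injective T := by
    rw [← LinearMap.ker_eq_bot, LinearMap.ker_eq_bot']
    intro a ha
    have h0 : ∑ x ∈ Rᶜ, ev n t a x * ev n t a x = 0 := by rw [← hTa, ha]; rfl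
    have h1 : ∑ x, ev n t a x ^ 2 = 0 := by
      refine le_antisymm ?_ (sum_nonneg fun x _ => sq_nonneg _)
      have := hR a
      simp only [sq] at this ⊢
      nlinarith
    refine ev_injective n t (funext fun x => ?_)
    rw [ev_zero]
    exact pow_eq_zero_iff two_ne_zero |>.mp
      ((sum_eq_zero_iff_of_nonneg fun y _ => sq_nonneg _).mp h1 x (mem_univ x))
  have hsurj : Function.Surjective T :=
    (LinearMap.injective_iff_surjective_of_finrank_eq_finrank Subspace.dual_finrank_eq.symm).mp hinj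
  choose a ha using fun x : Cube n => hsurj ((LinearMap.proj x).comp (evL n t))
  have key : ∀ x b, ∑ y ∈ Rᶜ, ev n t (a x) y * ev n t b y = ev n t b x := fun x b => by
    rw [← hTa, ha]; rfl
  have hsymm : ∀ x y, ev n t (a x) y = ev n t (a y) x := fun x y => by
    rw [← key y (a x), ← key x (a y)]
    exact sum_congr rfl fun w _ => mul_comm _ _
  refine ⟨fun x y => ev n t (a x) y, fun ξ θ => ?_, fun x => ?_⟩
  · simp_rw [sum_mul]
    rw [sum_comm]
    refine sum_congr rfl fun y _ => ?_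
    rw [← key y θ, mul_sum]
    exact sum_congr rfl fun x _ => by rw [hsymm x y]; ring
  · set E := ∑ y, ev n t (a x) y ^ 2
    have h1 := hR (a x)
    simp only [sq] at h1
    rw [key x (a x)] at h1
    have h2 := ev_sq_le (a x) x
    have hE : 0 ≤ E := sum_nonneg fun y _ => sq_nonneg _
    have hE' : E = ∑ y, ev n t (a x) y * ev n t (a x) y := sum_congr rfl fun y _ => sq _
    rw [← hE'] at h1
    rcases hE.eq_or_lt with h | h
    · rw [← h]; exact div_nonneg (lowFrac_nonneg n t) (sq_nonneg c)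
    · rw [le_div_iff₀ (by positivity)]
      refine le_of_mul_le_mul_right ?_ h
      calc E * c ^ 2 * E = (c * E) ^ 2 := by ring
        _ ≤ ev n t (a x) x ^ 2 := pow_le_pow_left₀ (mul_nonneg hc.le hE) h1 2
        _ ≤ lowFrac n t * E := h2

lemma exp_mul_le {c y : ℝ} (hy : |y| ≤ 1) :
    Real.exp (c * y) ≤ Real.cosh c + y * Real.sinh c := by
  obtain ⟨h1, h2⟩ := abs_le.mp hy
  have h := convexOn_exp.2 (Set.mem_univ c) (Set.mem_univ (-c))
    (show (0 : ℝ) ≤ (1 + y) / 2 by linarith) (show (0 : ℝ) ≤ (1 - y) / 2 by linarith) (by ring)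
  simp only [smul_eq_mul] at h
  rw [show (1 + y) / 2 * c + (1 - y) / 2 * -c = c * y by ring] at h
  rw [Real.cosh_eq, Real.sinh_eq]
  linarith

/-- Hoeffding's exponential bound for a product of finite distributions. -/
lemma hoeffding_mgf {X Ω : Type*} [Fintype X] [DecidableEq X] [Fintype Ω] (p : X → Ω → ℝ)
    (hp : ∀ x o, 0 ≤ p x o) (hp1 : ∀ x, ∑ o, p x o = 1) (ξ : X → Ω → ℝ)
    (hmean : ∀ x, ∑ o, p x o * ξ x o = 0) (hξ : ∀ x o, |ξ x o| ≤ 1) (c : X → ℝ) :
    ∑ ω : X → Ω, (∏ x, p x (ω x)) * Real.exp (∑ x, c x * ξ x (ω x))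
      ≤ Real.exp (∑ x, c x ^ 2 / 2) := by
  simp only [Real.exp_sum, ← prod_mul_distrib]
  rw [← Fintype.prod_sum (f := fun x o => p x o * Real.exp (c x * ξ x o))]
  refine prod_le_prod (fun x _ => sum_nonneg fun o _ => mul_nonneg (hp x o) (Real.exp_pos _).le)
    fun x _ => ?_
  calc ∑ o, p x o * Real.exp (c x * ξ x o)
      ≤ ∑ o, p x o * (Real.cosh (c x) + ξ x o * Real.sinh (c x)) :=
        sum_le_sum fun o _ => mul_le_mul_of_nonneg_left (exp_mul_le (hξ x o)) (hp x o)
    _ = Real.cosh (c x) := by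
        simp only [mul_add, sum_add_distrib, ← mul_assoc, ← sum_mul, hp1, hmean]
        ring
    _ ≤ _ := Real.cosh_le_exp_half_sq _

open Classical in
/-- The weight of the configurations on which a linear form is large. -/
lemma hoeffding {X Ω : Type*} [Fintype X] [DecidableEq X] [Fintype Ω] (p : X → Ω → ℝ)
    (hp : ∀ x o, 0 ≤ p x o) (hp1 : ∀ x, ∑ o, p x o = 1) (ξ : X → Ω → ℝ)
    (hmean : ∀ x, ∑ o, p x o * ξ x o = 0) (hξ : ∀ x o, |ξ x o| ≤ 1) (c : X → ℝ) {V u : ℝ}
    (hV : ∑ x, c x ^ 2 ≤ V) (hV0 : 0 < V) (hu : 0 ≤ u) :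
    ∑ ω : X → Ω with u < |∑ x, c x * ξ x (ω x)|, ∏ x, p x (ω x)
      ≤ 2 * Real.exp (-(u ^ 2 / (2 * V))) := by
  set s := u / V
  have hside : ∀ e : ℝ, e ^ 2 = 1 →
      ∑ ω : X → Ω, (∏ x, p x (ω x)) * Real.exp (e * s * ∑ x, c x * ξ x (ω x))
        ≤ Real.exp (s ^ 2 * V / 2) := by
    intro e he
    refine le_trans (le_of_eq (sum_congr rfl fun ω _ => ?_))
      ((hoeffding_mgf p hp hp1 ξ hmean hξ fun x => e * s * c x).trans (Real.exp_le_exp.mpr ?_))
    · rw [mul_sum]
      exact congrArg (fun z => _ * Real.exp z) (sum_congr rfl fun x _ => by ring)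
    · simp only [mul_pow, he, one_mul, ← sum_div, ← mul_sum]
      gcongr
  have hterm : ∀ ω : X → Ω, u < |∑ x, c x * ξ x (ω x)| →
      (∏ x, p x (ω x)) * Real.exp (s * u) ≤
        (∏ x, p x (ω x)) * Real.exp (1 * s * ∑ x, c x * ξ x (ω x)) +
        (∏ x, p x (ω x)) * Real.exp (-1 * s * ∑ x, c x * ξ x (ω x)) := by
    intro ω hω
    rw [← mul_add]
    refine mul_le_mul_of_nonneg_left ?_ (prod_nonneg fun x _ => hp x _)
    have hs : 0 ≤ s := div_nonneg hu hV0.le
    rcases lt_abs.mp hω with h | h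
    · exact (Real.exp_le_exp.mpr (by nlinarith [mul_le_mul_of_nonneg_left h.le hs])).trans
        (le_add_of_nonneg_right (Real.exp_pos _).le)
    · exact (Real.exp_le_exp.mpr (by nlinarith [mul_le_mul_of_nonneg_left h.le hs])).trans
        (le_add_of_nonneg_left (Real.exp_pos _).le)
  have key := (sum_le_sum (s := univ.filter fun ω : X → Ω => u < |∑ x, c x * ξ x (ω x)|)
      fun ω hω => hterm ω (mem_filter.mp hω).2).trans
    ((sum_le_univ_sum_of_nonneg fun ω => add_nonneg
      (mul_nonneg (prod_nonneg fun x _ => hp x _) (Real.exp_pos _).le)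
      (mul_nonneg (prod_nonneg fun x _ => hp x _) (Real.exp_pos _).le)).trans
      (le_of_eq_of_le sum_add_distrib (add_le_add (hside 1 (one_pow 2)) (hside (-1) (by norm_num)))))
  rw [← sum_mul, ← two_mul] at key
  rw [← le_div_iff₀ (Real.exp_pos _), mul_div_assoc, ← Real.exp_sub] at key
  refine key.trans (le_of_eq ?_)
  congr 2
  simp only [s]
  field_simp
  ring

end Vale.Agent.P047.Disproof
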