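import Vale.Agent.P047.Disproof.CountInduct

/-!
Decoding separated centres from their noisy copies.
-/

namespace Vale.Agent.P047.Disproof

open MeasureTheory ProbabilityTheory InformationTheory
open scoped ENNReal

theorem isCompact_box (m k : ℕ) (z : Idx m k → ℝ) (b : ℝ) :
    IsCompact {θ : Idx m k → ℝ | ∀ x, |ev m k θ x - ev m k z x| ≤ b} := by
  have hce : Topology.IsClosedEmbedding (evL m k) :=
    LinearMap.isClosedEmbedding_of_injective (LinearMap.ker_eq_bot.2 (evL_injective m k))
  have h : {θ : Idx m k → ℝ | ∀ x, |ev m k θ x - ev m k z x| ≤ b} =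
      evL m k ⁻¹' Set.univ.pi fun x => Set.Icc (ev m k z x - b) (ev m k z x + b) := by
    ext θ
    simp only [Set.mem_ofPred_eq, Set.mem_preimage, Set.mem_univ_pi, Set.mem_Icc, evL_apply, abs_le]
    exact forall_congr' fun x => by constructor <;> intro h <;> constructor <;> linarith [h.1, h.2]
  rw [h]
  exact hce.isCompact_preimage (isCompact_univ_pi fun _ => isCompact_Icc)

/-- The decoding region of a centre. -/
def cellT (m k : ℕ) (z : Idx m k → ℝ) (b : ℝ) : Set (Idx m k → Tor) :=
  castT '' {θ : Idx m k → ℝ | ∀ x, |ev m k θ x - ev m k z x| ≤ b}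

theorem measurableSet_cellT (m k : ℕ) (z : Idx m k → ℝ) (b : ℝ) :
    MeasurableSet (cellT m k z b) := by
  refine ((isCompact_box m k z b).image ?_).measurableSet
  exact continuous_pi fun i => continuous_quotient_mk'.comp (continuous_apply i)

theorem disjoint_cellT (m k : ℕ) (z z' : Idx m k → ℝ) (b : ℝ)
    (h : ∀ u : Idx m k → ℤ, ∃ x, 2 * b < |ev m k (z - z' - fun i => (u i : ℝ)) x|) :
    Disjoint (cellT m k z b) (cellT m k z' b) := by
  rw [Set.disjoint_left]
  rintro c ⟨θ, hθ, rfl⟩ ⟨θ', hθ', he⟩
  have hu : ∀ i, ∃ u : ℤ, θ i - θ' i = u := by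
    intro i
    have := congrFun he i
    simp only [castT] at this
    obtain ⟨u, hu⟩ := (AddCircle.coe_eq_zero_iff (1 : ℝ) (x := θ i - θ' i)).1
      (by rw [AddCircle.coe_sub, this, sub_self])
    exact ⟨u, by simpa using hu.symm⟩
  choose u hu using hu
  obtain ⟨x, hx⟩ := h u
  have e : (fun i => (u i : ℝ)) = θ - θ' := funext fun i => (hu i).symm
  rw [e, ev_sub, ev_sub, ev_sub] at hx
  have h1 := abs_le.1 (hθ x)
  have h2 := abs_le.1 (hθ' x)
  have : |ev m k z x - ev m k z' x - (ev m k θ x - ev m k θ' x)| ≤ 2 * b :=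
    abs_le.2 ⟨by linarith [h1.2, h2.1], by linarith [h1.1, h2.2]⟩
  linarith

theorem gauss_tail {s : ℝ} (hs : 0 < s) {b : ℝ} (hb : 0 ≤ b) :
    (gaussianReal 0 s.toNNReal).real {a | b < |a|} ≤ 2 * Real.exp (-(b ^ 2 / (4 * s))) := by
  obtain ⟨hi, h2⟩ := integrable_exp_gaussianReal hs
  have hM := mul_meas_ge_le_integral_of_nonneg (μ := gaussianReal 0 s.toNNReal)
    (f := fun a => Real.exp (a ^ 2 / (4 * s)))
    (Filter.Eventually.of_forall fun a => (Real.exp_pos _).le) hi (Real.exp (b ^ 2 / (4 * s)))
  have hsub : {a : ℝ | b < |a|} ⊆ {a | Real.exp (b ^ 2 / (4 * s)) ≤ Real.exp (a ^ 2 / (4 * s))} := by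
    intro a ha
    simp only [Set.mem_ofPred_eq, Real.exp_le_exp] at ha ⊢
    gcongr 1
    nlinarith [sq_abs a, abs_nonneg a]
  have h3 := mul_le_mul_of_nonneg_left (measureReal_mono (μ := gaussianReal 0 s.toNNReal) hsub)
    (Real.exp_pos (b ^ 2 / (4 * s))).le
  rw [Real.exp_neg, ← div_eq_mul_inv, le_div_iff₀ (Real.exp_pos _)]
  linarith

theorem noise_box (m k : ℕ) {v S : ℝ} (hg : GoodScale S m k v) {b : ℝ} (hb : 0 ≤ b) :
    1 - 2 ^ m * (2 * Real.exp (-(b ^ 2 / (4 * S)))) ≤
      (gR m k v).real {a | ∀ x, |ev m k a x| ≤ b} := by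
  set G := {a : Idx m k → ℝ | ∀ x, |ev m k a x| ≤ b}
  have hGm : MeasurableSet G := by
    have : G = ⋂ x, {a | |ev m k a x| ≤ b} := by ext a; simp [G]
    rw [this]
    exact MeasurableSet.iInter fun x =>
      measurableSet_le (measurable_evR m k x).abs measurable_const
  have hc : (gR m k v).real Gᶜ ≤ ∑ x : Cube m, (gR m k v).real {a | b < |ev m k a x|} := by
    have : Gᶜ = ⋃ x : Cube m, {a | b < |ev m k a x|} := by ext a; simp [G]
    rw [this]
    exact measureReal_iUnion_fintype_le _
  have hx : ∀ x : Cube m, (gR m k v).real {a | b < |ev m k a x|} ≤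
      2 * Real.exp (-(b ^ 2 / (4 * S))) := by
    intro x
    have hs : 0 < rho m k * v := mul_pos (rho_pos m k) hg.1
    have hms : MeasurableSet {a : ℝ | b < |a|} := measurableSet_lt measurable_const measurable_id.abs
    have : (gR m k v).real {a | b < |ev m k a x|} =
        (gaussianReal 0 (rho m k * v).toNNReal).real {a | b < |a|} := by
      rw [← gR_map_ev m k hg.1.le x, map_measureReal_apply (measurable_evR m k x) hms]
      rfl
    rw [this]
    refine (gauss_tail hs hb).trans ?_
    gcongr
    exact hg.rho_mul_le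
  have := Finset.sum_le_sum (s := Finset.univ) fun x _ => hx x
  simp only [Finset.sum_const, Finset.card_univ, Fintype.card_pi, Fintype.card_bool,
    Finset.prod_const, Fintype.card_fin, nsmul_eq_mul, Nat.cast_pow, Nat.cast_ofNat] at this
  rw [probReal_compl_eq_one_sub hGm] at hc
  linarith

/-- Separated centres can be recovered from the noisy law. -/
theorem count_le {S e T : ℝ} {n : ℕ} (hS : S ≤ 1 / 16) (he : 0 ≤ e) (hT : leafErr S ≤ T)
    (hloc : LocalBound S e T n) (t : ℕ) (v : ℝ) (hg : GoodScale S n t v) (b : ℝ) (hb : 0 ≤ b)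
    (δ : ℝ) (hδ0 : 0 < δ) (hδ1 : δ ≤ 1) (hδ : 2 ^ n * (2 * Real.exp (-(b ^ 2 / (4 * S)))) ≤ δ)
    (P : Finset (Idx n t → ℝ)) (hP : P.Nonempty) (w : ℝ) (hW : ∀ θ ∈ P, W (ev n t θ) ≤ w)
    (hsep : ∀ θ ∈ P, ∀ θ' ∈ P, θ ≠ θ' → ∀ u : Idx n t → ℤ,
      ∃ x, 2 * b < |ev n t (θ - θ' - fun i => (u i : ℝ)) x|) :
    (1 - δ) * Real.log P.card ≤ (1 + e) ^ n * (w / (2 * v)) + 2 * 4 ^ n * (1 + e) ^ n * T +
      δ * Real.log (1 / δ) + δ := by
  set K := P.card
  have hK : 0 < K := hP.card_pos
  have : Nonempty (Fin K) := ⟨⟨0, hK⟩⟩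
  set z : Fin K → (Idx n t → ℝ) := fun i => (P.equivFin.symm i).1
  have hz : ∀ i, z i ∈ P := fun i => (P.equivFin.symm i).2
  have hzinj : Function.Injective z := fun i j h => P.equivFin.symm.injective (Subtype.ext h)
  set U : Measure (Fin K) := (PMF.uniformOfFintype (Fin K)).toMeasure
  have hUs : ∀ i, U {i} = ((K : ℝ≥0∞))⁻¹ := fun i => by
    rw [PMF.toMeasure_apply_singleton _ _ (MeasurableSet.singleton i), PMF.uniformOfFintype_apply,
      Fintype.card_fin]
  have hUr : ∀ i, U.real {i} = (K : ℝ)⁻¹ := fun i => by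
    rw [measureReal_def, hUs, ENNReal.toReal_inv, ENNReal.toReal_natCast]
  have hU : ∀ f : Fin K → ℝ, ∫ i, f i ∂U = (∑ i, f i) / K := fun f => by
    rw [integral_fintype (Integrable.of_finite), div_eq_mul_inv, Finset.sum_mul]
    exact Finset.sum_congr rfl fun i _ => by rw [hUr, smul_eq_mul, mul_comm]
  have hzm : Measurable fun i : Fin K => (i, castT (z i)) :=
    measurable_id.prodMk (measurable_of_countable fun i => castT (z i))
  set π := U.map fun i => (i, castT (z i))
  have : IsProbabilityMeasure π := Measure.isProbabilityMeasure_map hzm.aemeasurable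
  set ν := noiseT n t v
  set J := addNoise π ν
  have : IsProbabilityMeasure J := isProbabilityMeasure_addNoise _ _
  obtain ⟨hJfin, hJle⟩ := lower_bound hS n t v hg (Fin K) π
  set g : Fin K → Unit := fun _ => ()
  have hg' : Measurable g := measurable_const
  set π0 := π.map (Prod.map g (id : (Idx n t → Tor) → _))
  have : IsProbabilityMeasure π0 :=
    Measure.isProbabilityMeasure_map (hg'.prodMap measurable_id).aemeasurable
  set μ0 := addNoise π0 ν
  have : IsProbabilityMeasure μ0 := isProbabilityMeasure_addNoise _ _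
  have hμ0 : μ0 = J.map (Prod.map g id) := by
    simp only [μ0, J, π0, addNoise_map π ν hg' measurable_id (fun a b => rfl), Measure.map_id]
  set J' := J.map Prod.swap
  have : IsProbabilityMeasure J' := Measure.isProbabilityMeasure_map measurable_swap.aemeasurable
  have hJfst : J.fst = U := by
    simp only [J, fst_addNoise, π]
    rw [Measure.fst, Measure.map_map measurable_fst hzm]
    exact Measure.map_id
  have hq : μ0.map Prod.snd = J'.fst := by
    rw [hμ0, Measure.map_map measurable_snd (hg'.prodMap measurable_id), Measure.fst,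
      Measure.map_map measurable_fst measurable_swap]
    rfl
  have hμ0eq : cKL volume μ0 = klDiv J'.fst volume := by
    rw [← hq, cKL, ← klDiv_map_equiv (MeasurableEquiv.punitProd (α := Idx n t → Tor)) μ0]
    show klDiv (μ0.map Prod.snd) ((μ0.fst.prod volume).map Prod.snd) = _
    rw [Measure.map_snd_prod, measure_univ, one_smul]
  have hchain : cKL volume J = klDiv J'.fst volume + klDiv J' (J'.fst.prod U) := by
    rw [cKL, hJfst, ← klDiv_map_equiv MeasurableEquiv.prodComm J]
    show klDiv J' ((U.prod volume).map Prod.swap) = _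
    rw [Measure.prod_swap]
    conv_lhs => rw [← J'.disintegrate J'.condKernel, ← Measure.compProd_const]
    rw [klDiv_compProd_eq_add, J'.disintegrate, Measure.compProd_const]
  have hqfin : klDiv J'.fst volume ≠ ∞ :=
    fun h => hJfin (by rw [hchain, h, top_add])
  have hIfin : klDiv J' (J'.fst.prod U) ≠ ∞ :=
    fun h => hJfin (by rw [hchain, h, add_top])
  -- the decoding set
  set B : Set ((Idx n t → Tor) × Fin K) := {p | p.1 ∈ cellT n t (z p.2) b} with hBdef
  have hB : MeasurableSet B := by
    have : B = ⋃ i, cellT n t (z i) b ×ˢ ({i} : Set (Fin K)) := by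
      ext ⟨c, i⟩; simp [B]
    rw [this]
    exact MeasurableSet.iUnion fun i =>
      (measurableSet_cellT n t (z i) b).prod (MeasurableSet.singleton i)
  set G := {a : Idx n t → ℝ | ∀ x, |ev n t a x| ≤ b}
  have hGprob : 1 - δ ≤ (gR n t v).real G := (sub_le_sub_left hδ 1).trans (noise_box n t hg hb)
  have hJB : 1 - δ ≤ J'.real B := by
    have hF : Measurable fun q : Fin K × (Idx n t → ℝ) =>
        ((castT (z q.1) + castT q.2), q.1) :=
      (((measurable_of_countable fun i => castT (z i)).comp measurable_fst).add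
        (measurable_castT.comp measurable_snd)).prodMk measurable_fst
    have hJ' : J' = (U.prod (gR n t v)).map fun q => ((castT (z q.1) + castT q.2), q.1) := by
      simp only [J', J, addNoise, ν, noiseT, π]
      rw [Measure.map_prod_map _ _ hzm measurable_castT,
        Measure.map_map measurable_addPair (hzm.prodMap measurable_castT),
        Measure.map_map measurable_swap (measurable_addPair.comp (hzm.prodMap measurable_castT))]
      rfl
    rw [hJ', map_measureReal_apply hF hB]
    have hsub : Set.univ ×ˢ G ⊆ (fun q : Fin K × (Idx n t → ℝ) =>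
        ((castT (z q.1) + castT q.2), q.1)) ⁻¹' B := by
      rintro ⟨i, a⟩ ⟨-, ha⟩
      refine ⟨z i + a, fun x => ?_, funext fun j => ?_⟩
      · rw [ev_add, add_sub_cancel_left]; exact ha x
      · simp [castT]
    refine hGprob.trans (le_trans ?_ (measureReal_mono hsub))
    rw [measureReal_prod_prod, probReal_univ, one_mul]
  have hqB : (J'.fst.prod U).real B ≤ (K : ℝ)⁻¹ := by
    have hpre : ∀ i : Fin K, (fun c => (c, i)) ⁻¹' B = cellT n t (z i) b := fun i => rfl
    rw [measureReal_def, Measure.prod_apply_symm hB, lintegral_fintype]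
    simp only [hpre, hUs]
    rw [← Finset.sum_mul, ← measure_biUnion_finset]
    · refine le_trans (ENNReal.toReal_mono ?_ (mul_le_mul_left prob_le_one _)) ?_
      · simp [hK.ne']
      · simp
    · intro i _ j _ hij
      exact disjoint_cellT n t _ _ b (hsep _ (hz i) _ (hz j) fun h => hij (hzinj h))
    · exact fun i _ => measurableSet_cellT n t (z i) b
  -- Gibbs
  have hKr : (1 : ℝ) ≤ K := by exact_mod_cast hK
  set s := Real.log ((K : ℝ) / δ) with hs
  have hs0 : 0 ≤ s := Real.log_nonneg (by rw [le_div_iff₀ hδ0]; linarith)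
  have hKδ : (K : ℝ) / δ = Real.exp s := (Real.exp_log (by positivity)).symm
  have hGib := le_toReal_klDiv (μ := J') (ν := J'.fst.prod U) (f := B.indicator fun _ => s)
    ((measurable_const).indicator hB) (B := s)
    (fun p => by
      by_cases hp : p ∈ B
      · rw [Set.indicator_of_mem hp, abs_of_nonneg hs0]
      · rw [Set.indicator_of_notMem hp, abs_zero]; exact hs0) hIfin
  have hexp : (fun p => Real.exp (B.indicator (fun _ => s) p)) =
      fun p => 1 + B.indicator (fun _ => Real.exp s - 1) p := by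
    funext p
    by_cases hp : p ∈ B
    · rw [Set.indicator_of_mem hp, Set.indicator_of_mem hp, add_sub_cancel]
    · rw [Set.indicator_of_notMem hp, Set.indicator_of_notMem hp, Real.exp_zero, add_zero]
  rw [integral_indicator_const _ hB, hexp,
    integral_add (integrable_const _) ((integrable_const _).indicator hB), integral_const,
    integral_indicator_const _ hB, probReal_univ, one_smul, smul_eq_mul, smul_eq_mul] at hGib
  have hZ : Real.log (1 + (J'.fst.prod U).real B * (Real.exp s - 1)) ≤
      Real.log (1 / δ) + δ := by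
    have h1 : (J'.fst.prod U).real B * (Real.exp s - 1) ≤ (K : ℝ)⁻¹ * Real.exp s :=
      mul_le_mul hqB (by linarith) (by linarith [Real.one_le_exp hs0]) (inv_nonneg.2 (Nat.cast_nonneg K))
    have h2 : (K : ℝ)⁻¹ * Real.exp s = 1 / δ := by rw [← hKδ]; field_simp
    have h3 : 0 < 1 + (J'.fst.prod U).real B * (Real.exp s - 1) := by
      have := mul_nonneg (measureReal_nonneg (μ := J'.fst.prod U) (s := B))
        (show 0 ≤ Real.exp s - 1 by linarith [Real.one_le_exp hs0])
      linarith
    calc _ ≤ Real.log ((1 / δ) * (1 + δ)) := by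
          refine Real.log_le_log h3 ?_
          rw [show 1 / δ * (1 + δ) = 1 + 1 / δ by field_simp; ring]
          linarith
      _ = Real.log (1 / δ) + Real.log (1 + δ) := Real.log_mul (by positivity) (by linarith)
      _ ≤ _ := by linarith [Real.log_le_sub_one_of_pos (show (0 : ℝ) < 1 + δ by linarith)]
  have hsval : s = Real.log K + Real.log (1 / δ) := by
    rw [hs, Real.log_div (Nat.cast_ne_zero.2 hK.ne') hδ0.ne', one_div, Real.log_inv]; ring
  have hlow : (1 - δ) * Real.log K - δ * Real.log (1 / δ) - δ ≤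
      (klDiv J' (J'.fst.prod U)).toReal := by
    have h1 := mul_le_mul_of_nonneg_right hJB hs0
    rw [hsval] at h1 hGib hZ
    linarith [hsval]
  -- upper bound
  have hup := upper_bound hS he hT hloc n t v le_rfl hg Unit π0
  have hnegJ : (klDiv J' (J'.fst.prod U)).toReal = negEnt J - negEnt μ0 := by
    rw [negEnt_eq_cKL, negEnt_eq_cKL, hchain, hμ0eq, ENNReal.toReal_add hqfin hIfin]
    ring
  have hρ := rho_pos n t
  have hv := hg.1
  have hinfo : ∀ x : Cube n, info1 (μ0.map (Prod.map id fun θ => ev n t θ x)) (rho n t * v) ≤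
      ((∑ i, dist1 (ev n t (z i) x) ^ 2) / K) / (2 * (rho n t * v)) := by
    intro x
    have hm : Measurable (Prod.map id fun θ => ev n t θ x : Unit × (Idx n t → Tor) → Unit × Tor) :=
      measurable_id.prodMap (measurable_evT n t x)
    have : IsProbabilityMeasure (π0.map (Prod.map id fun θ => ev n t θ x)) :=
      Measure.isProbabilityMeasure_map hm.aemeasurable
    have he : μ0.map (Prod.map id fun θ => ev n t θ x) =
        addNoise (π0.map (Prod.map id fun θ => ev n t θ x)) (noise1 (rho n t * v)) := by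
      rw [← noiseT_map_ev n t hv.le x]
      exact addNoise_map π0 ν measurable_id (measurable_evT n t x) (fun a b => ev_add n t a b x)
    rw [he]
    refine (info_unit_le (mul_pos hρ hv) _ ?_).trans (le_of_eq ?_)
    · rw [← he]
      exact ne_top_of_le_ne_top (lower_bound hS n t v hg Unit π0).1
        (cKL_map_le measurable_id (measurePreserving_evT n t x))
    · congr 1
      rw [integral_map hm.aemeasurable (by fun_prop)]
      simp only [π0, π]
      have hmeas : Measurable fun p : Unit × (Idx n t → Tor) =>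
          ‖(Prod.map id (fun θ => ev n t θ x) p).2‖ ^ 2 :=
        (measurable_snd.comp hm).norm.pow_const 2
      rw [Measure.map_map (hg'.prodMap measurable_id) hzm,
        integral_map ((hg'.prodMap measurable_id).comp hzm).aemeasurable
          hmeas.aestronglyMeasurable, hU]
      congr 1
      refine Finset.sum_congr rfl fun i _ => ?_
      simp only [Function.comp, Prod.map, id, ev_castT]
      rw [UnitAddCircle.norm_eq, dist1]
  have hsum : rho n t * (∑ x : Cube n, info1 (μ0.map (Prod.map id fun θ => ev n t θ x))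
      (rho n t * v)) ≤ w / (2 * v) := by
    have h1 := mul_le_mul_of_nonneg_left (Finset.sum_le_sum (s := Finset.univ) fun x _ => hinfo x) hρ.le
    refine h1.trans ?_
    rw [← Finset.sum_div, ← Finset.sum_div, Finset.sum_comm]
    have hWsum : ∑ i, ∑ x, dist1 (ev n t (z i) x) ^ 2 ≤ (K : ℝ) * w := by
      have := Finset.sum_le_sum (s := Finset.univ) fun i _ => hW (z i) (hz i)
      rw [Finset.sum_const, Finset.card_univ, Fintype.card_fin, nsmul_eq_mul] at this
      exact this
    rw [show rho n t * ((∑ i, ∑ x, dist1 (ev n t (z i) x) ^ 2) / (K : ℝ) / (2 * (rho n t * v))) =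
      (∑ i, ∑ x, dist1 (ev n t (z i) x) ^ 2) / (K : ℝ) / (2 * v) by field_simp]
    gcongr
    rw [div_le_iff₀ (Nat.cast_pos.2 hK)]
    linarith
  have hc : (0 : ℝ) ≤ (1 + e) ^ n := by positivity
  have hmain : (1 + e) ^ n * rho n t * (∑ x : Cube n, info1 (μ0.map
      (Prod.map id fun θ => ev n t θ x)) (rho n t * v)) ≤ (1 + e) ^ n * (w / (2 * v)) := by
    rw [mul_assoc]; exact mul_le_mul_of_nonneg_left hsum hc
  have hl : (0 : ℝ) ≤ leafErr S := by unfold leafErr; positivity
  have hc1 : (1 : ℝ) ≤ (1 + e) ^ n := one_le_pow₀ (by linarith)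
  have h24 : (2 : ℝ) ^ n * leafErr S ≤ 4 ^ n * (1 + e) ^ n * T := by
    refine mul_le_mul ?_ hT hl (by positivity)
    calc (2 : ℝ) ^ n ≤ 4 ^ n := pow_le_pow_left₀ (by norm_num) (by norm_num) _
      _ ≤ _ := le_mul_of_one_le_right (by positivity) hc1
  linarith

end Vale.Agent.P047.Disproof
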