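import Vale.Agent.P047.Disproof.Entropy

/-!
Elementary facts about conditional relative information used by the counting lemma.
-/

namespace Vale.Agent.P047.Disproof

open MeasureTheory ProbabilityTheory InformationTheory
open scoped ENNReal

instance instIsProbabilityMeasureTor : IsProbabilityMeasure (volume : Measure Tor) :=
  ⟨by simp⟩

instance instIsAddLeftInvariantTorProd : (volume : Measure (Tor × Tor)).IsAddLeftInvariant := by
  rw [Measure.volume_eq_prod]; infer_instance

instance instIsProbabilityMeasureNoise1 (v : ℝ) : IsProbabilityMeasure (noise1 v) :=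
  Measure.isProbabilityMeasure_map AddCircle.measurable_mk'.aemeasurable

variable {Ω Ω' X X' Z : Type*} [MeasurableSpace Ω] [MeasurableSpace Ω'] [MeasurableSpace X]
  [MeasurableSpace X'] [MeasurableSpace Z]

/-- Conditional relative information with respect to a reference law. -/
noncomputable def cKL (ν : Measure X) (μ : Measure (Ω × X)) : ℝ≥0∞ := klDiv μ (μ.fst.prod ν)

theorem negEnt_eq_cKL {X : Type*} [MeasureSpace X] (μ : Measure (Ω × X)) :
    negEnt μ = (cKL volume μ).toReal := rfl

theorem klDiv_map_equiv (e : X ≃ᵐ Z) (μ ν : Measure X) [IsFiniteMeasure μ] [IsFiniteMeasure ν] :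
    klDiv (μ.map e) (ν.map e) = klDiv μ ν := by
  refine le_antisymm (klDiv_map_le _ _ e.measurable) ?_
  have h := klDiv_map_le (μ.map e) (ν.map e) e.symm.measurable
  simpa [Measure.map_map e.symm.measurable e.measurable] using h

theorem fst_map_prodMap {μ : Measure (Ω × X)} {g : Ω → Ω'} {f : X → X'} (hg : Measurable g)
    (hf : Measurable f) : (μ.map (Prod.map g f)).fst = μ.fst.map g := by
  rw [Measure.fst, Measure.fst, Measure.map_map measurable_fst (hg.prodMap hf),
    Measure.map_map hg measurable_fst]
  rfl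

/-- Forgetting part of the side variable and pushing forward does not increase the information. -/
theorem cKL_map_le {ν : Measure X} {ν' : Measure X'} [IsFiniteMeasure ν] {μ : Measure (Ω × X)}
    [IsFiniteMeasure μ] {g : Ω → Ω'} {f : X → X'} (hg : Measurable g)
    (hf : MeasurePreserving f ν ν') : cKL ν' (μ.map (Prod.map g f)) ≤ cKL ν μ := by
  have h : (μ.map (Prod.map g f)).fst.prod ν' = (μ.fst.prod ν).map (Prod.map g f) := by
    rw [fst_map_prodMap hg hf.measurable, ← hf.map_eq, Measure.map_prod_map _ _ hg hf.measurable]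
  rw [cKL, h]
  exact klDiv_map_le _ _ (hg.prodMap hf.measurable)

theorem cKL_map_equiv {ν : Measure X} {ν' : Measure X'} [IsFiniteMeasure ν] {μ : Measure (Ω × X)}
    [IsFiniteMeasure μ] (g : Ω ≃ᵐ Ω') (f : X ≃ᵐ X') (hf : MeasurePreserving f ν ν') :
    cKL ν' (μ.map (Prod.map g f)) = cKL ν μ := by
  have h : (μ.map (Prod.map g f)).fst.prod ν' = (μ.fst.prod ν).map (Prod.map g f) := by
    rw [fst_map_prodMap g.measurable hf.measurable, ← hf.map_eq,
      Measure.map_prod_map _ _ g.measurable hf.measurable]
  rw [cKL, h]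
  exact klDiv_map_equiv (g.prodCongr f) μ (μ.fst.prod ν)

/-- Chain rule. -/
theorem cKL_chain [StandardBorelSpace Z] [Nonempty Z] (νX : Measure X) [IsProbabilityMeasure νX]
    (νZ : Measure Z) [IsProbabilityMeasure νZ] (μ : Measure (Ω × (X × Z))) [IsProbabilityMeasure μ] :
    cKL (νX.prod νZ) μ =
      cKL νX (μ.map (Prod.map id Prod.fst)) + cKL νZ (μ.map MeasurableEquiv.prodAssoc.symm) := by
  set e : Ω × X × Z ≃ᵐ (Ω × X) × Z := MeasurableEquiv.prodAssoc.symm
  set μ' := μ.map e with hμ'
  have : IsProbabilityMeasure μ' := Measure.isProbabilityMeasure_map e.measurable.aemeasurable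
  have h1 : μ'.fst = μ.map (Prod.map id Prod.fst) := by
    rw [hμ', Measure.fst, Measure.map_map measurable_fst e.measurable]; rfl
  have h2 : (μ.fst.prod (νX.prod νZ)).map e = (μ.fst.prod νX).prod νZ := by
    rw [← Measure.prodAssoc_prod (μ := μ.fst) (ν := νX) (τ := νZ)]
    exact MeasurableEquiv.map_symm_map (MeasurableEquiv.prodAssoc)
  have h3 : (μ.map (Prod.map id Prod.fst)).fst = μ.fst := by
    rw [fst_map_prodMap measurable_id measurable_fst, Measure.map_id]
  rw [cKL, cKL, cKL, ← klDiv_map_equiv e μ, h2, ← hμ', h3, ← h1]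
  conv_lhs => rw [← μ'.disintegrate μ'.condKernel, ← Measure.compProd_const]
  rw [klDiv_compProd_eq_add, μ'.disintegrate, Measure.compProd_const]

theorem measurable_addPair [Add X] [MeasurableAdd₂ X] :
    Measurable (fun p : (Ω × X) × X => (p.1.1, p.1.2 + p.2)) :=
  (measurable_fst.comp measurable_fst).prodMk
    ((measurable_snd.comp measurable_fst).add measurable_snd)

theorem isProbabilityMeasure_addNoise [Add X] [MeasurableAdd₂ X] (π : Measure (Ω × X))
    (ν : Measure X) [IsProbabilityMeasure π] [IsProbabilityMeasure ν] :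
    IsProbabilityMeasure (addNoise π ν) :=
  Measure.isProbabilityMeasure_map measurable_addPair.aemeasurable

theorem fst_addNoise [Add X] [MeasurableAdd₂ X] (π : Measure (Ω × X)) (ν : Measure X)
    [SFinite π] [IsProbabilityMeasure ν] : (addNoise π ν).fst = π.fst := by
  have h : (fun p : (Ω × X) × X => p.1.1) = Prod.fst ∘ Prod.fst := rfl
  rw [addNoise, Measure.fst, Measure.map_map measurable_fst measurable_addPair, Measure.fst]
  show (π.prod ν).map (fun p : (Ω × X) × X => p.1.1) = _
  rw [h, ← Measure.map_map measurable_fst measurable_fst, Measure.map_fst_prod]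
  simp

/-- Adding noise commutes with additive maps. -/
theorem addNoise_map [Add X] [MeasurableAdd₂ X] [Add X'] [MeasurableAdd₂ X'] (π : Measure (Ω × X))
    (ν : Measure X) [SFinite π] [SFinite ν] {g : Ω → Ω'} {f : X → X'} (hg : Measurable g)
    (hf : Measurable f) (hadd : ∀ a b, f (a + b) = f a + f b) :
    (addNoise π ν).map (Prod.map g f) = addNoise (π.map (Prod.map g f)) (ν.map f) := by
  rw [addNoise, addNoise, Measure.map_map (hg.prodMap hf) measurable_addPair,
    Measure.map_prod_map _ _ (hg.prodMap hf) hf,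
    Measure.map_map measurable_addPair ((hg.prodMap hf).prodMap hf)]
  congr 1
  funext p
  simp [hadd]

theorem klDiv_prod_left (π : Measure Ω) [IsProbabilityMeasure π] (ν ρ : Measure X)
    [IsFiniteMeasure ν] [IsFiniteMeasure ρ] : klDiv (π.prod ν) (π.prod ρ) = klDiv ν ρ := by
  rw [← klDiv_map_equiv MeasurableEquiv.prodComm (π.prod ν) (π.prod ρ)]
  show klDiv ((π.prod ν).map Prod.swap) ((π.prod ρ).map Prod.swap) = _
  rw [Measure.prod_swap, Measure.prod_swap, ← Measure.compProd_const, ← Measure.compProd_const,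
    klDiv_compProd_left]

/-- Independent noise: the information is at most that of the noise. -/
theorem cKL_addNoise_le [AddGroup X] [MeasurableAdd₂ X] (π : Measure (Ω × X)) [IsProbabilityMeasure π]
    (ν ρ : Measure X) [IsProbabilityMeasure ν] [IsProbabilityMeasure ρ] [ρ.IsAddLeftInvariant] :
    cKL ρ (addNoise π ν) ≤ klDiv ν ρ := by
  have hmp : MeasurePreserving (fun p : (Ω × X) × X => (p.1.1, p.1.2 + p.2)) (π.prod ρ)
      (π.fst.prod ρ) :=
    MeasurePreserving.skew_product (f := Prod.fst) (g := fun (q : Ω × X) a => q.2 + a)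
      ⟨measurable_fst, rfl⟩ ((measurable_snd.comp measurable_fst).add measurable_snd)
      (Filter.Eventually.of_forall fun q => map_add_left_eq_self ρ q.2)
  rw [cKL, fst_addNoise, ← hmp.map_eq, ← klDiv_prod_left π ν ρ, addNoise]
  exact klDiv_map_le _ _ measurable_addPair

/-- Gibbs variational lower bound. -/
theorem le_toReal_klDiv {μ ν : Measure X} [IsProbabilityMeasure μ] [IsProbabilityMeasure ν]
    {f : X → ℝ} (hf : Measurable f) {B : ℝ} (hB : ∀ x, |f x| ≤ B) (h : klDiv μ ν ≠ ∞) :
    ∫ x, f x ∂μ - Real.log (∫ x, Real.exp (f x) ∂ν) ≤ (klDiv μ ν).toReal := by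
  obtain ⟨hac, hint⟩ := klDiv_ne_top_iff.1 h
  have hexp : Integrable (fun x => Real.exp (f x)) ν :=
    Integrable.of_bound hf.exp.aestronglyMeasurable (Real.exp B)
      (Filter.Eventually.of_forall fun x => by
        rw [Real.norm_eq_abs, Real.abs_exp]; exact Real.exp_le_exp.2 (abs_le.1 (hB x)).2)
  have hfμ : Integrable f μ :=
    Integrable.of_bound hf.aestronglyMeasurable B (Filter.Eventually.of_forall fun x => hB x)
  have : IsProbabilityMeasure (ν.tilted f) := isProbabilityMeasure_tilted hexp
  have hac' : μ ≪ ν.tilted f := hac.trans (absolutelyContinuous_tilted hexp)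
  have h0 := integral_llr_add_sub_measure_univ_nonneg hac'
    (integrable_llr_tilted_right hac hfμ hint hexp)
  rw [integral_llr_tilted_right hac hfμ hexp hint] at h0
  rw [toReal_klDiv_of_measure_eq hac (by simp)]
  simp at h0
  linarith

end Vale.Agent.P047.Disproof
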