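import Vale.Agent.P047.Disproof.LocalEnt

/-!
Conditional negative entropy after adding noise, fibre by fibre (owner: helper15).
-/

namespace Vale.Agent.P047.Disproof.Loc

open MeasureTheory ProbabilityTheory InformationTheory
open scoped MeasureTheory ProbabilityTheory

variable {Ω : Type*} [MeasurableSpace Ω] {G : Type*} [AddCommGroup G] [MeasureSpace G]
  [TopologicalSpace G] [IsTopologicalAddGroup G] [CompactSpace G] [BorelSpace G]
  [SecondCountableTopology G] [IsProbabilityMeasure (volume : Measure G)]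
  [(volume : Measure G).IsAddLeftInvariant]

omit [CompactSpace G] [IsProbabilityMeasure (volume : Measure G)]
  [(volume : Measure G).IsAddLeftInvariant] in
lemma kdens_meas (κ : Kernel Ω G) [IsMarkovKernel κ] {g : G → ℝ} (hg : Continuous g) :
    StronglyMeasurable fun q : Ω × G => dens (κ q.1) g q.2 := by
  have h : StronglyMeasurable fun w : (Ω × G) × G => g (w.1.2 - w.2) :=
    (hg.measurable.comp ((measurable_snd.comp measurable_fst).sub measurable_snd)).stronglyMeasurable
  exact h.integral_kernel_prod_right' (κ := κ.comap Prod.fst measurable_fst)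

omit [SecondCountableTopology G] [IsProbabilityMeasure (volume : Measure G)]
  [(volume : Measure G).IsAddLeftInvariant] in
lemma dens_mem_Icc (σ : Measure G) [IsProbabilityMeasure σ] {g : G → ℝ} (hg : Continuous g)
    {c C : ℝ} (hc : ∀ z, c ≤ g z) (hC : ∀ z, g z ≤ C) (y : G) :
    c ≤ dens σ g y ∧ dens σ g y ≤ C := by
  have hi : Integrable (fun x => g (y - x)) σ := integrable_cont _ (hg.comp (by fun_prop))
  exact ⟨by simpa [dens] using integral_mono (integrable_const c) hi fun x => hc _,
    by simpa [dens] using integral_mono hi (integrable_const C) fun x => hC _⟩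

omit [(volume : Measure G).IsAddLeftInvariant] in
lemma integrable_dens_log (ρ : Measure Ω) [IsProbabilityMeasure ρ] (κ : Kernel Ω G)
    [IsMarkovKernel κ] {ν : Measure G} {g : G → ℝ} (hg : HasDens ν g) :
    Integrable (fun q : Ω × G => dens (κ q.1) g q.2 * Real.log (dens (κ q.1) g q.2))
      (ρ.prod (volume : Measure G)) := by
  obtain ⟨z, -, hz⟩ := isCompact_univ.exists_isMinOn Set.univ_nonempty hg.cont.continuousOn
  obtain ⟨w, -, hw⟩ := isCompact_univ.exists_isMaxOn Set.univ_nonempty hg.cont.continuousOn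
  refine Integrable.of_bound ((kdens_meas κ hg.cont).mul
      (Real.measurable_log.comp (kdens_meas κ hg.cont).measurable).stronglyMeasurable).aestronglyMeasurable
    (g w * (|Real.log (g z)| + |Real.log (g w)|)) (Filter.Eventually.of_forall fun q => ?_)
  obtain ⟨h1, h2⟩ := dens_mem_Icc (κ q.1) hg.cont (fun x => hz (Set.mem_univ x))
    (fun x => hw (Set.mem_univ x)) q.2
  have h0 : 0 < dens (κ q.1) g q.2 := (hg.pos z).trans_le h1
  rw [norm_mul, Real.norm_eq_abs, Real.norm_eq_abs, abs_of_pos h0]
  refine mul_le_mul h2 (abs_le.2 ⟨?_, ?_⟩) (abs_nonneg _) (hg.pos w).le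
  · linarith [Real.log_le_log (hg.pos z) h1, neg_abs_le (Real.log (g z)),
      abs_nonneg (Real.log (g w))]
  · linarith [Real.log_le_log h0 h2, le_abs_self (Real.log (g w)),
      abs_nonneg (Real.log (g z))]

theorem integrable_ent_conv (ρ : Measure Ω) [IsProbabilityMeasure ρ] (κ : Kernel Ω G)
    [IsMarkovKernel κ] {ν : Measure G} [IsProbabilityMeasure ν] {g : G → ℝ} (hg : HasDens ν g) :
    Integrable (fun ω => ent (κ ω ∗ ν)) ρ := by
  simp only [fun ω => (hg.conv (κ ω)).ent_eq]
  exact (integrable_dens_log ρ κ hg).integral_prod_left.neg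

lemma addNoise_compProd (ρ : Measure Ω) [IsProbabilityMeasure ρ] (κ : Kernel Ω G)
    [IsMarkovKernel κ] {ν : Measure G} [IsProbabilityMeasure ν] {g : G → ℝ} (hg : HasDens ν g) :
    addNoise (ρ ⊗ₘ κ) ν = (ρ.prod (volume : Measure G)).withDensity
      fun q => ENNReal.ofReal (dens (κ q.1) g q.2) := by
  have hm : Measurable fun q : Ω × G => ENNReal.ofReal (dens (κ q.1) g q.2) :=
    ENNReal.measurable_ofReal.comp (kdens_meas κ hg.cont).measurable
  have hT : Measurable fun p : (Ω × G) × G => (p.1.1, p.1.2 + p.2) := by fun_prop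
  refine Measure.ext_of_lintegral _ fun φ hφ => ?_
  rw [addNoise, lintegral_map hφ hT, lintegral_prod (fun a : (Ω × G) × G => φ (a.1.1, a.1.2 + a.2)) (hφ.comp hT).aemeasurable,
    Measure.lintegral_compProd (f := fun a : Ω × G => ∫⁻ z, φ (a.1, a.2 + z) ∂ν)
      (hφ.comp hT).lintegral_prod_right',
    lintegral_withDensity_eq_lintegral_mul _ hm hφ, lintegral_prod _ (hm.mul hφ).aemeasurable]
  refine lintegral_congr fun ω => ?_
  show ∫⁻ b, ∫⁻ z, (fun y => φ (ω, y)) (b + z) ∂ν ∂κ ω = _
  rw [← Measure.lintegral_conv (f := fun y => φ (ω, y)) (hφ.comp measurable_prodMk_left), (hg.conv (κ ω)).eq]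
  exact lintegral_withDensity_eq_lintegral_mul _ (hm.comp measurable_prodMk_left)
    (hφ.comp measurable_prodMk_left)

theorem negEnt_addNoise_eq (ρ : Measure Ω) [IsProbabilityMeasure ρ] (κ : Kernel Ω G)
    [IsMarkovKernel κ] {ν : Measure G} [IsProbabilityMeasure ν] {g : G → ℝ} (hg : HasDens ν g) :
    negEnt (addNoise (ρ ⊗ₘ κ) ν) = -∫ ω, ent (κ ω ∗ ν) ∂ρ := by
  have hm : Measurable fun q : Ω × G => ENNReal.ofReal (dens (κ q.1) g q.2) :=
    ENNReal.measurable_ofReal.comp (kdens_meas κ hg.cont).measurable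
  have hT : Measurable fun p : (Ω × G) × G => (p.1.1, p.1.2 + p.2) := by fun_prop
  have hpos : ∀ q : Ω × G, 0 < dens (κ q.1) g q.2 := fun q => (hg.conv (κ q.1)).pos q.2
  set μ := addNoise (ρ ⊗ₘ κ) ν with hμ
  have : IsProbabilityMeasure μ := Measure.isProbabilityMeasure_map hT.aemeasurable
  have hfst : μ.fst = ρ := by
    rw [hμ, addNoise, Measure.fst, Measure.map_map measurable_fst hT]
    calc _ = (((ρ ⊗ₘ κ).prod ν).map Prod.fst).map Prod.fst :=
          (Measure.map_map measurable_fst measurable_fst).symm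
      _ = (ρ ⊗ₘ κ).fst := by rw [show ((ρ ⊗ₘ κ).prod ν).map Prod.fst = ρ ⊗ₘ κ from Measure.fst_prod]; rfl
      _ = ρ := Measure.fst_compProd ρ κ
  have heq : μ = (ρ.prod (volume : Measure G)).withDensity
      fun q => ENNReal.ofReal (dens (κ q.1) g q.2) := addNoise_compProd ρ κ hg
  have hac : μ ≪ ρ.prod (volume : Measure G) := heq ▸ withDensity_absolutelyContinuous _ _
  rw [negEnt, hfst, toReal_klDiv_of_measure_eq hac (by simp)]
  have hllr : llr μ (ρ.prod (volume : Measure G)) =ᵐ[μ]
      fun q => Real.log (dens (κ q.1) g q.2) := by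
    refine hac.ae_le ?_
    filter_upwards [heq ▸ Measure.rnDeriv_withDensity (ρ.prod (volume : Measure G)) hm] with q hq
    simp [llr, hq, ENNReal.toReal_ofReal (hpos q).le]
  rw [integral_congr_ae hllr, heq, integral_withDensity_eq_integral_toReal_smul hm
    (Filter.Eventually.of_forall fun _ => ENNReal.ofReal_lt_top)]
  simp only [ENNReal.toReal_ofReal (hpos _).le, smul_eq_mul]
  rw [integral_prod _ (integrable_dens_log ρ κ hg), ← integral_neg]
  exact integral_congr_ae (Filter.Eventually.of_forall fun ω => by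
    simp only [(hg.conv (κ ω)).ent_eq, neg_neg])

end Vale.Agent.P047.Disproof.Loc
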