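import Vale.Agent.P047.Disproof.LocalStep
import Vale.Agent.P047.Disproof.LocalFiber
import Vale.Agent.P047.Disproof.CountKL

/-!
The two point entropy inequality with a small relative loss, conditionally on a side variable.
-/

namespace Vale.Agent.P047.Disproof

open MeasureTheory ProbabilityTheory InformationTheory
open scoped ProbabilityTheory

/-- Relative information of one coordinate. -/
noncomputable def info1 {Ω : Type} [MeasurableSpace Ω] (μ : Measure (Ω × Tor)) (v : ℝ) : ℝ :=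
  -negEnt μ - gEnt v

/-- The information of an image of the pair is the average over the side variable. -/
lemma info1_map_eq {Ω : Type} [MeasurableSpace Ω] [StandardBorelSpace Ω] [Nonempty Ω]
    (π : Measure (Ω × (Tor × Tor))) [IsProbabilityMeasure π] (ν : Measure (Tor × Tor))
    [IsProbabilityMeasure ν] {f : Tor × Tor → Tor} (hf : Measurable f)
    (hadd : ∀ a b, f (a + b) = f a + f b) {w v : ℝ} (hv : 0 < v) (hν : ν.map f = noise1 v) :
    Integrable (fun ω => Loc.ent ((π.condKernel ω).map f ∗ noise1 v)) π.fst ∧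
      info1 ((addNoise π ν).map (Prod.map id f)) w =
        (∫ ω, Loc.ent ((π.condKernel ω).map f ∗ noise1 v) ∂π.fst) - gEnt w := by
  have hg := Loc.noise1_dens hv
  have := Kernel.IsMarkovKernel.map π.condKernel hf
  have hk : ∀ ω, (π.condKernel.map f) ω = (π.condKernel ω).map f := fun ω =>
    Kernel.map_apply _ hf ω
  have hπ : π.map (Prod.map id f) = π.fst ⊗ₘ π.condKernel.map f := by
    rw [Measure.compProd_map hf, π.disintegrate]
  refine ⟨(Loc.integrable_ent_conv π.fst (π.condKernel.map f) hg).congr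
    (Filter.Eventually.of_forall fun ω => congrArg (fun m => Loc.ent (m ∗ noise1 v)) (hk ω)), ?_⟩
  rw [info1, addNoise_map π ν measurable_id hf hadd, hν, hπ, Loc.negEnt_addNoise_eq _ _ hg,
    neg_neg]
  simp only [hk]

theorem local_ineq : ∃ C : ℝ, 0 < C ∧ ∀ (Ω : Type) [MeasurableSpace Ω]
    [StandardBorelSpace Ω] [Nonempty Ω] (π : Measure (Ω × (Tor × Tor))) [IsProbabilityMeasure π]
    (s σ κ r : ℝ) (L : ℕ), 0 < s → 0 < κ → κ ≤ 1 / 4 → 0 ≤ r → κ ^ 2 ≤ 1 - r → 1 ≤ L →
    s ≤ σ * κ ^ (L + 1) → σ ≤ 1 / 16 →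
    let μ := addNoise π (noise2 (s ^ 2) r)
    let F0 := info1 (μ.map fun p => (p.1, p.2.1)) (s ^ 2)
    let F1 := info1 (μ.map fun p => (p.1, p.2.2)) (s ^ 2)
    let Fd := info1 (μ.map fun p => (p.1, p.2.2 - p.2.1)) (2 * s ^ 2 * (1 - r))
    let J := -negEnt μ - gEnt (2 * s ^ 2 * (1 - r)) - gEnt (s ^ 2 * (1 + r) / 2)
    (1 + r) * J - 2 * r * Fd ≤ (1 + C / L) * (F0 + F1) + C * Real.exp (-(1 / (100 * σ ^ 2))) := by
  obtain ⟨C, hC, hpt⟩ := Loc.point_ineq
  refine ⟨C, hC, fun Ω _ _ _ π _ s σ κ r L hs hκ hκ4 hr hκr hL hsσ hσ => ?_⟩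
  intro μ F0 F1 Fd J
  have hv : 0 < s ^ 2 := by positivity
  have hr1 : r < 1 := by nlinarith
  obtain ⟨i0, e0⟩ := info1_map_eq π (noise2 (s ^ 2) r) measurable_fst (fun _ _ => rfl)
    (w := s ^ 2) hv (Loc.noise2_map_fst hv.le hr hr1)
  obtain ⟨i1, e1⟩ := info1_map_eq π (noise2 (s ^ 2) r) measurable_snd (fun _ _ => rfl)
    (w := s ^ 2) hv (Loc.noise2_map_snd hv.le hr hr1)
  obtain ⟨id', ed⟩ := info1_map_eq π (noise2 (s ^ 2) r) Loc.continuous_dHom.measurable
    (fun a b => map_add Loc.dHom a b) (w := 2 * s ^ 2 * (1 - r)) (v := 2 * s ^ 2 * (1 - r))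
    (mul_pos (by positivity) (by linarith)) (Loc.noise2_map_dHom hv.le hr hr1)
  obtain ⟨g, hg, -⟩ := Loc.noise2_dens hv hr hr1
  have i2 := Loc.integrable_ent_conv π.fst π.condKernel hg
  have e2 : -negEnt μ = ∫ ω, Loc.ent (π.condKernel ω ∗ noise2 (s ^ 2) r) ∂π.fst := by
    have h := Loc.negEnt_addNoise_eq π.fst π.condKernel hg
    rw [π.disintegrate] at h
    rw [show μ = addNoise π (noise2 (s ^ 2) r) from rfl, h, neg_neg]
  have h := integral_mono
    (((i2.sub (integrable_const (gEnt (2 * s ^ 2 * (1 - r))))).sub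
      (integrable_const (gEnt (s ^ 2 * (1 + r) / 2)))).const_mul (1 + r) |>.sub
        ((id'.sub (integrable_const (gEnt (2 * s ^ 2 * (1 - r))))).const_mul (2 * r)))
    ((((i0.sub (integrable_const (gEnt (s ^ 2)))).add
      (i1.sub (integrable_const (gEnt (s ^ 2))))).const_mul (1 + C / L)).add
        (integrable_const (C * Real.exp (-(1 / (100 * σ ^ 2))))))
    fun ω => hpt (π.condKernel ω) s σ κ r L hs hκ hκ4 hr hκr hL hsσ hσ
  simp only [Pi.sub_apply, Pi.add_apply] at h
  have kJ : Integrable (fun ω => Loc.ent (π.condKernel ω ∗ noise2 (s ^ 2) r) -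
      gEnt (2 * s ^ 2 * (1 - r))) π.fst := i2.sub (integrable_const _)
  have kJ' : Integrable (fun ω => Loc.ent (π.condKernel ω ∗ noise2 (s ^ 2) r) -
      gEnt (2 * s ^ 2 * (1 - r)) - gEnt (s ^ 2 * (1 + r) / 2)) π.fst :=
    kJ.sub (integrable_const _)
  have kd : Integrable (fun ω => Loc.ent ((π.condKernel ω).map Loc.dHom ∗
      noise1 (2 * s ^ 2 * (1 - r))) - gEnt (2 * s ^ 2 * (1 - r))) π.fst :=
    id'.sub (integrable_const _)
  have k0 : Integrable (fun ω => Loc.ent ((π.condKernel ω).map Prod.fst ∗ noise1 (s ^ 2)) -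
      gEnt (s ^ 2)) π.fst := i0.sub (integrable_const _)
  have k1 : Integrable (fun ω => Loc.ent ((π.condKernel ω).map Prod.snd ∗ noise1 (s ^ 2)) -
      gEnt (s ^ 2)) π.fst := i1.sub (integrable_const _)
  have k01 : Integrable (fun ω => Loc.ent ((π.condKernel ω).map Prod.fst ∗ noise1 (s ^ 2)) -
      gEnt (s ^ 2) + (Loc.ent ((π.condKernel ω).map Prod.snd ∗ noise1 (s ^ 2)) -
      gEnt (s ^ 2))) π.fst := k0.add k1
  rw [integral_sub (kJ'.const_mul _) (kd.const_mul _), integral_const_mul,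
    integral_sub kJ (integrable_const _), integral_sub i2 (integrable_const _), integral_const_mul,
    integral_sub id' (integrable_const _),
    integral_add (k01.const_mul _) (integrable_const _),
    integral_const_mul, integral_add k0 k1,
    integral_sub i0 (integrable_const _), integral_sub i1 (integrable_const _)] at h
  simp only [integral_const, probReal_univ, one_smul] at h
  change (1 + r) * (-negEnt μ - gEnt (2 * s ^ 2 * (1 - r)) - gEnt (s ^ 2 * (1 + r) / 2)) -
    2 * r * info1 ((addNoise π (noise2 (s ^ 2) r)).map (Prod.map id Loc.dHom))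
      (2 * s ^ 2 * (1 - r)) ≤
    (1 + C / L) * (info1 ((addNoise π (noise2 (s ^ 2) r)).map (Prod.map id Prod.fst)) (s ^ 2) +
      info1 ((addNoise π (noise2 (s ^ 2) r)).map (Prod.map id Prod.snd)) (s ^ 2)) +
      C * Real.exp (-(1 / (100 * σ ^ 2)))
  rw [e0, e1, ed, e2]
  exact h

end Vale.Agent.P047.Disproof
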