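import Vale.Agent.P047.Disproof.Torus
import Vale.Agent.P047.Disproof.Local
import Vale.Agent.P047.Disproof.CountDecode

/-!
Counting separated near-integral polynomials.
-/

namespace Vale.Agent.P047.Disproof

open Finset Filter

/-- The pointwise variance allowed along the recursion. -/
noncomputable def varCap (n : ℕ) : ℝ := (2 : ℝ) ^ (-(3 * (n : ℝ)) / 1000)

/-- The variance scale of the noise. -/
noncomputable def varTop (n : ℕ) : ℝ := (2 : ℝ) ^ (3 * (n : ℝ) / 1000)

theorem varCap_eq_pow (n : ℕ) : varCap n = ((2 : ℝ) ^ (-(3 : ℝ) / 1000)) ^ n := by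
  rw [varCap, ← Real.rpow_natCast, ← Real.rpow_mul (by norm_num)]
  congr 1; ring

theorem good_top (n : ℕ) : GoodScale (varCap n) n (tdeg n) (varTop n) := by
  refine ⟨Real.rpow_pos_of_pos (by norm_num) _, ?_⟩
  have ht : ((tdeg n : ℕ) : ℝ) ≤ 73 * (n : ℝ) / 200 := by
    rw [le_div_iff₀ (by norm_num)]
    have : tdeg n * 200 ≤ 73 * n := Nat.div_mul_le_self _ _
    exact_mod_cast this
  have key : 1006 * Real.log 2 ≤ 635 * Real.log 3 := by
    have h := Real.log_le_log (by norm_num) (show (2 : ℝ) ^ 1006 ≤ 3 ^ 635 by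
      exact_mod_cast (by decide +kernel : (2 : ℕ) ^ 1006 ≤ 3 ^ 635))
    simpa [Real.log_pow] using h
  unfold varTop varCap
  rw [← Real.log_le_log_iff (by positivity) (by positivity), Real.log_mul (by positivity) (by positivity),
    Real.log_mul (by positivity) (by positivity), Real.log_pow, Real.log_pow,
    Real.log_div (by norm_num) (by norm_num), Real.log_rpow (by norm_num),
    Real.log_rpow (by norm_num)]
  have h3 : 0 ≤ Real.log 3 := Real.log_nonneg (by norm_num)
  have := mul_le_mul_of_nonneg_right ht h3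
  have := mul_le_mul_of_nonneg_left key (Nat.cast_nonneg (α := ℝ) n)
  linarith

theorem tendsto_self_mul_exp {a c : ℝ} (ha : 0 < a) (hc : 0 < c) :
    ∀ᶠ n : ℕ in atTop, c * (n : ℝ) ≤ (2 : ℝ) ^ (a * n) := by
  have hr0 : 0 ≤ ((2 : ℝ) ^ (-a)) := by positivity
  have hr1 : (2 : ℝ) ^ (-a) < 1 := Real.rpow_lt_one_of_one_lt_of_neg (by norm_num) (by linarith)
  filter_upwards [(tendsto_self_mul_const_pow_of_lt_one hr0 hr1).eventually_le_const
    (inv_pos.2 hc)] with n hn
  rw [← Real.rpow_natCast, ← Real.rpow_mul (by norm_num), neg_mul, Real.rpow_neg (by norm_num),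
    ← div_eq_mul_inv, div_le_iff₀ (by positivity)] at hn
  rw [mul_comm c, ← le_div_iff₀ hc, div_eq_inv_mul]
  exact hn

theorem localBound_eventually : ∃ C : ℝ, ∀ᶠ n : ℕ in atTop,
    LocalBound (varCap n) (1 / 2000) (C * Real.exp (-((n : ℝ) ^ 2 / 100)) + leafErr (varCap n)) n ∧
      0 ≤ C := by
  obtain ⟨C, hC, hloc⟩ := local_ineq
  refine ⟨C, ?_⟩
  set L := ⌈2000 * C⌉₊ with hL
  have hL1 : 1 ≤ L := Nat.ceil_pos.2 (by positivity)
  have hLe : C / L ≤ 1 / 2000 := by
    have : 2000 * C ≤ L := Nat.le_ceil _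
    rw [div_le_div_iff₀ (by exact_mod_cast hL1) (by norm_num)]
    linarith
  set r : ℝ := (2 : ℝ) ^ (-(3 : ℝ) / 2000) with hr
  have hr1 : r < 1 := Real.rpow_lt_one_of_one_lt_of_neg (by norm_num) (by norm_num)
  have hlim := tendsto_pow_const_mul_const_pow_of_lt_one (L + 2) (by positivity : 0 ≤ r) hr1
  have h6 : (0 : ℝ) < (6 ^ (L + 1))⁻¹ := by positivity
  filter_upwards [hlim.eventually_le_const h6, eventually_ge_atTop 16] with n hn hn16
  refine ⟨?_, hC.le⟩
  intro Ω _ _ _ π _ w r' hw hwS hr0 hr'1 μ F0 F1 Fd J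
  have hn' : (16 : ℝ) ≤ n := by exact_mod_cast hn16
  set κ : ℝ := 1 / (2 * ((n : ℝ) + 2)) with hκ
  set σ : ℝ := 1 / (n : ℝ) with hσ
  have hκ0 : 0 < κ := by positivity
  have hκ4 : κ ≤ 1 / 4 := one_div_le_one_div_of_le (by norm_num) (by linarith)
  have hκr : κ ^ 2 ≤ 1 - r' := by
    refine le_trans ?_ hr'1
    rw [hκ, div_pow, one_pow, div_le_div_iff₀ (by positivity) (by positivity)]
    nlinarith
  have hσ16 : σ ≤ 1 / 16 := one_div_le_one_div_of_le (by norm_num) hn'
  have hs : √w ≤ σ * κ ^ (L + 1) := by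
    have h1 : √w ≤ r ^ n := by
      rw [Real.sqrt_le_iff]
      refine ⟨by positivity, hwS.trans (le_of_eq ?_)⟩
      rw [varCap_eq_pow, ← pow_mul, mul_comm n 2, pow_mul, hr, sq, ← Real.rpow_add (by norm_num)]
      norm_num
    refine h1.trans ?_
    have h2 : (2 * ((n : ℝ) + 2)) ^ (L + 1) * n ≤ 6 ^ (L + 1) * (n : ℝ) ^ (L + 2) := by
      rw [pow_succ (n : ℝ) (L + 1), ← mul_assoc, ← mul_pow]
      exact mul_le_mul_of_nonneg_right (pow_le_pow_left₀ (by positivity) (by linarith) _)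
        (by positivity)
    have h3 : r ^ n * ((2 * ((n : ℝ) + 2)) ^ (L + 1) * n) ≤ 1 := by
      refine (mul_le_mul_of_nonneg_left h2 (by positivity)).trans ?_
      have h6' := mul_le_mul_of_nonneg_left hn (by positivity : (0 : ℝ) ≤ 6 ^ (L + 1))
      rw [mul_inv_cancel₀ (by positivity)] at h6'
      linarith
    rw [hσ, hκ, div_pow, one_pow, div_mul_div_comm, one_mul, le_div_iff₀ (by positivity)]
    linarith
  have h := hloc Ω π (√w) σ κ r' L (Real.sqrt_pos.2 hw) hκ0 hκ4 hr0 hκr hL1 hs hσ16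
  simp only [Real.sq_sqrt hw.le] at h
  have he : Real.exp (-(1 / (100 * σ ^ 2))) = Real.exp (-((n : ℝ) ^ 2 / 100)) := by
    congr 1; rw [hσ]; field_simp
  rw [he] at h
  have hl : 0 ≤ leafErr (varCap n) := by unfold leafErr; positivity
  -- both marginals carry at least minus the wrap error
  have hF : ∀ (f : Tor × Tor → Tor), Measurable f → (∀ a b, f (a + b) = f a + f b) →
      (noise2 w r').map f = noise1 w → -leafErr (varCap n) ≤ info1 (μ.map (Prod.map id f)) w := by
    intro f hf hadd hmap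
    have hw16 : w ≤ 1 / 16 := by
      have hb : √w ≤ 1 / 16 :=
        hs.trans (le_trans (mul_le_of_le_one_right (by positivity)
          (pow_le_one₀ hκ0.le (by linarith))) hσ16)
      have := pow_le_pow_left₀ (Real.sqrt_nonneg w) hb 2
      rw [Real.sq_sqrt hw.le] at this
      linarith
    obtain ⟨h1, h2⟩ := noise1_info_le hw hw16
    have : MeasureTheory.IsProbabilityMeasure (noise2 w r') :=
      MeasureTheory.Measure.isProbabilityMeasure_map ((AddCircle.measurable_mk'.comp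
        (by fun_prop)).prodMk (AddCircle.measurable_mk'.comp (by fun_prop))).aemeasurable
    have : MeasureTheory.IsProbabilityMeasure (π.map (Prod.map id f)) :=
      MeasureTheory.Measure.isProbabilityMeasure_map (measurable_id.prodMap hf).aemeasurable
    have hle : cKL MeasureTheory.volume (μ.map (Prod.map id f)) ≤
        InformationTheory.klDiv (noise1 w) MeasureTheory.volume := by
      rw [addNoise_map π _ measurable_id hf hadd, hmap]
      exact cKL_addNoise_le _ _ _
    rw [info1, negEnt_eq_cKL]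
    have := ENNReal.toReal_mono h1 hle
    linarith [leafErr_mono hw hwS]
  have hn2 : ∀ b : Bool, (noise2 w r').map (fun p => if b then p.2 else p.1) = noise1 w := by
    intro b
    have hmp : Measurable fun p : ℝ × ℝ =>
        (((p.1 - p.2 / 2 : ℝ) : Tor), ((p.1 + p.2 / 2 : ℝ) : Tor)) :=
      (AddCircle.measurable_mk'.comp (by fun_prop)).prodMk
        (AddCircle.measurable_mk'.comp (by fun_prop))
    have hsel : Measurable fun p : Tor × Tor => if b then p.2 else p.1 := by
      cases b <;> simp <;> fun_prop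
    have hadd : Measurable fun q : ℝ × ℝ => q.1 + q.2 := by fun_prop
    set c : ℝ := if b then 1 / 2 else -(1 / 2) with hc
    have hmul : Measurable fun z : ℝ => c * z := by fun_prop
    have e : (fun p : Tor × Tor => if b then p.2 else p.1) ∘ (fun p : ℝ × ℝ =>
        (((p.1 - p.2 / 2 : ℝ) : Tor), ((p.1 + p.2 / 2 : ℝ) : Tor))) =
        (fun x : ℝ => (x : Tor)) ∘ ((fun q : ℝ × ℝ => q.1 + q.2) ∘ Prod.map id fun z => c * z) := by
      funext p
      simp only [Function.comp, Prod.map, id, hc]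
      cases b
      · simp only [Bool.false_eq_true, if_false]; congr 1; ring
      · simp only [if_true]; congr 1; ring
    rw [noise2, MeasureTheory.Measure.map_map hsel hmp, e,
      ← MeasureTheory.Measure.map_map AddCircle.measurable_mk'
        (hadd.comp (measurable_id.prodMap hmul)),
      ← MeasureTheory.Measure.map_map hadd (measurable_id.prodMap hmul),
      ← MeasureTheory.Measure.map_prod_map _ _ measurable_id hmul, MeasureTheory.Measure.map_id,
      ProbabilityTheory.gaussianReal_map_const_mul, mul_zero]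
    change (MeasureTheory.Measure.conv _ _).map _ = _
    rw [ProbabilityTheory.gaussianReal_conv_gaussianReal, add_zero, noise1]
    congr 2
    have hc2 : c ^ 2 = 1 / 4 := by cases b <;> simp [hc] <;> norm_num
    have : 0 ≤ 1 + r' := by linarith
    have : 0 ≤ 1 - r' := le_trans (by positivity) hr'1
    rw [← NNReal.coe_inj]
    simp only [NNReal.coe_add, NNReal.coe_mul, NNReal.coe_mk, hc2]
    rw [Real.coe_toNNReal _ (by positivity), Real.coe_toNNReal _ (by positivity),
      Real.coe_toNNReal _ hw.le]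
    ring
  have hF0 : -leafErr (varCap n) ≤ F0 :=
    hF (fun p => p.1) measurable_fst (fun _ _ => rfl) (by simpa using hn2 false)
  have hF1 : -leafErr (varCap n) ≤ F1 :=
    hF (fun p => p.2) measurable_snd (fun _ _ => rfl) (by simpa using hn2 true)
  have hgap : 0 ≤ 1 / 2000 - C / L := by linarith
  have hgap2 : 1 / 2000 - C / L ≤ 1 / 2000 := by
    have : 0 ≤ C / L := by positivity
    linarith
  nlinarith [mul_le_mul_of_nonneg_left hF0 hgap, mul_le_mul_of_nonneg_left hF1 hgap,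
    mul_le_mul_of_nonneg_right hgap2 hl]

theorem count_separated : ∀ᶠ n : ℕ in atTop, ∀ (P : Finset (Idx n (tdeg n) → ℝ)) (w : ℝ),
    0 ≤ w → (∀ θ ∈ P, W (ev n (tdeg n) θ) ≤ w) →
    (∀ θ ∈ P, ∀ θ' ∈ P, θ ≠ θ' → ∀ z : Idx n (tdeg n) → ℤ,
      ∃ x, 4 * eta n < |ev n (tdeg n) (θ - θ' - fun i => (z i : ℝ)) x|) →
    Real.log P.card ≤ alph n * w + 1 / 4 := by
  obtain ⟨C, hC⟩ := localBound_eventually
  have hexp : Tendsto (fun n : ℕ => (C + 142) * Real.exp (-(n : ℝ))) atTop (nhds 0) := by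
    simpa using ((Real.tendsto_exp_atBot.comp
      (tendsto_neg_atTop_atBot.comp tendsto_natCast_atTop_atTop)).const_mul (C + 142))
  filter_upwards [hC, hexp.eventually_le_const (show (0 : ℝ) < 1 / 1000 by norm_num),
    tendsto_self_mul_exp (a := 3 / 1000) (c := 64 * 8) (by norm_num) (by norm_num),
    tendsto_self_mul_exp (a := 1 / 1000) (c := 8) (by norm_num) (by norm_num),
    eventually_ge_atTop 2000] with n hloc hsmall hbig3 hbig1 hn P w hw hW hsep
  obtain ⟨hloc, hC0⟩ := hloc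
  rcases P.eq_empty_or_nonempty with rfl | hP
  · have : 0 ≤ alph n * w := mul_nonneg (Real.rpow_nonneg (by norm_num) _) hw
    simp only [Finset.card_empty, Nat.cast_zero, Real.log_zero]
    linarith
  have hn' : (2000 : ℝ) ≤ n := by exact_mod_cast hn
  set S := varCap n with hS
  have hS0 : 0 < S := Real.rpow_pos_of_pos (by norm_num) _
  have hS16 : S ≤ 1 / 16 := by
    rw [hS, varCap, show (1 : ℝ) / 16 = 2 ^ (-4 : ℝ) by norm_num]
    exact Real.rpow_le_rpow_of_exponent_le (by norm_num) (by linarith)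
  set T := C * Real.exp (-((n : ℝ) ^ 2 / 100)) + leafErr S with hT
  have hTl : leafErr S ≤ T := by
    have : 0 ≤ C * Real.exp (-((n : ℝ) ^ 2 / 100)) := by positivity
    linarith
  set δ := Real.exp (-(n : ℝ)) with hδ
  have hδ0 : 0 < δ := Real.exp_pos _
  have hδ1 : δ ≤ 1 := Real.exp_le_one_iff.2 (by linarith)
  have hb : (2 * eta n) ^ 2 / (4 * S) = (2 : ℝ) ^ ((1 : ℝ) / 1000 * n) := by
    rw [eta, hS, varCap, mul_pow, sq ((2 : ℝ) ^ _), ← Real.rpow_add (by norm_num)]
    rw [show (2 : ℝ) ^ 2 = 4 by norm_num, mul_div_mul_left _ _ (by norm_num : (4 : ℝ) ≠ 0),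
      ← Real.rpow_sub (by norm_num)]
    congr 1; ring
  have hpow2 : ∀ c : ℕ, (2 : ℝ) ^ (c * n) ≤ Real.exp (c * n) := by
    intro c
    rw [← Nat.cast_mul, ← Real.exp_one_pow]
    exact pow_le_pow_left₀ (by norm_num) (by linarith [Real.add_one_le_exp (1 : ℝ)]) _
  have hδb : 2 ^ n * (2 * Real.exp (-((2 * eta n) ^ 2 / (4 * S)))) ≤ δ := by
    rw [hb]
    have h1 : (2 : ℝ) ^ n ≤ Real.exp n := by simpa using hpow2 1
    have h2 : (2 : ℝ) ≤ Real.exp 1 := by linarith [Real.add_one_le_exp (1 : ℝ)]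
    calc (2 : ℝ) ^ n * (2 * Real.exp (-((2 : ℝ) ^ ((1 : ℝ) / 1000 * n))))
        ≤ Real.exp n * (Real.exp 1 * Real.exp (-((2 : ℝ) ^ ((1 : ℝ) / 1000 * n)))) := by gcongr
      _ ≤ δ := by
          rw [hδ, ← Real.exp_add, ← Real.exp_add, Real.exp_le_exp]
          linarith
  have hc : (1 + (1 / 2000 : ℝ)) ^ n ≤ Real.exp (n / 2000) := by
    have := pow_le_pow_left₀ (by norm_num) (Real.add_one_le_exp (1 / 2000 : ℝ)) n
    rw [← Real.exp_nat_mul, show (n : ℝ) * (1 / 2000) = n / 2000 by ring] at this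
    linarith
  have hsep' : ∀ θ ∈ P, ∀ θ' ∈ P, θ ≠ θ' → ∀ u : Idx n (tdeg n) → ℤ,
      ∃ x, 2 * (2 * eta n) < |ev n (tdeg n) (θ - θ' - fun i => (u i : ℝ)) x| := by
    intro θ h θ' h' hne u
    obtain ⟨x, hx⟩ := hsep θ h θ' h' hne u
    exact ⟨x, by linarith⟩
  have heta : 0 ≤ 2 * eta n := by
    have : 0 < eta n := Real.rpow_pos_of_pos (by norm_num) _
    linarith
  have main := count_le hS16 (by norm_num) hTl hloc (tdeg n) (varTop n) (good_top n) (2 * eta n) heta
    δ hδ0 hδ1 hδb P hP w hW hsep'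
  -- the errors
  have hδlog : δ * Real.log (1 / δ) ≤ 2 * Real.exp (-((n : ℝ) / 2)) := by
    rw [hδ, one_div, Real.log_inv, Real.log_exp, neg_neg]
    have h := Real.add_one_le_exp ((n : ℝ) / 2)
    have e : Real.exp (-(n : ℝ)) = Real.exp (-((n : ℝ) / 2)) * (Real.exp ((n : ℝ) / 2))⁻¹ := by
      rw [← Real.exp_neg ((n : ℝ) / 2), ← Real.exp_add]; congr 1; ring
    rw [e, mul_assoc]
    rw [mul_comm (2 : ℝ)]
    refine mul_le_mul_of_nonneg_left ?_ (Real.exp_pos _).le
    rw [inv_mul_le_iff₀ (Real.exp_pos _)]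
    linarith
  have hhalf : Real.exp (-((n : ℝ) / 2)) ≤ 1 / 1000 := by
    rw [Real.exp_neg, one_div, inv_le_inv₀ (Real.exp_pos _) (by norm_num)]
    linarith [Real.add_one_le_exp ((n : ℝ) / 2)]
  have hδs : δ ≤ 1 / 1000 := (Real.exp_le_exp.2 (by linarith)).trans hhalf
  have herr : 2 * 4 ^ n * (1 + (1 / 2000 : ℝ)) ^ n * T ≤ 2 * (1 / 1000) := by
    have h4 : (4 : ℝ) ^ n * (1 + (1 / 2000 : ℝ)) ^ n ≤ Real.exp (3 * n) := by
      have h1 := hpow2 2
      rw [pow_mul] at h1
      norm_num at h1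
      calc (4 : ℝ) ^ n * (1 + (1 / 2000 : ℝ)) ^ n ≤ Real.exp (2 * n) * Real.exp (n / 2000) := by
            gcongr
        _ ≤ _ := by rw [← Real.exp_add, Real.exp_le_exp]; linarith
    have hT' : T ≤ (C + 142) * Real.exp (-(4 * (n : ℝ))) := by
      have h1 : Real.exp (-((n : ℝ) ^ 2 / 100)) ≤ Real.exp (-(4 * (n : ℝ))) := by
        rw [Real.exp_le_exp]
        nlinarith
      have h2 : leafErr S ≤ 140 * Real.exp (-(4 * (n : ℝ))) := by
        unfold leafErr
        have : 1 / (64 * S) = (2 : ℝ) ^ ((3 : ℝ) / 1000 * n) / 64 := by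
          rw [hS, varCap, mul_comm (64 : ℝ), ← div_div, one_div, ← Real.rpow_neg (by norm_num)]
          congr 2; ring
        rw [this]
        gcongr
        linarith
      have := mul_le_mul_of_nonneg_left h1 hC0
      linarith [Real.exp_pos (-(4 * (n : ℝ)))]
    have hT0 : 0 ≤ T := le_trans (by unfold leafErr; positivity) hTl
    calc 2 * 4 ^ n * (1 + (1 / 2000 : ℝ)) ^ n * T
        = 2 * ((4 ^ n * (1 + (1 / 2000 : ℝ)) ^ n) * T) := by ring
      _ ≤ 2 * (Real.exp (3 * n) * ((C + 142) * Real.exp (-(4 * (n : ℝ))))) := by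
          gcongr
      _ = 2 * ((C + 142) * Real.exp (-(n : ℝ))) := by
          rw [show -(n : ℝ) = 3 * n + -(4 * n) by ring, Real.exp_add]; ring
      _ ≤ _ := by linarith
  have hmain2 : (1 + (1 / 2000 : ℝ)) ^ n * (w / (2 * varTop n)) ≤ alph n * w / 2 := by
    have h1 : Real.exp ((n : ℝ) / 2000) ≤ (2 : ℝ) ^ ((n : ℝ) / 1000) := by
      rw [Real.rpow_def_of_pos (by norm_num), Real.exp_le_exp]
      have hh := Real.log_two_gt_d9
      have := mul_le_mul_of_nonneg_left (show (1 / 2 : ℝ) ≤ Real.log 2 by linarith)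
        (show (0 : ℝ) ≤ n / 1000 by positivity)
      linarith
    have hv : 0 < varTop n := Real.rpow_pos_of_pos (by norm_num) _
    have h2 : (1 + (1 / 2000 : ℝ)) ^ n / varTop n ≤ alph n := by
      rw [div_le_iff₀ hv, alph, varTop, ← Real.rpow_add (by norm_num)]
      refine hc.trans (h1.trans (le_of_eq ?_))
      congr 1; ring
    have h3 := mul_le_mul_of_nonneg_right h2 (by linarith : 0 ≤ w / 2)
    calc (1 + (1 / 2000 : ℝ)) ^ n * (w / (2 * varTop n))
        = (1 + (1 / 2000 : ℝ)) ^ n / varTop n * (w / 2) := by field_simp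
      _ ≤ alph n * (w / 2) := h3
      _ = _ := by ring
  have hα : 0 ≤ alph n * w := mul_nonneg (Real.rpow_nonneg (by norm_num) _) hw
  have hK0 : 0 ≤ Real.log P.card := Real.log_natCast_nonneg _
  have hsc : (999 / 1000) * Real.log P.card ≤ (1 - δ) * Real.log P.card :=
    mul_le_mul_of_nonneg_right (by linarith) hK0
  linarith

end Vale.Agent.P047.Disproof
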