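import Vale.Agent.P047.Disproof.CountKL

/-!
One Gaussian on the circle: entropy bounds with explicit error.
-/

namespace Vale.Agent.P047.Disproof

open MeasureTheory ProbabilityTheory InformationTheory Real
open scoped ENNReal NNReal

/-- The wrap error of a Gaussian of variance `v` on the circle. -/
noncomputable def leafErr (v : ℝ) : ℝ := 140 * exp (-(1 / (64 * v)))

/-- Weights of the unit intervals. -/
noncomputable def cellW (δ : ℝ) (l : ℤ) : ℝ :=
  if l = 0 then 1 - δ else δ / 2 * (1 / 2) ^ l.natAbs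

/-- The index of the interval `(l - 1/2, l + 1/2]` of a real. -/
noncomputable def cell (x : ℝ) : ℤ := ⌈x - 1 / 2⌉

theorem hasSum_cellW (δ : ℝ) : HasSum (cellW δ) 1 := by
  have hg : HasSum (fun n : ℕ => δ / 4 * (1 / 2 : ℝ) ^ n) (δ / 2) := by
    have h := hasSum_geometric_two.mul_left (δ / 4)
    rwa [show δ / 4 * 2 = δ / 2 by ring] at h
  have h1 : HasSum (fun n : ℕ => cellW δ ((n + 1 : ℕ) : ℤ)) (δ / 2) := by
    refine hg.congr_fun fun n => ?_
    have : ((n + 1 : ℕ) : ℤ) ≠ 0 := by omega
    unfold cellW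
    rw [if_neg this, Int.natAbs_natCast, pow_succ]
    ring
  have h1' : HasSum (fun n : ℕ => cellW δ (n : ℤ)) (1 - δ / 2) := by
    have h := (hasSum_nat_add_iff (f := fun n : ℕ => cellW δ (n : ℤ)) 1).1 h1
    rw [Finset.sum_range_one] at h
    have e : δ / 2 + cellW δ ((0 : ℕ) : ℤ) = 1 - δ / 2 := by
      simp only [cellW, Nat.cast_zero, if_true]; ring
    rwa [e] at h
  have h2 : HasSum (fun n : ℕ => cellW δ (-((n : ℤ) + 1))) (δ / 2) := by
    refine hg.congr_fun fun n => ?_
    have : -((n : ℤ) + 1) ≠ 0 := by omega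
    unfold cellW
    rw [if_neg this, show (-((n : ℤ) + 1)).natAbs = n + 1 by omega, pow_succ]
    ring
  have := h1'.of_nat_of_neg_add_one h2
  rwa [sub_add_cancel] at this

/-- A probability law on the line lifting the uniform law, concentrated on the central interval. -/
noncomputable def liftLaw (δ : ℝ) : Measure ℝ :=
  volume.withDensity fun x => ENNReal.ofReal (cellW δ (cell x))

theorem cellW_pos {δ : ℝ} (h0 : 0 < δ) (h1 : δ < 1) (l : ℤ) : 0 < cellW δ l := by
  unfold cellW; split
  · linarith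
  · positivity

theorem measurable_cellW_cell (δ : ℝ) : Measurable fun x => cellW δ (cell x) :=
  (measurable_of_countable (cellW δ)).comp (Int.measurable_ceil.comp (measurable_id.sub_const _))

theorem map_liftLaw {δ : ℝ} (h0 : 0 < δ) (h1 : δ < 1) :
    (liftLaw δ).map (fun x : ℝ => (x : Tor)) = (volume : Measure Tor) := by
  ext A hA
  rw [Measure.map_apply AddCircle.measurable_mk' hA, liftLaw,
    withDensity_apply _ (AddCircle.measurable_mk' hA),
    ← lintegral_indicator (AddCircle.measurable_mk' hA), ← setLIntegral_univ,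
    ← iUnion_Ioc_add_intCast (-(1 / 2) : ℝ),
    lintegral_iUnion (fun _ => measurableSet_Ioc) (Set.pairwise_disjoint_Ioc_add_intCast _)]
  have h : ∀ l : ℤ, ∫⁻ x in Set.Ioc (-(1 / 2) + (l : ℝ)) (-(1 / 2) + l + 1),
      ((fun x : ℝ => (x : Tor)) ⁻¹' A).indicator (fun x => ENNReal.ofReal (cellW δ (cell x))) x =
      ENNReal.ofReal (cellW δ l) * volume A := by
    intro l
    have e : Set.EqOn (((fun x : ℝ => (x : Tor)) ⁻¹' A).indicator
        (fun x => ENNReal.ofReal (cellW δ (cell x))))
        (fun x : ℝ => ENNReal.ofReal (cellW δ l) * A.indicator 1 (x : Tor))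
        (Set.Ioc (-(1 / 2) + (l : ℝ)) (-(1 / 2) + l + 1)) := by
      intro x hx
      have hc : cell x = l := Int.ceil_eq_iff.2 ⟨by linarith [hx.1], by linarith [hx.2]⟩
      by_cases hxA : (x : Tor) ∈ A <;> simp [Set.indicator, hxA, hc]
    rw [setLIntegral_congr_fun measurableSet_Ioc e,
      lintegral_const_mul' _ _ ENNReal.ofReal_ne_top, UnitAddCircle.lintegral_preimage,
      lintegral_indicator_one hA]
  simp only [h, ENNReal.tsum_mul_right]
  rw [← ENNReal.ofReal_tsum_of_nonneg (fun l => (cellW_pos h0 h1 l).le) (hasSum_cellW δ).summable,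
    (hasSum_cellW δ).tsum_eq, ENNReal.ofReal_one, one_mul]

theorem neg_log_cellW_le {v : ℝ} (hv : 0 < v) (hv8 : v ≤ 1 / 16) (x : ℝ) :
    -log (cellW (exp (-(1 / v))) (cell x)) ≤
      2 * exp (-(1 / v)) + (1 / v + 4) * exp (x ^ 2 / (4 * v)) * exp (-(1 / (32 * v))) := by
  set δ := exp (-(1 / v)) with hδ
  have h0 : 0 < δ := exp_pos _
  have hδ2 : δ ≤ 1 / 2 := by
    rw [hδ, exp_neg, inv_le_comm₀ (exp_pos _) (by norm_num)]
    have : (16 : ℝ) ≤ 1 / v := by rw [le_div_iff₀ hv]; linarith
    linarith [add_one_le_exp (1 / v)]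
  have hpos : 0 ≤ (1 / v + 4) * exp (x ^ 2 / (4 * v)) * exp (-(1 / (32 * v))) := by positivity
  by_cases hl : cell x = 0
  · simp only [hl, cellW, if_true]
    have h := one_sub_inv_le_log_of_pos (show (0 : ℝ) < 1 - δ by linarith)
    have : (1 - δ)⁻¹ ≤ 1 + 2 * δ := by
      rw [inv_le_iff_one_le_mul₀ (by linarith)]; nlinarith
    linarith
  · have hx : 1 / 2 ≤ |x| := by
      by_contra hcon
      rw [not_le, abs_lt] at hcon
      exact hl (Int.ceil_eq_iff.2 ⟨by push_cast; linarith [hcon.1], by push_cast; linarith [hcon.2]⟩)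
    have hn : ((cell x).natAbs : ℝ) ≤ |x| + 2 := by
      rw [Nat.cast_natAbs, Int.cast_abs, abs_le]
      have ha := Int.le_ceil (x - 1 / 2)
      have hb := Int.ceil_lt_add_one (x - 1 / 2)
      have := neg_abs_le x; have := le_abs_self x
      unfold cell
      constructor <;> linarith
    simp only [cellW, hl, if_false]
    rw [log_mul (by positivity) (by positivity), log_div h0.ne' (by norm_num), log_pow, hδ, log_exp,
      one_div (2 : ℝ), log_inv]
    have l2 : log 2 ≤ 1 := by linarith [log_le_sub_one_of_pos (show (0 : ℝ) < 2 by norm_num)]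
    have l0 : 0 ≤ log 2 := log_nonneg (by norm_num)
    have key : 1 / v + |x| + 3 ≤ (1 / v + 4) * exp (x ^ 2 / (8 * v)) := by
      have e1 : 1 + x ^ 2 ≤ exp (x ^ 2 / (8 * v)) := by
        have : x ^ 2 ≤ x ^ 2 / (8 * v) := by
          rw [le_div_iff₀ (by positivity)]; nlinarith [sq_nonneg x]
        linarith [add_one_le_exp (x ^ 2 / (8 * v))]
      have : |x| ≤ 1 + x ^ 2 := by nlinarith [sq_abs x, sq_nonneg (|x| - 1)]
      have := one_div_pos.2 hv
      nlinarith
    have key2 : exp (x ^ 2 / (8 * v)) ≤ exp (x ^ 2 / (4 * v)) * exp (-(1 / (32 * v))) := by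
      rw [← exp_add, exp_le_exp]
      have : 1 / 4 ≤ x ^ 2 := by nlinarith [sq_abs x]
      field_simp
      nlinarith
    have h3 : ((cell x).natAbs : ℝ) * log 2 ≤ |x| + 2 := by nlinarith
    have := one_div_pos.2 hv
    nlinarith [exp_pos (-(1 / v))]

theorem integral_sq_gaussianReal (v : ℝ≥0) : ∫ x, x ^ 2 ∂gaussianReal 0 v = v := by
  have h := variance_id_gaussianReal (μ := 0) (v := v)
  rw [variance_eq_integral (by fun_prop)] at h
  simpa [integral_id_gaussianReal] using h

theorem integrable_sq_gaussianReal (v : ℝ≥0) :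
    Integrable (fun x : ℝ => x ^ 2) (gaussianReal 0 v) := by
  simpa using (memLp_id_gaussianReal (μ := 0) (v := v) 2).integrable_sq

theorem integrable_exp_gaussianReal {v : ℝ} (hv : 0 < v) :
    Integrable (fun x => exp (x ^ 2 / (4 * v))) (gaussianReal 0 v.toNNReal) ∧
      ∫ x, exp (x ^ 2 / (4 * v)) ∂gaussianReal 0 v.toNNReal ≤ 2 := by
  have hv' : v.toNNReal ≠ 0 := by simp [hv]
  have e : (fun x => gaussianPDFReal 0 v.toNNReal x * exp (x ^ 2 / (4 * v))) =
      fun x => (√(2 * π * v))⁻¹ * exp (-(1 / (4 * v)) * x ^ 2) := by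
    funext x
    rw [gaussianPDFReal_def, Real.coe_toNNReal _ hv.le, mul_assoc, ← exp_add]
    congr 2
    field_simp
    ring
  constructor
  · rw [gaussianReal_of_var_ne_zero _ hv', integrable_withDensity_iff (measurable_gaussianPDF _ _)
      (Filter.Eventually.of_forall fun _ => gaussianPDF_lt_top)]
    simp only [toReal_gaussianPDF]
    simp_rw [mul_comm (exp _) (gaussianPDFReal _ _ _)]
    rw [e]
    exact (integrable_exp_neg_mul_sq (by positivity)).const_mul _
  · rw [integral_gaussianReal_eq_integral_smul hv']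
    simp only [smul_eq_mul]
    rw [e, integral_const_mul, integral_gaussian]
    rw [inv_mul_le_iff₀ (by positivity)]
    have h2 : (2 : ℝ) = √4 := by
      rw [show (4 : ℝ) = 2 ^ 2 by norm_num, Real.sqrt_sq (by norm_num)]
    rw [show π / (1 / (4 * v)) = 4 * π * v by field_simp]
    refine (Real.sqrt_le_sqrt (show 4 * π * v ≤ 4 * (2 * π * v) by nlinarith [mul_pos pi_pos hv])).trans
      (le_of_eq ?_)
    rw [Real.sqrt_mul (by norm_num : (0 : ℝ) ≤ 4), ← h2, mul_comm]

theorem noise1_info_le {v : ℝ} (hv : 0 < v) (hv8 : v ≤ 1 / 16) :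
    klDiv (noise1 v) volume ≠ ∞ ∧
      (klDiv (noise1 v) volume).toReal ≤ -gEnt v + leafErr v := by
  set δ := exp (-(1 / v)) with hδ
  have h0 : 0 < δ := exp_pos _
  have h1 : δ < 1 := exp_lt_one_iff.2 (by have := one_div_pos.2 hv; linarith)
  have hQ : IsProbabilityMeasure (liftLaw δ) := ⟨by
    rw [← Set.preimage_univ (f := fun x : ℝ => (x : Tor)),
      ← Measure.map_apply AddCircle.measurable_mk' MeasurableSet.univ, map_liftLaw h0 h1]
    exact measure_univ⟩
  set g := gaussianReal 0 v.toNNReal with hg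
  have hv' : v.toNNReal ≠ 0 := by simp [hv]
  let r : ℝ → ℝ := fun x => gaussianPDFReal 0 v.toNNReal x / cellW δ (cell x)
  have hr : Measurable r := (measurable_gaussianPDFReal _ _).div (measurable_cellW_cell δ)
  have hrpos : ∀ x, 0 < r x := fun x =>
    div_pos (gaussianPDFReal_pos _ _ _ hv') (cellW_pos h0 h1 _)
  have hgQ : g = (liftLaw δ).withDensity fun x => ENNReal.ofReal (r x) := by
    rw [hg, gaussianReal_of_var_ne_zero _ hv', liftLaw,
      ← withDensity_mul _ (measurable_cellW_cell δ).ennreal_ofReal hr.ennreal_ofReal]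
    congr 1
    funext x
    rw [Pi.mul_apply, ← ENNReal.ofReal_mul (cellW_pos h0 h1 _).le, gaussianPDF_def]
    simp only [r]
    rw [mul_div_cancel₀ _ (cellW_pos h0 h1 _).ne']
  have hac : g ≪ liftLaw δ := hgQ ▸ withDensity_absolutelyContinuous _ _
  have hllr : llr g (liftLaw δ) =ᵐ[g] fun x =>
      -(log (2 * π * v) / 2) - x ^ 2 / (2 * v) + -log (cellW δ (cell x)) := by
    have h := Measure.rnDeriv_withDensity (liftLaw δ) hr.ennreal_ofReal
    rw [← hgQ] at h
    filter_upwards [hac.ae_le h] with x hx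
    simp only [llr, hx, ENNReal.toReal_ofReal (hrpos x).le, r]
    rw [log_div (gaussianPDFReal_pos _ _ _ hv').ne' (cellW_pos h0 h1 _).ne', gaussianPDFReal_def,
      log_mul (by positivity) (exp_pos _).ne', log_exp, log_inv, Real.coe_toNNReal _ hv.le,
      log_sqrt (by positivity)]
    ring
  obtain ⟨hei, heb⟩ := integrable_exp_gaussianReal hv
  set B : ℝ → ℝ := fun x => 2 * exp (-(1 / v)) +
    (1 / v + 4) * exp (x ^ 2 / (4 * v)) * exp (-(1 / (32 * v))) with hB
  have hBi : Integrable B g := (integrable_const _).add ((hei.const_mul _).mul_const _)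
  have hpi : Integrable (fun x => -log (cellW δ (cell x))) g := by
    refine hBi.mono' ((measurable_cellW_cell δ).log.neg.aestronglyMeasurable)
      (Filter.Eventually.of_forall fun x => ?_)
    rw [norm_eq_abs, abs_of_nonneg]
    · exact neg_log_cellW_le hv hv8 x
    · rw [neg_nonneg]
      refine log_nonpos (cellW_pos h0 h1 _).le ?_
      have h := le_hasSum (hasSum_cellW δ) (cell x) fun l _ => (cellW_pos h0 h1 l).le
      exact h
  have hmain : Integrable (fun x : ℝ => -(log (2 * π * v) / 2) - x ^ 2 / (2 * v)) g :=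
    (integrable_const _).sub ((integrable_sq_gaussianReal _).div_const _)
  have hint : Integrable (llr g (liftLaw δ)) g := (integrable_congr hllr).2 (hmain.add hpi)
  have htop := klDiv_ne_top hac hint
  have hle : klDiv (noise1 v) volume ≤ klDiv g (liftLaw δ) := by
    have := klDiv_map_le g (liftLaw δ) (g := fun x : ℝ => (x : Tor)) AddCircle.measurable_mk'
    rwa [map_liftLaw h0 h1] at this
  refine ⟨ne_top_of_le_ne_top htop hle, (ENNReal.toReal_mono htop hle).trans ?_⟩
  rw [toReal_klDiv_of_measure_eq hac (by simp), integral_congr_ae hllr, integral_add hmain hpi,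
    integral_sub (integrable_const _) ((integrable_sq_gaussianReal _).div_const _),
    integral_const, integral_div, integral_sq_gaussianReal, Real.coe_toNNReal _ hv.le]
  have h3 : ∫ x, -log (cellW δ (cell x)) ∂g ≤ ∫ x, B x ∂g :=
    integral_mono hpi hBi fun x => neg_log_cellW_le hv hv8 x
  have h4 : ∫ x, B x ∂g ≤ leafErr v := by
    rw [hB, integral_add (integrable_const _) ((hei.const_mul _).mul_const _), integral_const,
      integral_mul_const, integral_const_mul]
    simp only [probReal_univ, one_smul]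
    have a1 : exp (-(1 / v)) ≤ exp (-(1 / (64 * v))) := by
      rw [exp_le_exp, neg_le_neg_iff]
      exact one_div_le_one_div_of_le hv (by linarith)
    have a2 : (1 / v + 4) * exp (-(1 / (32 * v))) ≤ 68 * exp (-(1 / (64 * v))) := by
      have hb : 1 / v ≤ 64 * exp (1 / (64 * v)) := by
        have := add_one_le_exp (1 / (64 * v))
        have e : 1 / v = 64 * (1 / (64 * v)) := by field_simp
        rw [e]; linarith
      have hc : (1 : ℝ) ≤ exp (1 / (64 * v)) := one_le_exp (by positivity)
      have e : exp (-(1 / (32 * v))) = exp (-(1 / (64 * v))) * exp (-(1 / (64 * v))) := by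
        rw [← exp_add]; congr 1; ring
      rw [e, ← mul_assoc]
      refine mul_le_mul_of_nonneg_right ?_ (exp_pos _).le
      rw [exp_neg, mul_inv_le_iff₀ (exp_pos _)]
      linarith
    have := one_div_pos.2 hv
    have a3 : (1 / v + 4) * (∫ x, exp (x ^ 2 / (4 * v)) ∂g) * exp (-(1 / (32 * v))) ≤
        2 * ((1 / v + 4) * exp (-(1 / (32 * v)))) := by
      have h5 : (1 / v + 4) * ∫ x, exp (x ^ 2 / (4 * v)) ∂g ≤ (1 / v + 4) * 2 :=
        mul_le_mul_of_nonneg_left heb (by positivity)
      nlinarith [exp_pos (-(1 / (32 * v)))]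
    unfold leafErr
    linarith [exp_pos (-(1 / (64 * v)))]
  simp only [probReal_univ, one_smul, gEnt]
  rw [show 2 * π * exp 1 * v = (2 * π * v) * exp 1 by ring, log_mul (by positivity) (exp_pos _).ne',
    log_exp]
  have e5 : v / (2 * v) = 1 / 2 := by field_simp
  linarith

/-- The information of a noisy point is at most its squared distance to the integers. -/
theorem info_unit_le {v : ℝ} (hv : 0 < v) (π' : Measure (Unit × Tor)) [IsProbabilityMeasure π']
    (hfin : cKL volume (addNoise π' (noise1 v)) ≠ ∞) :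
    -negEnt (addNoise π' (noise1 v)) - gEnt v ≤ (∫ z, ‖z.2‖ ^ 2 ∂π') / (2 * v) := by
  set μ := addNoise π' (noise1 v) with hμ
  have : IsProbabilityMeasure μ := isProbabilityMeasure_addNoise _ _
  let f : Unit × Tor → ℝ := fun p => -(‖p.2‖ ^ 2 / (2 * v))
  have hf : Measurable f := by fun_prop
  have hfb : ∀ p, |f p| ≤ 1 / (8 * v) := by
    intro p
    simp only [f, abs_neg]
    rw [abs_of_nonneg (by positivity)]
    have h := AddCircle.norm_le_half_period (1 : ℝ) one_ne_zero (x := p.2)
    rw [abs_one] at h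
    rw [div_le_div_iff₀ (by positivity) (by positivity)]
    have : ‖p.2‖ ^ 2 ≤ 1 / 4 := by nlinarith [norm_nonneg p.2]
    nlinarith
  have hG := le_toReal_klDiv (μ := μ) (ν := μ.fst.prod volume) hf hfb hfin
  have hZ : ∫ p, exp (f p) ∂μ.fst.prod volume ≤ √(2 * π * v) := by
    rw [integral_fun_snd fun c : Tor => exp (-(‖c‖ ^ 2 / (2 * v))), probReal_univ, one_smul,
      ← UnitAddCircle.integral_preimage (-(1 / 2))]
    have hi : Integrable fun x : ℝ => exp (-(1 / (2 * v)) * x ^ 2) :=
      integrable_exp_neg_mul_sq (by positivity)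
    calc _ = ∫ x in Set.Ioc (-(1 / 2) : ℝ) (-(1 / 2) + 1), exp (-(1 / (2 * v)) * x ^ 2) := by
          refine setIntegral_congr_fun measurableSet_Ioc fun x hx => ?_
          have : ‖(x : Tor)‖ = |x| := by
            refine (AddCircle.norm_coe_eq_abs_iff (1 : ℝ) (x := x) one_ne_zero).2 ?_
            rw [abs_le, abs_one]
            exact ⟨by linarith [hx.1], by linarith [hx.2]⟩
          simp only [this, sq_abs]
          congr 1
          field_simp
      _ ≤ ∫ x : ℝ, exp (-(1 / (2 * v)) * x ^ 2) :=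
          setIntegral_le_integral hi (Filter.Eventually.of_forall fun x => (exp_pos _).le)
      _ = √(2 * π * v) := by rw [integral_gaussian]; congr 1; field_simp
  have hZ0 : 0 < ∫ p, exp (f p) ∂μ.fst.prod volume :=
    integral_exp_pos (Integrable.of_bound hf.exp.aestronglyMeasurable (exp (1 / (8 * v)))
      (Filter.Eventually.of_forall fun x => by
        rw [norm_eq_abs, abs_exp]; exact exp_le_exp.2 (abs_le.1 (hfb x)).2))
  have hlog := (log_le_log hZ0 hZ).trans_eq (log_sqrt (by positivity))
  have hinner : ∀ z : Tor, ∫ a, ‖z + a‖ ^ 2 ∂noise1 v ≤ ‖z‖ ^ 2 + v := by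
    intro z
    obtain ⟨q, rfl⟩ := QuotientAddGroup.mk_surjective z
    set r := q - round q with hr
    have hq : ((q : ℝ) : Tor) = (r : Tor) := by
      rw [hr, AddCircle.coe_sub]
      have : ((round q : ℝ) : Tor) = 0 := (AddCircle.coe_eq_zero_iff (1 : ℝ)).2 ⟨round q, by simp⟩
      rw [this, sub_zero]
    have hn : ‖((q : ℝ) : Tor)‖ = |r| := UnitAddCircle.norm_eq
    show ∫ a, ‖((q : ℝ) : Tor) + a‖ ^ 2 ∂noise1 v ≤ ‖((q : ℝ) : Tor)‖ ^ 2 + v
    rw [noise1, integral_map AddCircle.measurable_mk'.aemeasurable (by fun_prop), hn, sq_abs]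
    have hid : Integrable (fun a : ℝ => a) (gaussianReal 0 v.toNNReal) :=
      (memLp_id_gaussianReal (μ := 0) (v := v.toNNReal) 1).integrable le_rfl
    have hbd : ∀ a : ℝ, ‖((q : ℝ) : Tor) + (a : Tor)‖ ^ 2 ≤ r ^ 2 + 2 * r * a + a ^ 2 := by
      intro a
      rw [hq, ← AddCircle.coe_add]
      have h : ‖((r + a : ℝ) : Tor)‖ ≤ |r + a| := by
        rw [UnitAddCircle.norm_eq]
        simpa using round_le (r + a) 0
      have := pow_le_pow_left₀ (norm_nonneg _) h 2
      rw [sq_abs] at this
      linarith [show r ^ 2 + 2 * r * a + a ^ 2 = (r + a) ^ 2 by ring]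
    refine (integral_mono_of_nonneg (Filter.Eventually.of_forall fun a => by positivity)
      (((integrable_const (r ^ 2)).add (hid.const_mul (2 * r))).add (integrable_sq_gaussianReal _))
      (Filter.Eventually.of_forall hbd)).trans_eq ?_
    simp only [Pi.add_apply]
    rw [integral_add (f := fun a : ℝ => r ^ 2 + 2 * r * a)
        ((integrable_const _).add (hid.const_mul _)) (integrable_sq_gaussianReal _),
      integral_add (integrable_const _) (hid.const_mul _), integral_const, integral_const_mul,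
      integral_id_gaussianReal, integral_sq_gaussianReal, Real.coe_toNNReal _ hv.le, probReal_univ]
    simp
  have hbd2 : ∀ z : Tor, ‖z‖ ^ 2 ≤ 1 := by
    intro z
    have h := AddCircle.norm_le_half_period (1 : ℝ) one_ne_zero (x := z)
    rw [abs_one] at h
    nlinarith [norm_nonneg z]
  have hout : ∫ p, ‖p.2‖ ^ 2 ∂μ ≤ (∫ z, ‖z.2‖ ^ 2 ∂π') + v := by
    have hb : ∀ z : Tor, |‖z‖ ^ 2| ≤ 1 := fun z => by
      rw [abs_of_nonneg (by positivity)]; exact hbd2 z
    rw [hμ, addNoise, integral_map measurable_addPair.aemeasurable (by fun_prop)]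
    rw [integral_prod _ (Integrable.of_bound (by fun_prop) 1
      (Filter.Eventually.of_forall fun p => by simpa using hb _))]
    have hi : Integrable (fun z : Unit × Tor => ‖z.2‖ ^ 2) π' :=
      Integrable.of_bound (by fun_prop) 1 (Filter.Eventually.of_forall fun p => by simpa using hb _)
    refine (integral_mono_of_nonneg (Filter.Eventually.of_forall fun z => by positivity)
      (hi.add (integrable_const v)) (Filter.Eventually.of_forall fun z => hinner z.2)).trans_eq ?_
    simp only [Pi.add_apply]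
    rw [integral_add hi (integrable_const v), integral_const, probReal_univ, one_smul]
  have hfint : ∫ p, f p ∂μ = -((∫ p, ‖p.2‖ ^ 2 ∂μ) / (2 * v)) := by
    simp only [f, integral_neg, integral_div]
  have hdiv : (∫ p, ‖p.2‖ ^ 2 ∂μ) / (2 * v) ≤ (∫ z, ‖z.2‖ ^ 2 ∂π') / (2 * v) + 1 / 2 := by
    rw [show (∫ z, ‖z.2‖ ^ 2 ∂π') / (2 * v) + 1 / 2 = ((∫ z, ‖z.2‖ ^ 2 ∂π') + v) / (2 * v) by
      field_simp]
    exact (div_le_div_iff_of_pos_right (by positivity)).2 hout
  unfold negEnt gEnt
  rw [show 2 * π * exp 1 * v = (2 * π * v) * exp 1 by ring, log_mul (by positivity) (exp_pos _).ne',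
    log_exp]
  linarith

end Vale.Agent.P047.Disproof
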