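import Vale.Agent.P047.Disproof.TorusBasic
import Vale.Agent.P047.Disproof.CountKL

/-!
The recursive Gaussian noise on the coefficient torus and the evaluation maps.
-/

namespace Vale.Agent.P047.Disproof

open MeasureTheory ProbabilityTheory

section algebra

variable {G : Type*} [AddCommGroup G]

theorem ev_succ (m k : ℕ) (θ : Idx (m + 1) (k + 1) → G) (b : Bool) (y : Cube m) :
    ev (m + 1) (k + 1) θ (Fin.cons b y) =
      ev m (k + 1) (fun i => θ (Sum.inl i)) y +
        if b then ev m k (fun i => θ (Sum.inr i)) y else 0 := by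
  simp [ev]

/-- Evaluation as an additive map. -/
def evHom (m k : ℕ) (x : Cube m) : (Idx m k → G) →+ G :=
  AddMonoidHom.mk' (fun θ => ev m k θ x) (fun θ θ' => ev_add m k θ θ' x)

theorem ev_emb : ∀ (m k : ℕ) (θ : Idx m k → G) (x : Cube m),
    ev m (k + 1) (emb m k θ) x = ev m k θ x
  | 0, _, _, _ => by simp [ev, emb]
  | m + 1, 0, θ, x => by
    have h0 : ev m 0 (fun _ => θ ()) (Fin.tail x) = θ () := by
      cases m <;> rfl
    have hz := ev_zero (G := G) m 0 (Fin.tail x)
    rw [Pi.zero_def] at hz
    simp only [ev, emb, Sum.elim_inl, Sum.elim_inr, ev_emb m 0 (fun _ => θ ()) (Fin.tail x), h0, hz,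
      ite_self, add_zero]
  | m + 1, k + 1, θ, x => by
    simp only [ev, emb, Sum.elim_inl, Sum.elim_inr,
      ev_emb m (k + 1) (fun i => θ (Sum.inl i)) (Fin.tail x),
      ev_emb m k (fun i => θ (Sum.inr i)) (Fin.tail x)]

theorem emb_map {G' : Type*} [AddCommGroup G'] (f : G →+ G') : ∀ (m k : ℕ) (θ : Idx m k → G)
    (i : Idx m (k + 1)), emb m k (fun j => f (θ j)) i = f (emb m k θ i)
  | 0, _, _, _ => rfl
  | m + 1, 0, θ, i => by
    cases i with
    | inl i => exact emb_map f m 0 (fun _ => θ ()) i
    | inr i => simp [emb]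
  | m + 1, k + 1, θ, i => by
    cases i with
    | inl i => exact emb_map f m (k + 1) (fun j => θ (Sum.inl j)) i
    | inr i => exact emb_map f m k (fun j => θ (Sum.inr j)) i

theorem ev_surjective : ∀ (m k : ℕ) (x : Cube m),
    Function.Surjective fun θ : Idx m k → G => ev m k θ x
  | 0, _, _, c => ⟨fun _ => c, rfl⟩
  | _ + 1, 0, _, c => ⟨fun _ => c, rfl⟩
  | m + 1, k + 1, x, c => by
    obtain ⟨l, hl⟩ := ev_surjective m (k + 1) (Fin.tail x) c
    refine ⟨fun i => Sum.elim l (0 : Idx m k → G) i, ?_⟩
    have hz := ev_zero (G := G) m k (Fin.tail x)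
    simp only [ev, Sum.elim_inl, Sum.elim_inr]
    simp only [] at hl
    rw [show (fun i => (0 : Idx m k → G) i) = 0 from rfl, hz]
    simp [hl]

theorem continuous_ev [TopologicalSpace G] [IsTopologicalAddGroup G] : ∀ (m k : ℕ) (x : Cube m),
    Continuous fun θ : Idx m k → G => ev m k θ x
  | 0, _, _ => by simp only [ev]; exact continuous_apply _
  | _ + 1, 0, _ => by simp only [ev]; exact continuous_apply _
  | m + 1, k + 1, x => by
    have h1 := (continuous_ev m (k + 1) (Fin.tail x)).comp
      (continuous_pi fun i => continuous_apply (A := fun _ : Idx (m + 1) (k + 1) => G) (Sum.inl i))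
    have h2 := (continuous_ev m k (Fin.tail x)).comp
      (continuous_pi fun i => continuous_apply (A := fun _ : Idx (m + 1) (k + 1) => G) (Sum.inr i))
    simp only [ev]
    refine h1.add ?_
    by_cases hb : x 0 = true
    · simp only [hb, if_true]; exact h2
    · simp only [hb]; exact continuous_const

theorem continuous_emb [TopologicalSpace G] : ∀ (m k : ℕ),
    Continuous fun θ : Idx m k → G => emb m k θ
  | 0, _ => by simp only [emb]; fun_prop
  | m + 1, 0 => by
    refine continuous_pi fun i => ?_
    cases i with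
    | inl i =>
      exact (continuous_apply i).comp ((continuous_emb m 0).comp
        (continuous_pi fun _ => continuous_apply (A := fun _ : Idx (m + 1) 0 => G) ()))
    | inr i => simp only [emb, Sum.elim_inr]; exact continuous_const
  | m + 1, k + 1 => by
    refine continuous_pi fun i => ?_
    cases i with
    | inl i =>
      exact (continuous_apply i).comp ((continuous_emb m (k + 1)).comp
        (continuous_pi fun j => continuous_apply (A := fun _ : Idx (m + 1) (k + 1) => G) (Sum.inl j)))
    | inr i =>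
      exact (continuous_apply i).comp ((continuous_emb m k).comp
        (continuous_pi fun j => continuous_apply (A := fun _ : Idx (m + 1) (k + 1) => G) (Sum.inr j)))

end algebra

/-- Cast of a real vector to the torus. -/
def castT {ι : Type*} (θ : ι → ℝ) : ι → Tor := fun i => (θ i : Tor)

theorem measurable_castT {ι : Type*} : Measurable (castT (ι := ι)) :=
  measurable_pi_lambda _ fun i => AddCircle.measurable_mk'.comp (measurable_pi_apply i)

theorem ev_castT (m k : ℕ) (θ : Idx m k → ℝ) (x : Cube m) :
    ev m k (castT θ) x = ((ev m k θ x : ℝ) : Tor) :=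
  (ev_map (QuotientAddGroup.mk' (AddSubgroup.zmultiples (1 : ℝ))) m k θ x).symm

theorem emb_castT (m k : ℕ) (θ : Idx m k → ℝ) : emb m k (castT θ) = castT (emb m k θ) :=
  funext (emb_map (QuotientAddGroup.mk' (AddSubgroup.zmultiples (1 : ℝ))) m k θ)

theorem measurable_evT (m k : ℕ) (x : Cube m) : Measurable fun θ : Idx m k → Tor => ev m k θ x :=
  (continuous_ev m k x).measurable

theorem measurable_evR (m k : ℕ) (x : Cube m) : Measurable fun θ : Idx m k → ℝ => ev m k θ x :=
  (continuous_ev m k x).measurable

theorem measurePreserving_evT (m k : ℕ) (x : Cube m) :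
    MeasurePreserving (fun θ : Idx m k → Tor => ev m k θ x) volume volume :=
  AddMonoidHom.measurePreserving (f := evHom (G := Tor) m k x) (continuous_ev m k x)
    (ev_surjective m k x) (by simp)

theorem ev_mulLeft (m k : ℕ) (c : ℝ) (θ : Idx m k → ℝ) (x : Cube m) :
    ev m k (fun i => c * θ i) x = c * ev m k θ x :=
  ev_smul c m k θ x

/-- The mean square of a normalised low degree polynomial at one point. -/
noncomputable def rho : ℕ → ℕ → ℝ
  | 0, _ => 1
  | m + 1, 0 => 1 / 2 ^ (m + 1)
  | m + 1, k + 1 => (rho m (k + 1) + rho m k) / 2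

theorem rho_pos : ∀ m k, 0 < rho m k
  | 0, _ => by simp [rho]
  | m + 1, 0 => by simp [rho]
  | m + 1, k + 1 => by
    have := rho_pos m (k + 1); have := rho_pos m k
    simp only [rho]; linarith

theorem rho_le_one : ∀ m k, rho m k ≤ 1
  | 0, _ => by simp [rho]
  | m + 1, 0 => by
    simp only [rho]; rw [div_le_one (by positivity)]; exact one_le_pow₀ (by norm_num)
  | m + 1, k + 1 => by
    have := rho_le_one m (k + 1); have := rho_le_one m k
    simp only [rho]; linarith

theorem rho_zero : ∀ m, rho m 0 = 1 / 2 ^ m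
  | 0 => by simp [rho]
  | m + 1 => by simp [rho]

theorem rho_mono : ∀ m k, rho m k ≤ rho m (k + 1)
  | 0, _ => by simp [rho]
  | m + 1, 0 => by
    have h1 := rho_mono m 0; rw [rho_zero m] at h1
    have h2 : (1 : ℝ) / 2 ^ (m + 1) = (1 / 2 ^ m) / 2 := by rw [pow_succ]; field_simp
    have := rho_pos m 1
    simp only [rho, rho_zero m, h2, Nat.zero_add]; linarith
  | m + 1, k + 1 => by
    have := rho_mono m (k + 1); have := rho_mono m k
    simp only [rho]; linarith

theorem rho_succ_le : ∀ m k, rho m (k + 1) ≤ ((m : ℝ) + 1) * rho m k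
  | 0, _ => by simp [rho]
  | m + 1, 0 => by
    have h1 := rho_succ_le m 0; rw [rho_zero m] at h1
    have h2 : (1 : ℝ) / 2 ^ (m + 1) = (1 / 2 ^ m) / 2 := by rw [pow_succ]; field_simp
    simp only [rho, rho_zero m, h2, Nat.zero_add] at *
    push_cast
    nlinarith
  | m + 1, k + 1 => by
    have h1 := rho_succ_le m (k + 1); have h2 := rho_succ_le m k
    have := rho_pos m (k + 1); have := rho_pos m k
    simp only [rho]; push_cast
    nlinarith

theorem rho_le : ∀ m k, rho m k ≤ 3 ^ k * (2 / 3 : ℝ) ^ m
  | 0, k => by simp only [rho, pow_zero, mul_one]; exact one_le_pow₀ (by norm_num)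
  | m + 1, 0 => by
    simp only [rho, pow_zero, one_mul]
    rw [show (1 : ℝ) / 2 ^ (m + 1) = (1 / 2) ^ (m + 1) by rw [div_pow, one_pow]]
    exact pow_le_pow_left₀ (by norm_num) (by norm_num) _
  | m + 1, k + 1 => by
    have h1 := rho_le m (k + 1); have h2 := rho_le m k
    simp only [rho, pow_succ] at *
    nlinarith

/-- Correlation of the two children of a node. -/
noncomputable def corr (m k : ℕ) : ℝ := 1 - rho m k / rho (m + 1) (k + 1)

theorem corr_nonneg (m k : ℕ) : 0 ≤ corr m k := by
  rw [corr, sub_nonneg, div_le_one (rho_pos _ _)]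
  have := rho_mono m k
  simp only [rho]; linarith

theorem corr_le (m k : ℕ) : 1 / ((m : ℝ) + 2) ≤ 1 - corr m k := by
  rw [corr, sub_sub_cancel, div_le_div_iff₀ (by positivity) (rho_pos _ _)]
  have := rho_succ_le m k
  have := rho_pos m k
  simp only [rho]; nlinarith

/-- The recursive Gaussian vector: coordinates of a standard Gaussian polynomial scaled to
variance `v`. -/
noncomputable def gR : (m k : ℕ) → ℝ → Measure (Idx m k → ℝ)
  | 0, _, v => (gaussianReal 0 v.toNNReal).map fun c _ => c
  | m + 1, 0, v => (gaussianReal 0 (v / 2 ^ (m + 1)).toNNReal).map fun c _ => c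
  | m + 1, k + 1, v => ((gR m (k + 1) (v / 2)).prod (gR m k (2 * v))).map
      fun p i => Sum.elim (p.1 - fun j => (1 / 2 : ℝ) * emb m k p.2 j) p.2 i

/-- The same noise on the torus. -/
noncomputable def noiseT (m k : ℕ) (v : ℝ) : Measure (Idx m k → Tor) := (gR m k v).map castT

/-- The real entropy of the noise. -/
noncomputable def Hent : ℕ → ℕ → ℝ → ℝ
  | 0, _, v => gEnt v
  | m + 1, 0, v => gEnt (v / 2 ^ (m + 1))
  | m + 1, k + 1, v => Hent m (k + 1) (v / 2) + Hent m k (2 * v)

theorem measurable_skew (m k : ℕ) : Measurable fun p : (Idx m (k + 1) → ℝ) × (Idx m k → ℝ) =>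
    fun i : Idx (m + 1) (k + 1) => Sum.elim (p.1 - fun j => (1 / 2 : ℝ) * emb m k p.2 j) p.2 i := by
  have h : Measurable fun θ : Idx m k → ℝ => emb m k θ := (continuous_emb m k).measurable
  refine measurable_pi_lambda _ fun i => ?_
  cases i with
  | inl i =>
    exact (measurable_pi_apply i).comp measurable_fst |>.sub
      (measurable_const.mul ((measurable_pi_apply i).comp (h.comp measurable_snd)))
  | inr i => exact (measurable_pi_apply i).comp measurable_snd

theorem measurable_const_fun {ι : Type*} : Measurable fun (c : ℝ) (_ : ι) => c :=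
  measurable_pi_lambda _ fun _ => measurable_id

instance instIsProbabilityMeasureGR : ∀ (m k : ℕ) (v : ℝ), IsProbabilityMeasure (gR m k v)
  | 0, _, _ => Measure.isProbabilityMeasure_map measurable_const_fun.aemeasurable
  | _ + 1, 0, _ => Measure.isProbabilityMeasure_map measurable_const_fun.aemeasurable
  | m + 1, k + 1, v => by
    have := instIsProbabilityMeasureGR m (k + 1) (v / 2)
    have := instIsProbabilityMeasureGR m k (2 * v)
    exact Measure.isProbabilityMeasure_map (measurable_skew m k).aemeasurable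

instance instIsProbabilityMeasureNoiseT (m k : ℕ) (v : ℝ) : IsProbabilityMeasure (noiseT m k v) :=
  Measure.isProbabilityMeasure_map measurable_castT.aemeasurable

theorem ev_skew (m k : ℕ) (u : Idx m (k + 1) → ℝ) (φ : Idx m k → ℝ) (b : Bool) (y : Cube m) :
    ev (m + 1) (k + 1) (fun i => Sum.elim (u - fun j => (1 / 2 : ℝ) * emb m k φ j) φ i)
        (Fin.cons b y) =
      if b then ev m (k + 1) u y + ev m k φ y / 2 else ev m (k + 1) u y - ev m k φ y / 2 := by
  rw [ev_succ]
  simp only [Sum.elim_inl, Sum.elim_inr]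
  rw [show (fun i => (u - fun j => (1 / 2 : ℝ) * emb m k φ j) i) =
    u - fun j => (1 / 2 : ℝ) * emb m k φ j from rfl, ev_sub, ev_mulLeft, ev_emb]
  cases b <;> simp <;> ring

theorem gR_map_ev : ∀ (m k : ℕ) {v : ℝ}, 0 ≤ v → ∀ x : Cube m,
    (gR m k v).map (fun θ => ev m k θ x) = gaussianReal 0 (rho m k * v).toNNReal
  | 0, k, v, _, x => by
    rw [gR, Measure.map_map (measurable_evR _ _ x) measurable_const_fun]
    simp only [rho, one_mul]
    exact Measure.map_id
  | m + 1, 0, v, _, x => by
    rw [gR, Measure.map_map (measurable_evR _ _ x) measurable_const_fun]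
    simp only [rho, one_div_mul_eq_div]
    exact Measure.map_id
  | m + 1, k + 1, v, hv, x => by
    obtain ⟨b, y, rfl⟩ : ∃ b y, x = Fin.cons b y := ⟨x 0, Fin.tail x, (Fin.cons_self_tail x).symm⟩
    have h1 := gR_map_ev m (k + 1) (v := v / 2) (by linarith) y
    have h2 := gR_map_ev m k (v := 2 * v) (by linarith) y
    set c : ℝ := if b then 1 / 2 else -(1 / 2) with hc
    have hm : (fun θ => ev (m + 1) (k + 1) θ (Fin.cons b y)) ∘
        (fun p : (Idx m (k + 1) → ℝ) × (Idx m k → ℝ) =>
          fun i => Sum.elim (p.1 - fun j => (1 / 2 : ℝ) * emb m k p.2 j) p.2 i) =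
        (fun q : ℝ × ℝ => q.1 + q.2) ∘ Prod.map (fun u => ev m (k + 1) u y)
          ((fun z => c * z) ∘ fun φ => ev m k φ y) := by
      funext p
      simp only [Function.comp, Prod.map, ev_skew, hc]
      cases b <;> simp <;> ring
    have hadd : Measurable fun q : ℝ × ℝ => q.1 + q.2 := by fun_prop
    have hmul : Measurable fun z : ℝ => c * z := by fun_prop
    rw [gR, Measure.map_map (measurable_evR _ _ _) (measurable_skew m k), hm,
      ← Measure.map_map hadd ((measurable_evR _ _ y).prodMap (hmul.comp (measurable_evR _ _ y))),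
      ← Measure.map_prod_map _ _ (measurable_evR _ _ y) (hmul.comp (measurable_evR _ _ y)),
      ← Measure.map_map hmul (measurable_evR _ _ y), h1, h2]
    show ((gaussianReal 0 _).prod ((gaussianReal 0 _).map (c * ·))).map _ = _
    rw [gaussianReal_map_const_mul, mul_zero]
    change Measure.conv _ _ = _
    rw [gaussianReal_conv_gaussianReal, add_zero]
    congr 1
    have hc2 : c ^ 2 = 1 / 4 := by cases b <;> simp [hc] <;> norm_num
    have := rho_pos m (k + 1); have := rho_pos m k
    rw [← NNReal.coe_inj]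
    simp only [NNReal.coe_add, NNReal.coe_mul, NNReal.coe_mk, hc2, rho]
    rw [Real.coe_toNNReal _ (by positivity), Real.coe_toNNReal _ (by positivity),
      Real.coe_toNNReal _ (by positivity)]
    ring

theorem noiseT_map_ev (m k : ℕ) {v : ℝ} (hv : 0 ≤ v) (x : Cube m) :
    (noiseT m k v).map (fun θ => ev m k θ x) = noise1 (rho m k * v) := by
  rw [noiseT, Measure.map_map (measurable_evT m k x) measurable_castT, noise1,
    ← gR_map_ev m k hv x, Measure.map_map AddCircle.measurable_mk' (measurable_evR m k x)]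
  congr 1
  funext θ
  exact ev_castT m k θ x

theorem noiseT_map_pair (m k : ℕ) {v : ℝ} (hv : 0 ≤ v) (y : Cube m) :
    (noiseT (m + 1) (k + 1) v).map (fun θ => (ev (m + 1) (k + 1) θ (Fin.cons false y),
        ev (m + 1) (k + 1) θ (Fin.cons true y))) =
      noise2 (rho (m + 1) (k + 1) * v) (corr m k) := by
  have h1 := gR_map_ev m (k + 1) (v := v / 2) (by linarith) y
  have h2 := gR_map_ev m k (v := 2 * v) (by linarith) y
  have hw := rho_pos (m + 1) (k + 1)
  have e1 : rho (m + 1) (k + 1) * v * (1 + corr m k) / 2 = rho m (k + 1) * (v / 2) := by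
    simp only [corr]; field_simp; simp only [rho]; ring
  have e2 : 2 * (rho (m + 1) (k + 1) * v) * (1 - corr m k) = rho m k * (2 * v) := by
    simp only [corr]; field_simp; ring
  have hme : Measurable fun θ : Idx (m + 1) (k + 1) → Tor =>
      (ev (m + 1) (k + 1) θ (Fin.cons false y), ev (m + 1) (k + 1) θ (Fin.cons true y)) :=
    (measurable_evT _ _ _).prodMk (measurable_evT _ _ _)
  have hmp : Measurable fun p : ℝ × ℝ =>
      (((p.1 - p.2 / 2 : ℝ) : Tor), ((p.1 + p.2 / 2 : ℝ) : Tor)) :=
    (AddCircle.measurable_mk'.comp (by fun_prop)).prodMk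
      (AddCircle.measurable_mk'.comp (by fun_prop))
  rw [noiseT, gR, Measure.map_map measurable_castT (measurable_skew m k),
    Measure.map_map hme (measurable_castT.comp (measurable_skew m k)), noise2, e1, e2, ← h1, ← h2,
    Measure.map_prod_map _ _ (measurable_evR _ _ y) (measurable_evR _ _ y),
    Measure.map_map hmp ((measurable_evR _ _ y).prodMap (measurable_evR _ _ y))]
  congr 1
  funext p
  simp only [Function.comp, Prod.map, ev_castT, ev_skew]
  simp

end Vale.Agent.P047.Disproof
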