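import Vale.Agent.P047.Disproof.Local
import Vale.Agent.P047.Disproof.CountNoise
import Vale.Agent.P047.Disproof.CountLeaf

/-!
The induction over the recursive decomposition of low degree polynomials.
-/

namespace Vale.Agent.P047.Disproof

open MeasureTheory ProbabilityTheory InformationTheory
open scoped ENNReal

/-- The difference part of the coordinates. -/
def sR {G : Type*} (m k : ℕ) (θ : Idx (m + 1) (k + 1) → G) : Idx m k → G := fun i => θ (Sum.inr i)

/-- The first half of the coordinates. -/
def sL {G : Type*} (m k : ℕ) (θ : Idx (m + 1) (k + 1) → G) : Idx m (k + 1) → G :=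
  fun i => θ (Sum.inl i)

theorem measurable_sR {G : Type*} [MeasurableSpace G] (m k : ℕ) : Measurable (sR (G := G) m k) :=
  measurable_pi_lambda _ fun i => measurable_pi_apply (Sum.inr i)

theorem measurable_sL {G : Type*} [MeasurableSpace G] (m k : ℕ) : Measurable (sL (G := G) m k) :=
  measurable_pi_lambda _ fun i => measurable_pi_apply (Sum.inl i)

/-- Splitting the torus: differences first. -/
def splitT (m k : ℕ) :
    (Idx (m + 1) (k + 1) → Tor) ≃ᵐ (Idx m k → Tor) × (Idx m (k + 1) → Tor) :=
  (MeasurableEquiv.sumPiEquivProdPi fun _ : Idx m (k + 1) ⊕ Idx m k => Tor).trans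
    MeasurableEquiv.prodComm

theorem splitT_apply (m k : ℕ) (θ : Idx (m + 1) (k + 1) → Tor) :
    splitT m k θ = (sR m k θ, sL m k θ) := rfl

theorem measurePreserving_splitT (m k : ℕ) :
    MeasurePreserving (splitT m k) volume (volume.prod volume) :=
  Measure.measurePreserving_swap.comp
    (volume_measurePreserving_sumPiEquivProdPi fun _ : Idx m (k + 1) ⊕ Idx m k => Tor)

/-- The difference and the first value. -/
def shearT : Tor × Tor ≃ᵐ Tor × Tor where
  toFun p := (p.2 - p.1, p.1)
  invFun p := (p.2, p.2 + p.1)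
  left_inv p := by simp
  right_inv p := by simp
  measurable_toFun := (measurable_snd.sub measurable_fst).prodMk measurable_fst
  measurable_invFun := measurable_snd.prodMk (measurable_snd.add measurable_fst)

theorem measurePreserving_shearT : MeasurePreserving shearT (volume.prod volume)
    (volume.prod volume) := by
  refine AddMonoidHom.measurePreserving
    (f := AddMonoidHom.mk' (fun p : Tor × Tor => (p.2 - p.1, p.1)) fun a b => by
      ext <;> simp [add_sub_add_comm]) ?_ shearT.surjective rfl
  exact (continuous_snd.sub continuous_fst).prodMk continuous_fst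

/-- The side variable and centre of the first-half child. -/
noncomputable def childLaw {Ω : Type} [MeasurableSpace Ω] (m k : ℕ) (v : ℝ)
    (π : Measure (Ω × (Idx (m + 1) (k + 1) → Tor))) :
    Measure ((Ω × (Idx m k → Tor)) × (Idx m (k + 1) → Tor)) :=
  (π.prod (gR m k (2 * v))).map fun q =>
    ((q.1.1, sR m k q.1.2 + castT q.2),
      sL m k q.1.2 - castT fun j => (1 / 2 : ℝ) * emb m k q.2 j)

variable {Ω : Type} [MeasurableSpace Ω]

theorem measurable_childMap (m k : ℕ) :
    Measurable fun q : (Ω × (Idx (m + 1) (k + 1) → Tor)) × (Idx m k → ℝ) =>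
      ((q.1.1, sR m k q.1.2 + castT q.2),
        sL m k q.1.2 - castT fun j => (1 / 2 : ℝ) * emb m k q.2 j) := by
  have h : Measurable fun φ : Idx m k → ℝ => fun j => (1 / 2 : ℝ) * emb m k φ j :=
    measurable_pi_lambda _ fun j =>
      measurable_const.mul ((measurable_pi_apply j).comp (continuous_emb m k).measurable)
  exact ((measurable_fst.comp measurable_fst).prodMk
    (((measurable_sR m k).comp (measurable_snd.comp measurable_fst)).add
      (measurable_castT.comp measurable_snd))).prodMk
    (((measurable_sL m k).comp (measurable_snd.comp measurable_fst)).sub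
      (measurable_castT.comp (h.comp measurable_snd)))

theorem noiseT_map_sR (m k : ℕ) (v : ℝ) :
    (noiseT (m + 1) (k + 1) v).map (sR m k) = noiseT m k (2 * v) := by
  rw [noiseT, gR, Measure.map_map measurable_castT (measurable_skew m k),
    Measure.map_map (measurable_sR m k) (measurable_castT.comp (measurable_skew m k))]
  have e : sR m k ∘ (castT ∘ fun (p : (Idx m (k + 1) → ℝ) × (Idx m k → ℝ)) =>
      fun i : Idx (m + 1) (k + 1) => Sum.elim (p.1 - fun j => (1 / 2 : ℝ) * emb m k p.2 j) p.2 i) =
      castT ∘ Prod.snd := rfl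
  rw [e, ← Measure.map_map measurable_castT measurable_snd, Measure.map_snd_prod, measure_univ,
    one_smul]
  rfl

/-- The law of the first-half child. -/
theorem addNoise_split (m k : ℕ) (v : ℝ) (π : Measure (Ω × (Idx (m + 1) (k + 1) → Tor)))
    [IsProbabilityMeasure π] :
    (addNoise π (noiseT (m + 1) (k + 1) v)).map
        (fun p => ((p.1, sR m k p.2), sL m k p.2)) =
      addNoise (childLaw m k v π) (noiseT m (k + 1) (v / 2)) := by
  have hF : Measurable fun p : Ω × (Idx (m + 1) (k + 1) → Tor) =>
      ((p.1, sR m k p.2), sL m k p.2) :=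
    (measurable_fst.prodMk ((measurable_sR m k).comp measurable_snd)).prodMk
      ((measurable_sL m k).comp measurable_snd)
  have hperm : π.prod ((gR m (k + 1) (v / 2)).prod (gR m k (2 * v))) =
      ((π.prod (gR m k (2 * v))).prod (gR m (k + 1) (v / 2))).map
        (Prod.map id Prod.swap ∘ MeasurableEquiv.prodAssoc) := by
    rw [← Measure.map_map (measurable_id.prodMap measurable_swap) MeasurableEquiv.prodAssoc.measurable,
      Measure.prodAssoc_prod, ← Measure.map_prod_map _ _ measurable_id measurable_swap,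
      Measure.map_id, Measure.prod_swap]
  conv_lhs =>
    rw [addNoise, noiseT, gR, Measure.map_map measurable_castT (measurable_skew m k)]
  rw [← Measure.map_id (μ := π), Measure.map_prod_map _ _ measurable_id
      (measurable_castT.comp (measurable_skew m k)), hperm,
    Measure.map_map (measurable_id.prodMap (measurable_castT.comp (measurable_skew m k)))
      ((measurable_id.prodMap measurable_swap).comp MeasurableEquiv.prodAssoc.measurable),
    Measure.map_map measurable_addPair ((measurable_id.prodMap
      (measurable_castT.comp (measurable_skew m k))).comp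
        ((measurable_id.prodMap measurable_swap).comp MeasurableEquiv.prodAssoc.measurable)),
    Measure.map_map hF (measurable_addPair.comp ((measurable_id.prodMap
      (measurable_castT.comp (measurable_skew m k))).comp
        ((measurable_id.prodMap measurable_swap).comp MeasurableEquiv.prodAssoc.measurable)))]
  rw [Measure.map_id, addNoise, childLaw, noiseT,
    Measure.map_prod_map _ _ (measurable_childMap m k) measurable_castT,
    Measure.map_map measurable_addPair ((measurable_childMap m k).prodMap measurable_castT)]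
  congr 1
  funext q
  refine Prod.ext rfl ?_
  funext i
  show q.1.1.2 (Sum.inl i) + ((q.2 i - 1 / 2 * emb m k q.1.2 i : ℝ) : Tor) =
    q.1.1.2 (Sum.inl i) - ((1 / 2 * emb m k q.1.2 i : ℝ) : Tor) + ((q.2 i : ℝ) : Tor)
  rw [AddCircle.coe_sub]
  abel

/-- Smallness condition passing to both children. -/
def GoodScale (S : ℝ) (m k : ℕ) (v : ℝ) : Prop := 0 < v ∧ v * (3 ^ k * (2 / 3 : ℝ) ^ m) ≤ S

theorem GoodScale.rho_mul_le {S : ℝ} {m k : ℕ} {v : ℝ} (h : GoodScale S m k v) : rho m k * v ≤ S :=
  (mul_le_mul_of_nonneg_right (rho_le m k) h.1.le).trans (by linarith [h.2])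

theorem GoodScale.left {S : ℝ} {m k : ℕ} {v : ℝ} (h : GoodScale S (m + 1) (k + 1) v) :
    GoodScale S m (k + 1) (v / 2) := by
  refine ⟨by linarith [h.1], le_trans ?_ h.2⟩
  have : 0 ≤ v * (3 ^ (k + 1) * (2 / 3 : ℝ) ^ m) := by have := h.1; positivity
  rw [pow_succ (2 / 3 : ℝ)]
  nlinarith

theorem GoodScale.right {S : ℝ} {m k : ℕ} {v : ℝ} (h : GoodScale S (m + 1) (k + 1) v) :
    GoodScale S m k (2 * v) := by
  refine ⟨by linarith [h.1], le_trans (le_of_eq ?_) h.2⟩
  rw [pow_succ, pow_succ]
  ring

theorem leafErr_mono {v S : ℝ} (hv : 0 < v) (h : v ≤ S) : leafErr v ≤ leafErr S := by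
  unfold leafErr
  have : 1 / (64 * S) ≤ 1 / (64 * v) := one_div_le_one_div_of_le (by positivity) (by linarith)
  have := Real.exp_le_exp.2 (neg_le_neg this)
  linarith

/-- Entropy lower bound on the point coordinate. -/
theorem leaf_lower (π : Measure (Ω × (Unit → Tor))) [IsProbabilityMeasure π] {w S : ℝ}
    (hw : 0 < w) (hwS : w ≤ S) (hS : S ≤ 1 / 16) :
    cKL volume (addNoise π (((gaussianReal 0 w.toNNReal).map fun c (_ : Unit) => c).map castT)) ≠ ∞ ∧
      negEnt (addNoise π (((gaussianReal 0 w.toNNReal).map fun c (_ : Unit) => c).map castT)) ≤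
        -gEnt w + leafErr S ∧
      negEnt ((addNoise π (((gaussianReal 0 w.toNNReal).map fun c (_ : Unit) => c).map castT)).map
          (Prod.map id fun θ => θ ())) =
        negEnt (addNoise π (((gaussianReal 0 w.toNNReal).map fun c (_ : Unit) => c).map castT)) := by
  set ν := ((gaussianReal 0 w.toNNReal).map fun c (_ : Unit) => c).map castT with hν
  have : IsProbabilityMeasure ν :=
    haveI := Measure.isProbabilityMeasure_map
      (μ := gaussianReal 0 w.toNNReal) (measurable_const_fun (ι := Unit)).aemeasurable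
    Measure.isProbabilityMeasure_map measurable_castT.aemeasurable
  have := isProbabilityMeasure_addNoise π ν
  let e := MeasurableEquiv.funUnique Unit Tor
  have he : MeasurePreserving e volume volume := volume_preserving_funUnique Unit Tor
  have hEq : cKL volume ((addNoise π ν).map (Prod.map id fun θ => θ ())) =
      cKL volume (addNoise π ν) :=
    cKL_map_equiv (MeasurableEquiv.refl Ω) e he
  have hν1 : ν.map (fun θ => θ ()) = noise1 w := by
    rw [hν, Measure.map_map measurable_castT measurable_const_fun,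
      Measure.map_map (measurable_pi_apply ()) (measurable_castT.comp measurable_const_fun)]
    rfl
  have hm : Measurable (Prod.map id fun θ : Unit → Tor => θ () : Ω × (Unit → Tor) → Ω × Tor) :=
    measurable_id.prodMap (measurable_pi_apply ())
  have : IsProbabilityMeasure (π.map (Prod.map id fun θ => θ ())) :=
    Measure.isProbabilityMeasure_map hm.aemeasurable
  have hle : cKL volume (addNoise π ν) ≤ klDiv (noise1 w) volume := by
    rw [← hEq, addNoise_map π ν measurable_id (measurable_pi_apply ()) (fun a b => rfl), hν1]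
    exact cKL_addNoise_le _ _ _
  obtain ⟨h1, h2⟩ := noise1_info_le hw (hwS.trans hS)
  refine ⟨ne_top_of_le_ne_top h1 hle, ?_, ?_⟩
  · rw [negEnt_eq_cKL]
    exact (ENNReal.toReal_mono h1 hle).trans (h2.trans (by linarith [leafErr_mono hw hwS]))
  · rw [negEnt_eq_cKL, negEnt_eq_cKL, hEq]

/-- The information of a split node. -/
theorem cKL_node (m k : ℕ) (v : ℝ) (π : Measure (Ω × (Idx (m + 1) (k + 1) → Tor)))
    [IsProbabilityMeasure π] :
    cKL volume (addNoise π (noiseT (m + 1) (k + 1) v)) =
      cKL volume (addNoise (π.map (Prod.map id (sR m k))) (noiseT m k (2 * v))) +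
        cKL volume (addNoise (childLaw m k v π) (noiseT m (k + 1) (v / 2))) := by
  set μ := addNoise π (noiseT (m + 1) (k + 1) v)
  have : IsProbabilityMeasure μ := isProbabilityMeasure_addNoise _ _
  have hm : Measurable (Prod.map id (splitT m k) : Ω × _ → Ω × _) :=
    measurable_id.prodMap (splitT m k).measurable
  have : IsProbabilityMeasure (μ.map (Prod.map id (splitT m k))) :=
    Measure.isProbabilityMeasure_map hm.aemeasurable
  have h1 := cKL_map_equiv (μ := μ) (MeasurableEquiv.refl Ω) (splitT m k)
    (measurePreserving_splitT m k)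
  rw [← h1, show (⇑(MeasurableEquiv.refl Ω) : Ω → Ω) = id from rfl, cKL_chain,
    Measure.map_map (measurable_id.prodMap measurable_fst) hm,
    Measure.map_map MeasurableEquiv.prodAssoc.symm.measurable hm, ← addNoise_split,
    ← noiseT_map_sR, ← addNoise_map π _ measurable_id (measurable_sR m k) (fun a b => rfl)]
  rfl

theorem isProbabilityMeasure_childLaw (m k : ℕ) (v : ℝ)
    (π : Measure (Ω × (Idx (m + 1) (k + 1) → Tor))) [IsProbabilityMeasure π] :
    IsProbabilityMeasure (childLaw m k v π) :=
  Measure.isProbabilityMeasure_map (measurable_childMap m k).aemeasurable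

/-- Entropy lower bound. -/
theorem lower_bound {S : ℝ} (hS : S ≤ 1 / 16) : ∀ (m k : ℕ) (v : ℝ), GoodScale S m k v →
    ∀ (Ω : Type) [MeasurableSpace Ω] (π : Measure (Ω × (Idx m k → Tor))) [IsProbabilityMeasure π],
      cKL volume (addNoise π (noiseT m k v)) ≠ ∞ ∧
        negEnt (addNoise π (noiseT m k v)) ≤ -Hent m k v + 2 ^ m * leafErr S
  | 0, k, v, hg, Ω, _, π, hπ => by
    have h := hg.rho_mul_le
    simp only [rho, one_mul] at h
    obtain ⟨h1, h2, _⟩ := @leaf_lower Ω _ π hπ _ _ hg.1 h hS
    exact ⟨h1, h2.trans (le_of_eq (by simp [Hent]))⟩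
  | m + 1, 0, v, hg, Ω, _, π, hπ => by
    have h := hg.rho_mul_le
    simp only [rho, one_div_mul_eq_div] at h
    obtain ⟨h1, h2, _⟩ := @leaf_lower Ω _ π hπ _ _ (div_pos hg.1 (by positivity)) h hS
    refine ⟨h1, h2.trans ?_⟩
    have : leafErr S ≤ 2 ^ (m + 1) * leafErr S :=
      le_mul_of_one_le_left (by unfold leafErr; positivity) (one_le_pow₀ (by norm_num))
    simp only [Hent]
    linarith
  | m + 1, k + 1, v, hg, Ω, _, π, hπ => by
    have := isProbabilityMeasure_childLaw m k v π
    have : IsProbabilityMeasure (π.map (Prod.map id (sR m k))) :=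
      Measure.isProbabilityMeasure_map (measurable_id.prodMap (measurable_sR m k)).aemeasurable
    obtain ⟨a1, a2⟩ := lower_bound hS m k (2 * v) hg.right Ω (π.map (Prod.map id (sR m k)))
    obtain ⟨b1, b2⟩ := lower_bound hS m (k + 1) (v / 2) hg.left _ (childLaw m k v π)
    have e := cKL_node m k v π
    refine ⟨e ▸ ENNReal.add_ne_top.2 ⟨a1, b1⟩, ?_⟩
    rw [negEnt_eq_cKL, e, ENNReal.toReal_add a1 b1]
    rw [negEnt_eq_cKL] at a2 b2
    simp only [Hent, pow_succ]
    linarith

/-- The two point inequality in the form used by the induction. -/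
def LocalBound (S e T : ℝ) (n : ℕ) : Prop :=
  ∀ (Ω : Type) [MeasurableSpace Ω] [StandardBorelSpace Ω] [Nonempty Ω]
    (π : Measure (Ω × (Tor × Tor))) [IsProbabilityMeasure π] (w r : ℝ),
    0 < w → w ≤ S → 0 ≤ r → 1 / ((n : ℝ) + 2) ≤ 1 - r →
    let μ := addNoise π (noise2 w r)
    let F0 := info1 (μ.map fun p => (p.1, p.2.1)) w
    let F1 := info1 (μ.map fun p => (p.1, p.2.2)) w
    let Fd := info1 (μ.map fun p => (p.1, p.2.2 - p.2.1)) (2 * w * (1 - r))
    let J := -negEnt μ - gEnt (2 * w * (1 - r)) - gEnt (w * (1 + r) / 2)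
    (1 + r) * J - 2 * r * Fd ≤ (1 + e) * (F0 + F1) + T

theorem node_bound {S e T : ℝ} {n : ℕ} (hS : S ≤ 1 / 16) (hloc : LocalBound S e T n) (m k : ℕ)
    (hm : m ≤ n) (v : ℝ) (hg : GoodScale S (m + 1) (k + 1) v) (Ω : Type) [MeasurableSpace Ω]
    [StandardBorelSpace Ω] [Nonempty Ω] (π : Measure (Ω × (Idx (m + 1) (k + 1) → Tor)))
    [IsProbabilityMeasure π] (y : Cube m) :
    rho m k * info1 ((addNoise (π.map (Prod.map id (sR m k))) (noiseT m k (2 * v))).map
        (Prod.map id fun θ => ev m k θ y)) (rho m k * (2 * v)) +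
      rho m (k + 1) * info1 ((addNoise (childLaw m k v π) (noiseT m (k + 1) (v / 2))).map
        (Prod.map id fun θ => ev m (k + 1) θ y)) (rho m (k + 1) * (v / 2)) ≤
    rho (m + 1) (k + 1) * ((1 + e) *
      (info1 ((addNoise π (noiseT (m + 1) (k + 1) v)).map
          (Prod.map id fun θ => ev (m + 1) (k + 1) θ (Fin.cons false y))) (rho (m + 1) (k + 1) * v) +
        info1 ((addNoise π (noiseT (m + 1) (k + 1) v)).map
          (Prod.map id fun θ => ev (m + 1) (k + 1) θ (Fin.cons true y))) (rho (m + 1) (k + 1) * v))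
      + T) := by
  set ρ := rho (m + 1) (k + 1) with hρdef
  have hρ : 0 < ρ := rho_pos _ _
  set r := corr m k with hrdef
  have hr0 : 0 ≤ r := corr_nonneg m k
  have hr1 : 1 / ((n : ℝ) + 2) ≤ 1 - r := by
    refine le_trans ?_ (corr_le m k)
    exact one_div_le_one_div_of_le (by positivity) (by have : (m : ℝ) ≤ n := (by exact_mod_cast hm); linarith)
  have w2 : rho m k = ρ * (1 - r) := by
    rw [hrdef, corr, sub_sub_cancel, hρdef, mul_div_cancel₀ _ (rho_pos _ _).ne']
  have w1 : rho m (k + 1) = ρ * (1 + r) := by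
    have hh : 2 * ρ = rho m (k + 1) + rho m k := by simp only [hρdef, rho]; ring
    linear_combination -hh + (-1 : ℝ) * w2
  have e1 : ρ * v * (1 + r) / 2 = rho m (k + 1) * (v / 2) := by rw [w1]; ring
  have e2 : 2 * (ρ * v) * (1 - r) = rho m k * (2 * v) := by rw [w2]; ring
  set P : (Idx (m + 1) (k + 1) → Tor) → Tor × Tor := fun θ =>
    (ev (m + 1) (k + 1) θ (Fin.cons false y), ev (m + 1) (k + 1) θ (Fin.cons true y)) with hP
  have hPm : Measurable P := (measurable_evT _ _ _).prodMk (measurable_evT _ _ _)
  set ν := noiseT (m + 1) (k + 1) v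
  set μ := addNoise π ν with hμ
  have : IsProbabilityMeasure μ := isProbabilityMeasure_addNoise _ _
  have hidP : Measurable (Prod.map id P : Ω × _ → Ω × _) := measurable_id.prodMap hPm
  have : IsProbabilityMeasure (π.map (Prod.map id P)) :=
    Measure.isProbabilityMeasure_map hidP.aemeasurable
  have hμy : addNoise (π.map (Prod.map id P)) (noise2 (ρ * v) r) = μ.map (Prod.map id P) := by
    rw [hμ, addNoise_map π ν measurable_id hPm (fun a b => by simp [hP, ev_add]),
      noiseT_map_pair m k hg.1.le y]
  have L := hloc Ω (π.map (Prod.map id P)) (ρ * v) r (mul_pos hρ hg.1)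
    (hg.rho_mul_le) hr0 hr1
  simp only [hμy] at L
  have hsh : shearT ∘ P = fun θ => (ev m k (sR m k θ) y, ev m (k + 1) (sL m k θ) y) := by
    funext θ
    simp [hP, shearT, ev_succ]
    exact ⟨rfl, rfl⟩
  have hF0 : (μ.map (Prod.map id P)).map (fun p => (p.1, p.2.1)) =
      μ.map (Prod.map id fun θ => ev (m + 1) (k + 1) θ (Fin.cons false y)) := by
    have h : Measurable fun p : Ω × Tor × Tor => (p.1, p.2.1) :=
      measurable_fst.prodMk (measurable_fst.comp measurable_snd)
    rw [Measure.map_map h hidP]; rfl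
  have hF1 : (μ.map (Prod.map id P)).map (fun p => (p.1, p.2.2)) =
      μ.map (Prod.map id fun θ => ev (m + 1) (k + 1) θ (Fin.cons true y)) := by
    have h : Measurable fun p : Ω × Tor × Tor => (p.1, p.2.2) :=
      measurable_fst.prodMk (measurable_snd.comp measurable_snd)
    rw [Measure.map_map h hidP]; rfl
  set μd := (addNoise (π.map (Prod.map id (sR m k))) (noiseT m k (2 * v))).map
    (Prod.map id fun θ => ev m k θ y) with hμd
  have hμd' : μd = μ.map (Prod.map id fun θ => ev m k (sR m k θ) y) := by
    rw [hμd, ← noiseT_map_sR, ← addNoise_map π _ measurable_id (measurable_sR m k) (fun a b => rfl),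
      Measure.map_map (measurable_id.prodMap (measurable_evT m k y))
        (measurable_id.prodMap (measurable_sR m k))]
    rfl
  have hFd : (μ.map (Prod.map id P)).map (fun p => (p.1, p.2.2 - p.2.1)) = μd := by
    have hmd : Measurable fun p : Ω × Tor × Tor => (p.1, p.2.2 - p.2.1) :=
      measurable_fst.prodMk
        ((measurable_snd.comp measurable_snd).sub (measurable_fst.comp measurable_snd))
    rw [Measure.map_map hmd hidP, hμd']
    congr 1
    funext p
    have := congrArg Prod.fst (congrFun hsh p.2)
    simp only [Function.comp, shearT] at this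
    exact Prod.ext rfl this
  rw [hF0, hF1, hFd, e2, e1] at L
  set μu := addNoise (childLaw m k v π) (noiseT m (k + 1) (v / 2)) with hμu
  have := isProbabilityMeasure_childLaw m k v π
  have : IsProbabilityMeasure μu := isProbabilityMeasure_addNoise _ _
  obtain ⟨hfinu, -⟩ := lower_bound hS m (k + 1) (v / 2) hg.left _ (childLaw m k v π)
  set μuy := μu.map (Prod.map id fun θ => ev m (k + 1) θ y) with hμuy
  have hmu : Measurable (Prod.map id fun θ => ev m (k + 1) θ y :
      (Ω × (Idx m k → Tor)) × (Idx m (k + 1) → Tor) → _) :=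
    measurable_id.prodMap (measurable_evT _ _ _)
  have : IsProbabilityMeasure μuy := Measure.isProbabilityMeasure_map hmu.aemeasurable
  have hfinuy : cKL volume μuy ≠ ∞ :=
    ne_top_of_le_ne_top hfinu (cKL_map_le measurable_id (measurePreserving_evT m (k + 1) y))
  set g : Ω × (Idx m k → Tor) → Ω × Tor := Prod.map id fun θ => ev m k θ y with hg'
  have hgm : Measurable g := measurable_id.prodMap (measurable_evT m k y)
  set μc := μuy.map (Prod.map g (id : Tor → Tor)) with hμc
  have hcle : cKL volume μc ≤ cKL volume μuy := cKL_map_le hgm (MeasurePreserving.id _)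
  have hsplit : cKL volume (μ.map (Prod.map id P)) = cKL volume μd + cKL volume μc := by
    have h1 := cKL_map_equiv (μ := μ.map (Prod.map id P)) (MeasurableEquiv.refl Ω) shearT
      measurePreserving_shearT
    have hms : Measurable (Prod.map id shearT : Ω × _ → Ω × _) :=
      measurable_id.prodMap shearT.measurable
    have : IsProbabilityMeasure (μ.map (Prod.map id P)) :=
      Measure.isProbabilityMeasure_map hidP.aemeasurable
    have : IsProbabilityMeasure ((μ.map (Prod.map id P)).map (Prod.map id shearT)) :=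
      Measure.isProbabilityMeasure_map hms.aemeasurable
    rw [show (volume : Measure (Tor × Tor)) = volume.prod volume from rfl, ← h1,
      show (⇑(MeasurableEquiv.refl Ω) : Ω → Ω) = id from rfl, cKL_chain]
    have hms2 : Measurable fun p : Ω × (Idx (m + 1) (k + 1) → Tor) =>
        ((p.1, sR m k p.2), sL m k p.2) :=
      (measurable_fst.prodMk ((measurable_sR m k).comp measurable_snd)).prodMk
        ((measurable_sL m k).comp measurable_snd)
    congr 1
    · rw [Measure.map_map (measurable_id.prodMap measurable_fst) hms,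
        Measure.map_map ((measurable_id.prodMap measurable_fst).comp hms) hidP, hμd']
      congr 2
      funext p
      exact Prod.ext rfl (congrArg Prod.fst (congrFun hsh p.2))
    · rw [hμc, hμuy, hμu, ← addNoise_split, ← hμ,
        Measure.map_map hmu hms2,
        Measure.map_map (hgm.prodMap measurable_id) (hmu.comp hms2),
        Measure.map_map MeasurableEquiv.prodAssoc.symm.measurable hms,
        Measure.map_map (MeasurableEquiv.prodAssoc.symm.measurable.comp hms) hidP]
      congr 2
      funext p
      have h1 := congrArg Prod.fst (congrFun hsh p.2)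
      have h2 := congrArg Prod.snd (congrFun hsh p.2)
      exact Prod.ext (Prod.ext rfl h1) h2
  have : IsProbabilityMeasure μc :=
    Measure.isProbabilityMeasure_map (hgm.prodMap measurable_id).aemeasurable
  have : IsProbabilityMeasure (π.map (Prod.map id (sR m k))) :=
    Measure.isProbabilityMeasure_map (measurable_id.prodMap (measurable_sR m k)).aemeasurable
  obtain ⟨hfind, -⟩ := lower_bound hS m k (2 * v) hg.right Ω (π.map (Prod.map id (sR m k)))
  have : IsProbabilityMeasure (addNoise (π.map (Prod.map id (sR m k))) (noiseT m k (2 * v))) :=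
    isProbabilityMeasure_addNoise _ _
  have hfindy : cKL volume μd ≠ ∞ :=
    ne_top_of_le_ne_top hfind (cKL_map_le measurable_id (measurePreserving_evT m k y))
  have hJ : negEnt (μ.map (Prod.map id P)) ≤ negEnt μd + negEnt μuy := by
    rw [negEnt_eq_cKL, negEnt_eq_cKL, negEnt_eq_cKL, hsplit,
      ENNReal.toReal_add hfindy (ne_top_of_le_ne_top hfinuy hcle)]
    have := ENNReal.toReal_mono hfinuy hcle
    linarith
  set Fd := info1 μd (rho m k * (2 * v))
  set J := -negEnt (μ.map (Prod.map id P)) - gEnt (rho m k * (2 * v)) -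
    gEnt (rho m (k + 1) * (v / 2))
  have hu : info1 μuy (rho m (k + 1) * (v / 2)) ≤ J - Fd := by
    simp only [J, Fd, info1]
    linarith
  calc rho m k * Fd + rho m (k + 1) * info1 μuy (rho m (k + 1) * (v / 2))
      ≤ rho m k * Fd + rho m (k + 1) * (J - Fd) := by
        gcongr
        exact (rho_pos _ _).le
    _ = ρ * ((1 + r) * J - 2 * r * Fd) := by rw [w1, w2]; ring
    _ ≤ _ := mul_le_mul_of_nonneg_left L hρ.le

/-- The main inequality. -/
theorem upper_bound {S e T : ℝ} {n : ℕ} (hS : S ≤ 1 / 16) (he : 0 ≤ e) (hT : leafErr S ≤ T)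
    (hloc : LocalBound S e T n) : ∀ (m k : ℕ) (v : ℝ), m ≤ n → GoodScale S m k v →
    ∀ (Ω : Type) [MeasurableSpace Ω] [StandardBorelSpace Ω] [Nonempty Ω]
      (π : Measure (Ω × (Idx m k → Tor))) [IsProbabilityMeasure π],
      -negEnt (addNoise π (noiseT m k v)) - Hent m k v ≤
        (1 + e) ^ m * rho m k * (∑ x : Cube m, info1 ((addNoise π (noiseT m k v)).map
          (Prod.map id fun θ => ev m k θ x)) (rho m k * v)) + 4 ^ m * (1 + e) ^ m * T
  | 0, k, v, _, hg, Ω, _, _, _, π, hπ => by
    have h := hg.rho_mul_le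
    simp only [rho, one_mul] at h
    obtain ⟨-, -, h3⟩ := @leaf_lower Ω _ π hπ _ _ hg.1 h hS
    simp only [rho, pow_zero, one_mul, Hent, Fintype.sum_unique, info1]
    have hT0 : 0 ≤ T := le_trans (by unfold leafErr; positivity) hT
    have h3' : negEnt ((addNoise π (noiseT 0 k v)).map
        (Prod.map id fun θ => ev 0 k θ default)) = negEnt (addNoise π (noiseT 0 k v)) := h3
    erw [h3']
    linarith
  | m + 1, 0, v, _, hg, Ω, _, _, _, π, hπ => by
    have h := hg.rho_mul_le
    simp only [rho, one_div_mul_eq_div] at h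
    obtain ⟨-, h2, h3⟩ := @leaf_lower Ω _ π hπ _ _ (div_pos hg.1 (by positivity)) h hS
    simp only [rho, Hent, info1, one_div_mul_eq_div]
    have h2' : negEnt (addNoise π (noiseT (m + 1) 0 v)) ≤
        -gEnt (v / 2 ^ (m + 1)) + leafErr S := h2
    have h3' : ∀ x : Cube (m + 1), negEnt ((addNoise π (noiseT (m + 1) 0 v)).map
        (Prod.map id fun θ => ev (m + 1) 0 θ x)) = negEnt (addNoise π (noiseT (m + 1) 0 v)) :=
      fun x => h3
    simp only [h3', Finset.sum_const, Finset.card_univ, Fintype.card_pi, Fintype.card_bool,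
      Finset.prod_const, Fintype.card_fin, nsmul_eq_mul, Nat.cast_pow, Nat.cast_ofNat]
    set F := -negEnt (addNoise π (noiseT (m + 1) 0 v)) - gEnt (v / 2 ^ (m + 1))
    have hF : -T ≤ F := by simp only [F]; linarith
    have hT0 : 0 ≤ T := le_trans (by unfold leafErr; positivity) hT
    have hc : (1 : ℝ) ≤ (1 + e) ^ (m + 1) := one_le_pow₀ (by linarith)
    have h4 : (1 : ℝ) ≤ 4 ^ (m + 1) := one_le_pow₀ (by norm_num)
    rw [show (1 + e) ^ (m + 1) * (1 / 2 ^ (m + 1)) * (2 ^ (m + 1) * F) = (1 + e) ^ (m + 1) * F by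
      field_simp]
    nlinarith [mul_nonneg (mul_nonneg (sub_nonneg.2 h4) (by positivity : (0 : ℝ) ≤ (1 + e) ^ (m + 1))) hT0,
      mul_nonneg (sub_nonneg.2 hc) (sub_nonneg.2 hF)]
  | m + 1, k + 1, v, hm, hg, Ω, _, _, _, π, hπ => by
    have := isProbabilityMeasure_childLaw m k v π
    have : IsProbabilityMeasure (π.map (Prod.map id (sR m k))) :=
      Measure.isProbabilityMeasure_map (measurable_id.prodMap (measurable_sR m k)).aemeasurable
    have A := upper_bound hS he hT hloc m k (2 * v) (by omega) hg.right Ω
      (π.map (Prod.map id (sR m k)))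
    have B := upper_bound hS he hT hloc m (k + 1) (v / 2) (by omega) hg.left _ (childLaw m k v π)
    obtain ⟨a1, -⟩ := lower_bound hS m k (2 * v) hg.right Ω (π.map (Prod.map id (sR m k)))
    obtain ⟨b1, -⟩ := lower_bound hS m (k + 1) (v / 2) hg.left _ (childLaw m k v π)
    have hnode : negEnt (addNoise π (noiseT (m + 1) (k + 1) v)) =
        negEnt (addNoise (π.map (Prod.map id (sR m k))) (noiseT m k (2 * v))) +
          negEnt (addNoise (childLaw m k v π) (noiseT m (k + 1) (v / 2))) := by
      rw [negEnt_eq_cKL, cKL_node, ENNReal.toReal_add a1 b1]; rfl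
    have hsum := Finset.sum_le_sum (s := Finset.univ)
      fun y _ => node_bound hS hloc m k (by omega) v hg Ω π y
    simp only [Finset.sum_add_distrib, ← Finset.mul_sum, Finset.sum_const, Finset.card_univ,
      Fintype.card_pi, Fintype.card_bool, Finset.prod_const, Fintype.card_fin, nsmul_eq_mul,
      Nat.cast_pow, Nat.cast_ofNat] at hsum
    rw [sum_cube_cons, hnode]
    simp only [Hent]
    have hρ1 := rho_le_one (m + 1) (k + 1)
    have hρ0 := rho_pos (m + 1) (k + 1)
    have hT0 : 0 ≤ T := le_trans (by unfold leafErr; positivity) hT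
    have hc : (0 : ℝ) ≤ (1 + e) ^ m := by positivity
    have h24 : (2 : ℝ) ^ m ≤ 4 ^ m := pow_le_pow_left₀ (by norm_num) (by norm_num) _
    have key := mul_le_mul_of_nonneg_left hsum hc
    have hslack : (1 + e) ^ m * (rho (m + 1) (k + 1) * (2 ^ m * T)) + 2 * (4 ^ m * (1 + e) ^ m * T) ≤
        4 ^ (m + 1) * (1 + e) ^ (m + 1) * T := by
      have h1 : rho (m + 1) (k + 1) * (2 ^ m * T) ≤ 4 ^ m * T := by
        refine le_trans (mul_le_of_le_one_left (by positivity) hρ1) ?_
        gcongr
      have h2 : (1 + e) ^ m ≤ (1 + e) ^ (m + 1) := pow_le_pow_right₀ (by linarith) (Nat.le_succ m)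
      have h3 := mul_le_mul_of_nonneg_left h1 hc
      have h4 := mul_le_mul_of_nonneg_left h2 (by positivity : (0 : ℝ) ≤ 3 * 4 ^ m * T)
      have h5 : 0 ≤ (4 : ℝ) ^ m * (1 + e) ^ (m + 1) * T := by positivity
      rw [pow_succ (4 : ℝ)]
      linarith
    rw [pow_succ (1 + e) m] at hslack ⊢
    linarith

end Vale.Agent.P047.Disproof
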