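import Vale.Agent.P047.Disproof.Torus

/-!
Boxes covering the torus and the sampling property of a set of points.
-/

namespace Vale.Agent.P047.Disproof

open Finset Filter

/-- The largest box radius used. -/
noncomputable def rad (n : ℕ) : ℝ := (2 : ℝ) ^ (-(n : ℝ) / 2000)

/-- The loss in the least near-integrality of a box. -/
noncomputable def kap (n : ℕ) : ℝ := (2 : ℝ) ^ (-(n : ℝ) / 4000)

/-- Finitely many boxes which, with the box around zero, cover the torus; each box keeps away from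
the integers and there are few of each weight. -/
structure Cover (n : ℕ) where
  /-- number of boxes -/
  size : ℕ
  /-- centres -/
  ctr : Fin size → Idx n (tdeg n) → ℝ
  /-- weights -/
  w : Fin size → ℝ
  /-- radii -/
  r : Fin size → ℝ
  /-- residues of the centres -/
  d : Fin size → Cube n → ℝ
  d_eq : ∀ c x, ∃ k : ℤ, ev n (tdeg n) (ctr c) x = d c x + k
  d_abs : ∀ c x, |d c x| ≤ 1 / 2
  d_sq : ∀ c, ∑ x, d c x ^ 2 ≤ w c
  r_le : ∀ c, r c ≤ rad n
  low : ∀ c a, (∀ x, |ev n (tdeg n) a x| ≤ r c) →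
    kap n * w c ≤ ∑ x, (d c x + ev n (tdeg n) a x) ^ 2
  few : ∑ c, Real.exp (-((2 : ℝ) ^ (-(n : ℝ) / 1000) * w c)) ≤ Real.exp (-(n : ℝ) ^ 2)
  covers : ∀ θ : Idx n (tdeg n) → ℝ, ∃ z : Idx n (tdeg n) → ℤ,
    (∀ x, |ev n (tdeg n) (θ - fun i => (z i : ℝ)) x| ≤ rad n) ∨
      ∃ c, ∀ x, |ev n (tdeg n) (θ - ctr c - fun i => (z i : ℝ)) x| ≤ r c

/-- `S` samples degree `tdeg n` functions and all boxes at density `θ`. -/
def Good {n : ℕ} (C : Cover n) (S : Finset (Cube n)) (θ : ℝ) : Prop :=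
  (∀ a, θ / 2 * ∑ x, ev n (tdeg n) a x ^ 2 ≤ ∑ x ∈ S, ev n (tdeg n) a x ^ 2) ∧
  ∀ c a, (∀ x, |ev n (tdeg n) a x| ≤ C.r c) →
    θ / 2 * (kap n * C.w c) ≤ ∑ x ∈ S, (C.d c x + ev n (tdeg n) a x) ^ 2

end Vale.Agent.P047.Disproof
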