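import Vale.Agent.P047.Disproof.Torus

/-!
Linearity and injectivity of the evaluation map, and its range: the functions of degree at most `k`.
-/

namespace Vale.Agent.P047.Disproof

open Finset

variable {G H : Type*} [AddCommGroup G] [AddCommGroup H]

/-- Sum over the cube along the first bit. -/
lemma sum_cube_cons {M : Type*} [AddCommMonoid M] {m : ℕ} (F : Cube (m + 1) → M) :
    ∑ x, F x = ∑ y : Cube m, F (Fin.cons true y) + ∑ y : Cube m, F (Fin.cons false y) := by
  rw [← (Fin.consEquiv fun _ => Bool).sum_comp, Fintype.sum_prod_type, Fintype.sum_bool]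
  rfl

lemma ev_map (φ : G →+ H) : ∀ (m k : ℕ) (θ : Idx m k → G) (x : Cube m),
    φ (ev m k θ x) = ev m k (fun i => φ (θ i)) x
  | 0, _, _, _ => rfl
  | _ + 1, 0, _, _ => rfl
  | m + 1, k + 1, θ, x => by
    simp only [ev, map_add, ev_map φ m (k + 1), apply_ite φ, map_zero, ev_map φ m k]

lemma ev_add : ∀ (m k : ℕ) (θ θ' : Idx m k → G) (x : Cube m),
    ev m k (θ + θ') x = ev m k θ x + ev m k θ' x
  | 0, _, _, _, _ => rfl
  | _ + 1, 0, _, _, _ => rfl
  | m + 1, k + 1, θ, θ', x => by
    simp only [ev]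
    rw [← show ev m (k + 1) ((fun i => θ (Sum.inl i)) + fun i => θ' (Sum.inl i)) (Fin.tail x) =
      ev m (k + 1) (fun i => (θ + θ') (Sum.inl i)) (Fin.tail x) from rfl,
      ← show ev m k ((fun i => θ (Sum.inr i)) + fun i => θ' (Sum.inr i)) (Fin.tail x) =
      ev m k (fun i => (θ + θ') (Sum.inr i)) (Fin.tail x) from rfl, ev_add m (k + 1), ev_add m k]
    split_ifs <;> abel

lemma ev_smul (c : ℝ) (m k : ℕ) (θ : Idx m k → ℝ) (x : Cube m) :
    ev m k (c • θ) x = c * ev m k θ x :=
  (ev_map (AddMonoidHom.mulLeft c) m k θ x).symm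

/-- Evaluation as a linear map. -/
def evL (m k : ℕ) : (Idx m k → ℝ) →ₗ[ℝ] (Cube m → ℝ) where
  toFun θ := ev m k θ
  map_add' θ θ' := funext (ev_add m k θ θ')
  map_smul' c θ := funext (ev_smul c m k θ)

@[simp] lemma evL_apply (m k : ℕ) (θ : Idx m k → ℝ) (x : Cube m) : evL m k θ x = ev m k θ x := rfl

lemma ev_sub (m k : ℕ) (θ θ' : Idx m k → G) (x : Cube m) :
    ev m k (θ - θ') x = ev m k θ x - ev m k θ' x := by
  rw [eq_sub_iff_add_eq, ← ev_add, sub_add_cancel]

lemma ev_zero (m k : ℕ) (x : Cube m) : ev m k (0 : Idx m k → G) x = 0 := by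
  simpa using ev_sub m k (0 : Idx m k → G) 0 x

/-- Values in a subgroup come from coordinates in it. -/
lemma coord_mem (S : AddSubgroup G) : ∀ (m k : ℕ) (θ : Idx m k → G),
    (∀ x, ev m k θ x ∈ S) → ∀ i, θ i ∈ S
  | 0, _, _, h, _ => h (fun j => j.elim0)
  | _ + 1, 0, _, h, _ => h (fun _ => false)
  | m + 1, k + 1, θ, h, i => by
    have hl : ∀ y, ev m (k + 1) (fun j => θ (Sum.inl j)) y ∈ S := fun y => by
      simpa [ev] using h (Fin.cons false y)
    rcases i with i | i
    · exact coord_mem S m (k + 1) _ hl i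
    · refine coord_mem S m k (fun j => θ (Sum.inr j)) (fun y => ?_) i
      have := S.sub_mem (h (Fin.cons true y)) (hl y)
      simpa [ev] using this

lemma ev_injective (m k : ℕ) : Function.Injective (ev m k : (Idx m k → G) → Cube m → G) := by
  intro θ θ' h
  rw [← sub_eq_zero]
  funext i
  exact AddSubgroup.mem_bot.mp <| coord_mem ⊥ m k _ (fun x => AddSubgroup.mem_bot.mpr <| by
    rw [ev_sub, h, sub_self]) i

lemma evL_injective (m k : ℕ) : Function.Injective (evL m k) := ev_injective m k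

lemma exists_int_coord {m k : ℕ} {θ : Idx m k → ℝ} (h : ∀ x, ∃ z : ℤ, ev m k θ x = z) :
    ∃ z : Idx m k → ℤ, ∀ i, θ i = z i := by
  have := coord_mem (Int.castAddHom ℝ).range m k θ fun x => by
    obtain ⟨z, hz⟩ := h x
    exact ⟨z, hz.symm⟩
  choose z hz using fun i => AddMonoidHom.mem_range.mp (this i)
  exact ⟨z, fun i => (hz i).symm⟩

lemma ev_intCast (m k : ℕ) (z : Idx m k → ℤ) (x : Cube m) :
    ev m k (fun i => (z i : ℝ)) x = ((ev m k z x : ℤ) : ℝ) :=
  (ev_map (Int.castAddHom ℝ) m k z x).symm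

/-- Characters. -/
def chi {n : ℕ} (S : Finset (Fin n)) (x : Cube n) : ℝ := ∏ i ∈ S, sgn (x i)

lemma sgn_mul_self (b : Bool) : sgn b * sgn b = 1 := by cases b <;> simp [sgn]

lemma coef_eq {n : ℕ} (f : Cube n → ℝ) (S : Finset (Fin n)) :
    coef f S = (∑ x, f x * chi S x) / 2 ^ n := rfl

lemma sum_chi_chi {n : ℕ} (x y : Cube n) :
    ∑ S : Finset (Fin n), chi S x * chi S y = if x = y then (2 : ℝ) ^ n else 0 := by
  simp only [chi, ← prod_mul_distrib]
  rw [← Finset.powerset_univ, ← Finset.prod_one_add]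
  split_ifs with h
  · simp [h, sgn_mul_self, one_add_one_eq_two]
  · obtain ⟨i, hi⟩ : ∃ i, x i ≠ y i := Function.ne_iff.mp h
    refine prod_eq_zero (mem_univ i) ?_
    cases hx : x i <;> cases hy : y i <;> simp_all [sgn]

lemma expansion {n : ℕ} (f : Cube n → ℝ) (x : Cube n) :
    f x = ∑ S, coef f S * chi S x := by
  simp only [coef_eq, div_mul_eq_mul_div, ← sum_div, sum_mul]
  rw [sum_comm, eq_div_iff (by positivity)]
  simp [mul_assoc, ← mul_sum, sum_chi_chi]

lemma sum_chi_mul {n : ℕ} (S T : Finset (Fin n)) :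
    ∑ x, chi S x * chi T x = if S = T then (2 : ℝ) ^ n else 0 := by
  have h : ∀ x : Cube n, chi S x * chi T x =
      ∏ i, (if i ∈ S then sgn (x i) else 1) * (if i ∈ T then sgn (x i) else 1) := fun x => by
    simp only [prod_mul_distrib, prod_ite_mem, univ_inter, chi]
  simp only [h]
  rw [← Fintype.prod_sum (f := fun i (b : Bool) =>
    (if i ∈ S then sgn b else 1) * (if i ∈ T then sgn b else 1))]
  split_ifs with hST
  · subst hST
    have : ∀ i : Fin n, (∑ b : Bool, (if i ∈ S then sgn b else 1) *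
        (if i ∈ S then sgn b else 1)) = 2 := fun i => by
      split_ifs <;> norm_num [sgn]
    rw [prod_congr rfl fun i _ => this i]
    simp
  · obtain ⟨i, hi⟩ : ∃ i, ¬(i ∈ S ↔ i ∈ T) := by
      by_contra h'
      exact hST (Finset.ext fun i => not_not.mp fun hi => h' ⟨i, hi⟩)
    refine prod_eq_zero (mem_univ i) ?_
    by_cases hS : i ∈ S <;> by_cases hT : i ∈ T <;> simp_all [sgn]

/-- Coordinates of a set of positions along the first one. -/
lemma chi_cons {m : ℕ} (S : Finset (Fin (m + 1))) (b : Bool) (y : Cube m) :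
    chi S (Fin.cons b y) = (if 0 ∈ S then sgn b else 1) *
      chi (univ.filter fun i : Fin m => i.succ ∈ S) y := by
  simp only [chi, prod_filter]
  rw [← univ_inter S, ← prod_ite_mem, Fin.prod_univ_succ]
  simp

lemma card_tail {m : ℕ} (S : Finset (Fin (m + 1))) :
    S.card = (if 0 ∈ S then 1 else 0) + (univ.filter fun i : Fin m => i.succ ∈ S).card := by
  simp only [card_filter]
  conv_lhs => rw [card_eq_sum_ones, ← univ_inter S, ← sum_ite_mem, Fin.sum_univ_succ]

lemma exists_ev_chi : ∀ (m k : ℕ) (S : Finset (Fin m)), S.card ≤ k →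
    ∃ θ : Idx m k → ℝ, ∀ x, ev m k θ x = chi S x
  | 0, _, S, _ => ⟨fun _ => chi S (fun j => j.elim0), fun x => by
      simp [ev, Subsingleton.elim x (fun j => j.elim0)]⟩
  | _ + 1, 0, S, h => ⟨fun _ => 1, fun x => by
      simp [ev, chi, card_eq_zero.mp (Nat.le_zero.mp h)]⟩
  | m + 1, k + 1, S, h => by
    set S' := univ.filter fun i : Fin m => i.succ ∈ S with hS'
    have hc := card_tail S
    rw [← hS'] at hc
    obtain ⟨a, ha⟩ := exists_ev_chi m (k + 1) S' (by omega)
    by_cases h0 : (0 : Fin (m + 1)) ∈ S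
    · rw [if_pos h0] at hc
      obtain ⟨b, hb⟩ := exists_ev_chi m k S' (by omega)
      refine ⟨fun i => Sum.elim (-a) ((2 : ℝ) • b) i, fun x => ?_⟩
      have hneg : ev m (k + 1) (-a) (Fin.tail x) = -chi S' (Fin.tail x) := by
        rw [← ha, ← neg_one_smul ℝ a, ev_smul, neg_one_mul]
      have htwo : ev m k ((2 : ℝ) • b) (Fin.tail x) = 2 * chi S' (Fin.tail x) := by
        rw [ev_smul, hb]
      conv_rhs => rw [← Fin.cons_self_tail x, chi_cons, if_pos h0, ← hS']
      show ev m (k + 1) (-a) (Fin.tail x) + _ = _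
      rw [hneg]
      cases x 0
      · simp [sgn]
      · simp only [sgn, if_true]
        show -chi S' (Fin.tail x) + ev m k ((2 : ℝ) • b) (Fin.tail x) = _
        rw [htwo]; ring
    · refine ⟨fun i => Sum.elim a (0 : Idx m k → ℝ) i, fun x => ?_⟩
      conv_rhs => rw [← Fin.cons_self_tail x, chi_cons, if_neg h0, ← hS', one_mul, ← ha]
      show ev m (k + 1) a (Fin.tail x) + _ = _
      split_ifs
      · show _ + ev m k (0 : Idx m k → ℝ) (Fin.tail x) = _
        rw [ev_zero, add_zero]
      · rw [add_zero]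

lemma sum_ev_chi : ∀ (m k : ℕ) (θ : Idx m k → ℝ) (S : Finset (Fin m)), k < S.card →
    ∑ x, ev m k θ x * chi S x = 0
  | 0, k, _, S, h => by
    have := card_le_univ S
    rw [Fintype.card_fin] at this
    omega
  | m + 1, 0, θ, S, h => by
    have := sum_chi_mul (∅ : Finset (Fin (m + 1))) S
    rw [if_neg (fun e => by rw [← e] at h; simp at h)] at this
    simp only [chi, prod_empty, one_mul] at this
    simp [ev, ← mul_sum, chi, this]
  | m + 1, k + 1, θ, S, h => by
    have hc := card_tail S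
    rw [sum_cube_cons]
    simp only [chi_cons, ev, Fin.cons_zero, Fin.tail_cons, if_true, Bool.false_eq_true, if_false,
      add_zero, add_mul, sum_add_distrib]
    set S' := univ.filter fun i : Fin m => i.succ ∈ S
    have hb : ∀ c : ℝ, ∑ y, ev m k (fun i => θ (Sum.inr i)) y * (c * chi S' y) = 0 := fun c => by
      simp only [mul_left_comm _ c, ← mul_sum]
      rw [sum_ev_chi m k _ S' (by split_ifs at hc <;> omega), mul_zero]
    rw [hb]
    by_cases h0 : (0 : Fin (m + 1)) ∈ S
    · simp [h0, sgn]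
    · rw [if_neg h0] at hc
      simp only [if_neg h0, one_mul]
      rw [sum_ev_chi m (k + 1) _ S' (by omega)]
      simp

lemma degLE_ev (m k : ℕ) (θ : Idx m k → ℝ) : DegLE (ev m k θ) k := fun S h => by
  rw [coef_eq, sum_ev_chi m k θ S h, zero_div]

lemma exists_ev {m k : ℕ} {f : Cube m → ℝ} (hf : DegLE f k) :
    ∃ θ : Idx m k → ℝ, ∀ x, ev m k θ x = f x := by
  classical
  choose θ hθ using fun S : {S : Finset (Fin m) // S.card ≤ k} => exists_ev_chi m k S.1 S.2
  refine ⟨∑ S, coef f S.1 • θ S, fun x => ?_⟩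
  rw [expansion f x, ← evL_apply, map_sum]
  simp only [Finset.sum_apply, map_smul, Pi.smul_apply, evL_apply, hθ, smul_eq_mul]
  rw [← Finset.sum_subtype (univ.filter fun S : Finset (Fin m) => S.card ≤ k) (by simp)
    fun S => coef f S * chi S x]
  exact sum_filter_of_ne fun S _ hne => not_lt.mp fun hlt => hne (by rw [hf S hlt, zero_mul])

/-- The parity of all bits, as a sign. -/
def parity {n : ℕ} (x : Cube n) : ℝ := ∏ i, sgn (x i)

lemma parity_mul_self {n : ℕ} (x : Cube n) : parity x * parity x = 1 := by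
  simp [parity, ← prod_mul_distrib, sgn_mul_self]

lemma parity_mul_chi {n : ℕ} (S : Finset (Fin n)) (x : Cube n) :
    parity x * chi S x = chi Sᶜ x := by
  rw [parity, ← prod_mul_prod_compl S, chi, chi, mul_comm (∏ i ∈ S, sgn (x i)), mul_assoc,
    ← prod_mul_distrib]
  simp [sgn_mul_self]

/-- Degree at most `D` is orthogonality, after the parity twist, to degree at most `n - D - 1`. -/
lemma degLE_iff_orth {n D t : ℕ} (hn : n = D + t + 1) (f : Cube n → ℝ) :
    DegLE f D ↔ ∀ θ : Idx n t → ℝ, ∑ x, f x * parity x * ev n t θ x = 0 := by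
  have hcard : ∀ S : Finset (Fin n), D < S.card ↔ Sᶜ.card ≤ t := fun S => by
    have := S.card_le_univ
    rw [Finset.card_compl, Fintype.card_fin] at *
    omega
  constructor
  · intro hf θ
    have h := degLE_ev n t θ
    simp_rw [expansion (ev n t θ), mul_sum]
    rw [sum_comm]
    refine sum_eq_zero fun T _ => ?_
    simp_rw [mul_left_comm _ (coef (ev n t θ) T), ← mul_sum]
    by_cases hT : t < T.card
    · rw [h T hT, zero_mul]
    · have := hf Tᶜ ((hcard _).mpr (by rw [compl_compl]; omega))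
      rw [coef_eq, div_eq_zero_iff] at this
      simp only [mul_assoc, parity_mul_chi]
      rw [this.resolve_right (by positivity), mul_zero]
  · intro h S hS
    obtain ⟨θ, hθ⟩ := exists_ev_chi n t Sᶜ ((hcard S).mp hS)
    have := h θ
    simp only [hθ, mul_assoc, parity_mul_chi, compl_compl] at this
    rw [coef_eq, this, zero_div]

end Vale.Agent.P047.Disproof
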