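import Vale.Agent.P047.Disproof.Cover
import Vale.Agent.P047.Disproof.TorusBasic
import Vale.Agent.P047.Disproof.Count

/-!
Existence of covers, from the count of separated points.

In every level `v ≤ W < v + 1` a maximal separated set is chosen. A centre with some point of much
smaller weight in its box is replaced by a net point of that weight and three times the radius; this
stops after `steps` rounds, as the weight drops by the factor `kap` each round.
-/

namespace Vale.Agent.P047.Disproof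

open Finset Filter

private lemma ev_neg' {G : Type*} [AddCommGroup G] (m k : ℕ) (a : Idx m k → G) (x : Cube m) :
    ev m k (-a) x = -ev m k a x := by
  rw [← zero_sub, ev_sub, ev_zero, zero_sub]

variable {n : ℕ}

/-- `θ` is within `r` of `p` at every point, modulo integer coordinates. -/
private def Close (n : ℕ) (θ p : Idx n (tdeg n) → ℝ) (r : ℝ) : Prop :=
  ∃ z : Idx n (tdeg n) → ℤ, ∀ x, |ev n (tdeg n) (θ - p - fun i => (z i : ℝ)) x| ≤ r

private lemma close_self (θ : Idx n (tdeg n) → ℝ) {r : ℝ} (hr : 0 ≤ r) : Close n θ θ r := by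
  refine ⟨0, fun x => ?_⟩
  rw [show (θ - θ - fun i => (((0 : Idx n (tdeg n) → ℤ) i : ℤ) : ℝ)) = 0 by
    funext i; simp, ev_zero, abs_zero]
  exact hr

private lemma Close.symm {θ p : Idx n (tdeg n) → ℝ} {r : ℝ} (h : Close n θ p r) :
    Close n p θ r := by
  obtain ⟨z, hz⟩ := h
  refine ⟨-z, fun x => ?_⟩
  rw [show (p - θ - fun i => (((-z) i : ℤ) : ℝ)) = -(θ - p - fun i => (z i : ℝ)) by
    funext i; simp; ring, ev_neg', abs_neg]
  exact hz x

private lemma Close.trans {a b c : Idx n (tdeg n) → ℝ} {r s u : ℝ} (h : Close n a b r)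
    (h' : Close n b c s) (hu : r + s ≤ u) : Close n a c u := by
  obtain ⟨z, hz⟩ := h
  obtain ⟨z', hz'⟩ := h'
  refine ⟨z + z', fun x => ?_⟩
  rw [show (a - c - fun i => (((z + z') i : ℤ) : ℝ)) =
      (a - b - fun i => (z i : ℝ)) + (b - c - fun i => (z' i : ℝ)) by funext i; simp; ring,
    ev_add]
  exact ((abs_add_le _ _).trans (add_le_add (hz x) (hz' x))).trans hu

/-- The weight of a point of the torus. -/
private noncomputable def wt (n : ℕ) (θ : Idx n (tdeg n) → ℝ) : ℝ := W (ev n (tdeg n) θ)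

private lemma wt_nonneg (θ : Idx n (tdeg n) → ℝ) : 0 ≤ wt n θ :=
  sum_nonneg fun _ _ => sq_nonneg _

private lemma dist1_le (q : ℝ) (k : ℤ) : dist1 q ≤ |q - k| := round_le q k

private lemma dist1_le_half (q : ℝ) : dist1 q ≤ 1 / 2 := abs_sub_round q

private lemma wt_le (θ : Idx n (tdeg n) → ℝ) : wt n θ ≤ 2 ^ n := by
  refine (sum_le_sum (g := fun _ => (1 : ℝ)) fun x _ => ?_).trans_eq (by simp)
  exact pow_le_one₀ (abs_nonneg _) ((dist1_le_half _).trans (by norm_num))

/-- The residue of a centre. -/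
private noncomputable def res (n : ℕ) (p : Idx n (tdeg n) → ℝ) (x : Cube n) : ℝ :=
  ev n (tdeg n) p x - round (ev n (tdeg n) p x)

private lemma sum_res_sq (p : Idx n (tdeg n) → ℝ) : ∑ x, res n p x ^ 2 = wt n p :=
  sum_congr rfl fun _ _ => (sq_abs _).symm

private lemma wt_add_le (p a : Idx n (tdeg n) → ℝ) :
    wt n (p + a) ≤ ∑ x, (res n p x + ev n (tdeg n) a x) ^ 2 := by
  refine sum_le_sum fun x _ => ?_
  rw [← sq_abs (res n p x + _)]
  refine pow_le_pow_left₀ (abs_nonneg _) ?_ 2
  refine (dist1_le _ (round (ev n (tdeg n) p x))).trans_eq ?_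
  rw [ev_add, res]
  ring_nf

/-- The box of radius `r` around `p` has no point much lighter than `p`. -/
private def GoodBox (n : ℕ) (p : Idx n (tdeg n) → ℝ) (r : ℝ) : Prop :=
  ∀ a, (∀ x, |ev n (tdeg n) a x| ≤ r) →
    kap n * wt n p ≤ ∑ x, (res n p x + ev n (tdeg n) a x) ^ 2

/-- The rounds of replacement. -/
private def steps : ℕ := 4001

/-- The radius in round `k`. -/
private noncomputable def radius (n k : ℕ) : ℝ := 4 * eta n * 3 ^ k

private lemma radius_succ (n k : ℕ) : 2 * radius n k + 4 * eta n ≤ radius n (k + 1) := by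
  have he : 0 ≤ eta n := Real.rpow_nonneg zero_le_two _
  have h1 : (1 : ℝ) ≤ 3 ^ k := one_le_pow₀ (by norm_num)
  rw [radius, radius, pow_succ]
  nlinarith

private lemma eventually_numeric : ∀ᶠ n : ℕ in atTop,
    (∀ k ≤ steps, radius n k + 4 * eta n ≤ rad n) ∧ kap n ≤ 1 / 2 ∧ kap n ^ steps * 2 ^ n ≤ 1 ∧
      alph n * 3 < 2 / 5 ∧
      ∀ v : ℝ, 2 / 5 ≤ alph n * (v + 1) →
        ((steps : ℝ) + 1) * (2 ^ n + 1) *
          Real.exp (alph n * (v + 1) + 1 / 4 - (2 : ℝ) ^ (-(n : ℝ) / 1000) * v) ≤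
        Real.exp (-(n : ℝ) ^ 2) := by
  have poly : ∀ (C : ℝ) (k : ℕ) {c : ℝ}, 0 < c →
      ∀ᶠ n : ℕ in atTop, C * (n : ℝ) ^ k ≤ (2 : ℝ) ^ (c * n) := by
    intro C k c hc
    have hr : 1 < (2 : ℝ) ^ c := Real.one_lt_rpow one_lt_two hc
    have h := (tendsto_pow_const_div_const_pow_of_one_lt k hr).const_mul C
    rw [mul_zero] at h
    filter_upwards [h.eventually (eventually_le_nhds zero_lt_one)] with n hn
    rw [← mul_div_assoc, div_le_one (by positivity)] at hn
    rwa [Real.rpow_mul zero_le_two, Real.rpow_natCast]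
  filter_upwards [eventually_ge_atTop (steps + 1),
    poly (4 * 3 ^ steps + 4) 0 (c := 1 / 2000) (by norm_num),
    poly 2 0 (c := 1 / 4000) (by norm_num), poly 100 2 (c := 1 / 1000) (by norm_num),
    poly 20 0 (c := 1 / 500) (by norm_num)] with n hn h1 h2 h3 h4
  simp only [pow_zero, mul_one] at h1 h2 h4
  have hn1 : (1 : ℝ) ≤ n := Nat.one_le_cast.2 (by omega)
  have hK : (steps : ℝ) + 1 ≤ n := by exact_mod_cast hn
  have hα : 0 < alph n := Real.rpow_pos_of_pos two_pos _
  have hαe : alph n * (2 : ℝ) ^ ((1 / 500 : ℝ) * n) = 1 := by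
    rw [alph, ← Real.rpow_add two_pos, ← Real.rpow_zero 2]
    congr 1
    ring
  refine ⟨fun k hk => ?_, ?_, ?_, ?_, fun v hv => ?_⟩
  · have he : 0 ≤ eta n := Real.rpow_nonneg zero_le_two _
    have e : eta n * (2 : ℝ) ^ ((1 / 2000 : ℝ) * n) = rad n := by
      rw [eta, rad, ← Real.rpow_add two_pos]
      congr 1
      ring
    calc radius n k + 4 * eta n ≤ eta n * (4 * 3 ^ steps + 4) := by
          rw [radius]
          nlinarith [pow_le_pow_right₀ (by norm_num : (1 : ℝ) ≤ 3) hk]
      _ ≤ eta n * (2 : ℝ) ^ ((1 / 2000 : ℝ) * n) := mul_le_mul_of_nonneg_left h1 he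
      _ = rad n := e
  · have e : kap n * (2 : ℝ) ^ ((1 / 4000 : ℝ) * n) = 1 := by
      rw [kap, ← Real.rpow_add two_pos, ← Real.rpow_zero 2]
      congr 1
      ring
    have hk : 0 ≤ kap n := Real.rpow_nonneg zero_le_two _
    nlinarith [mul_le_mul_of_nonneg_left h2 hk]
  · rw [kap, ← Real.rpow_natCast ((2 : ℝ) ^ _) steps, ← Real.rpow_mul zero_le_two,
      ← Real.rpow_natCast (2 : ℝ) n, ← Real.rpow_add two_pos]
    refine Real.rpow_le_one_of_one_le_of_nonpos one_le_two ?_
    simp only [steps]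
    push_cast
    linarith
  · nlinarith [mul_le_mul_of_nonneg_left h4 hα.le]
  · set β : ℝ := (2 : ℝ) ^ (-(n : ℝ) / 1000)
    set Q : ℝ := (2 : ℝ) ^ ((1 / 1000 : ℝ) * n) with hQ
    have eQ : alph n * Q = β := by
      rw [hQ, alph, ← Real.rpow_add two_pos]
      congr 1
      ring
    have eQ' : β * Q = 1 := by
      rw [hQ, ← Real.rpow_add two_pos, ← Real.rpow_zero 2]
      congr 1
      ring
    have hQ1 : 100 ≤ Q := le_trans (by nlinarith) h3
    have hβ : β ≤ 1 := by nlinarith [Real.rpow_nonneg zero_le_two (-(n : ℝ) / 1000)]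
    have hlog : ((steps : ℝ) + 1) * (2 ^ n + 1) ≤ Real.exp (3 * n) := by
      have a1 : (n : ℝ) ≤ Real.exp n := by linarith [Real.add_one_le_exp (n : ℝ)]
      have a2 : (2 : ℝ) ^ n ≤ Real.exp n := by
        rw [← Real.exp_one_pow]
        exact pow_le_pow_left₀ zero_le_two (by linarith [Real.add_one_le_exp (1 : ℝ)]) n
      have a3 : (2 : ℝ) ^ n + 1 ≤ Real.exp n * Real.exp n := by
        have : (2 : ℝ) ≤ Real.exp n := le_trans (by
          linarith [Real.add_one_le_exp (1 : ℝ)]) (Real.exp_le_exp.2 hn1)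
        nlinarith [Real.exp_pos (n : ℝ)]
      calc ((steps : ℝ) + 1) * (2 ^ n + 1) ≤ Real.exp n * (Real.exp n * Real.exp n) :=
            mul_le_mul (hK.trans a1) a3 (by positivity) (Real.exp_pos _).le
        _ = Real.exp (3 * n) := by rw [← Real.exp_add, ← Real.exp_add]; ring_nf
    refine (mul_le_mul_of_nonneg_right hlog (Real.exp_pos _).le).trans ?_
    rw [← Real.exp_add, Real.exp_le_exp]
    set u := alph n * (v + 1) with hu
    have ev' : β * v = u * Q - β := by rw [hu, ← eQ]; ring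
    nlinarith [mul_le_mul_of_nonneg_right hv (show (0 : ℝ) ≤ Q - 1 by linarith)]

open Classical in
/-- In every level a finite net with few points. -/
private lemma exists_net {B : ℝ → ℝ}
    (hcount : ∀ (P : Finset (Idx n (tdeg n) → ℝ)) (w : ℝ), 0 ≤ w → (∀ θ ∈ P, wt n θ ≤ w) →
      (∀ θ ∈ P, ∀ θ' ∈ P, θ ≠ θ' → ¬ Close n θ θ' (4 * eta n)) →
      (P.card : ℝ) ≤ B w) (v : ℕ) :
    ∃ P : Finset (Idx n (tdeg n) → ℝ),
      (∀ p ∈ P, (v : ℝ) ≤ wt n p ∧ wt n p < v + 1) ∧ (P.card : ℝ) ≤ B (v + 1) ∧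
      ∀ θ, (v : ℝ) ≤ wt n θ → wt n θ < v + 1 → ∃ p ∈ P, Close n θ p (4 * eta n) := by
  have he : 0 ≤ 4 * eta n := mul_nonneg (by norm_num) (Real.rpow_nonneg zero_le_two _)
  set Valid : Finset (Idx n (tdeg n) → ℝ) → Prop := fun P =>
    (∀ p ∈ P, (v : ℝ) ≤ wt n p ∧ wt n p < v + 1) ∧
      ∀ θ ∈ P, ∀ θ' ∈ P, θ ≠ θ' → ¬ Close n θ θ' (4 * eta n)
  have hcard : ∀ P, Valid P → (P.card : ℝ) ≤ B (v + 1) := fun P hP =>
    hcount P _ (by positivity) (fun θ hθ => (hP.1 θ hθ).2.le) hP.2
  set M := Nat.findGreatest (fun c => ∃ P, Valid P ∧ P.card = c) ⌈B (v + 1)⌉₊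
  have h0 : Valid ∅ := ⟨by simp, by simp⟩
  obtain ⟨P, hP, hPc⟩ : ∃ P, Valid P ∧ P.card = M :=
    Nat.findGreatest_spec (P := fun c => ∃ P, Valid P ∧ P.card = c) (Nat.zero_le _)
      ⟨∅, h0, rfl⟩
  refine ⟨P, hP.1, hcard P hP, fun θ hv hv' => ?_⟩
  by_contra hne
  push Not at hne
  have hθ : θ ∉ P := fun h => hne θ h (close_self θ he)
  have hV : Valid (insert θ P) := by
    refine ⟨fun p hp => ?_, fun a ha b hb hab => ?_⟩
    · rcases mem_insert.1 hp with rfl | hp
      exacts [⟨hv, hv'⟩, hP.1 p hp]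
    · rcases mem_insert.1 ha with ha' | ha' <;> rcases mem_insert.1 hb with hb' | hb'
      · exact absurd (ha'.trans hb'.symm) hab
      · rw [ha']; exact hne b hb'
      · rw [hb']; exact fun h => hne a ha' h.symm
      · exact hP.2 a ha' b hb' hab
  have hle : (insert θ P).card ≤ M := Nat.le_findGreatest
    (Nat.cast_le.1 ((hcard _ hV).trans (Nat.le_ceil _))) ⟨_, hV, rfl⟩
  rw [card_insert_of_notMem hθ, hPc] at hle
  omega

theorem exists_cover : ∀ᶠ n : ℕ in atTop, Nonempty (Cover n) := by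
  filter_upwards [count_separated, eventually_numeric] with n hc hnum
  obtain ⟨hrad, hk2, hkN, hα3, hfew⟩ := hnum
  classical
  set t := tdeg n
  have hη : 0 ≤ 4 * eta n := mul_nonneg (by norm_num) (Real.rpow_nonneg zero_le_two _)
  have hk0 : 0 ≤ kap n := Real.rpow_nonneg zero_le_two _
  have hα : 0 ≤ alph n := Real.rpow_nonneg zero_le_two _
  have hcount : ∀ (P : Finset (Idx n t → ℝ)) (w : ℝ), 0 ≤ w → (∀ θ ∈ P, wt n θ ≤ w) →
      (∀ θ ∈ P, ∀ θ' ∈ P, θ ≠ θ' → ¬ Close n θ θ' (4 * eta n)) →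
      Real.log P.card ≤ alph n * w + 1 / 4 := fun P w hw hW hsep =>
    hc P w hw hW fun θ hθ θ' hθ' hne z => by
      by_contra hcon
      push Not at hcon
      exact hsep θ hθ θ' hθ' hne ⟨z, hcon⟩
  -- light points lie near zero
  have hlight : ∀ θ, alph n * wt n θ < 2 / 5 → Close n θ 0 (4 * eta n) := by
    intro θ hθ
    by_contra hcl
    have hne : θ ≠ 0 := fun h => hcl (h ▸ close_self θ hη)
    have hz : wt n 0 ≤ wt n θ := by
      refine le_trans (le_of_eq ?_) (wt_nonneg θ)
      simp [wt, W, ev_zero, dist1]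
    have h := hcount {θ, 0} (wt n θ) (wt_nonneg θ)
      (fun a ha => by rcases mem_insert.1 ha with rfl | ha <;> simp_all)
      (fun a ha b hb hab => by
        simp only [mem_insert, mem_singleton] at ha hb
        rcases ha with rfl | rfl <;> rcases hb with rfl | rfl
        exacts [absurd rfl hab, hcl, fun h => hcl h.symm, absurd rfl hab])
    rw [card_pair hne] at h
    push_cast at h
    linarith [Real.log_two_gt_d9]
  choose net hlev hnc hcov using exists_net (B := fun w => Real.exp (alph n * w + 1 / 4))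
    (fun P w hw hW hsep => by
      rcases P.card.eq_zero_or_pos with h0 | h0
      · rw [h0, Nat.cast_zero]; positivity
      · rw [← Real.exp_log (Nat.cast_pos.2 h0 : (0 : ℝ) < P.card)]
        exact Real.exp_le_exp.2 (hcount P w hw hW hsep))
  set cs : Finset ((Idx n t → ℝ) × ℕ) :=
    (((range (2 ^ n + 1)).biUnion net) ×ˢ range (steps + 1)).filter fun pk =>
      2 / 5 ≤ alph n * wt n pk.1 ∧ GoodBox n pk.1 (radius n pk.2) with hcs
  -- every point has a net point of nearly the same weight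
  have hnet : ∀ θ, ∃ p ∈ (range (2 ^ n + 1)).biUnion net,
      Close n θ p (4 * eta n) ∧ wt n p < wt n θ + 1 := by
    intro θ
    set v := ⌊wt n θ⌋₊
    have h1 : (v : ℝ) ≤ wt n θ := Nat.floor_le (wt_nonneg θ)
    obtain ⟨p, hp, hcl⟩ := hcov v θ h1 (Nat.lt_floor_add_one _)
    refine ⟨p, mem_biUnion.2 ⟨v, mem_range.2 ?_, hp⟩, hcl, by linarith [(hlev v p hp).2]⟩
    have : (v : ℝ) ≤ ((2 ^ n : ℕ) : ℝ) := by push_cast; exact h1.trans (wt_le θ)
    exact Nat.lt_succ_of_le (Nat.cast_le.1 this)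
  have main : ∀ j k, k + j = steps → ∀ p ∈ (range (2 ^ n + 1)).biUnion net,
      wt n p ≤ kap n ^ k * 2 ^ n + 2 → ∀ θ, Close n θ p (radius n k) →
      Close n θ 0 (rad n) ∨ ∃ pk ∈ cs, Close n θ pk.1 (radius n pk.2) := by
    intro j
    induction j with
    | zero =>
      intro k hk p _ hw θ hθ
      rw [show k = steps by omega] at hw hθ
      exact Or.inl (hθ.trans (hlight p (by nlinarith)) (hrad steps le_rfl))
    | succ j ih =>
      intro k hk p hp hw θ hθ
      rcases lt_or_ge (alph n * wt n p) (2 / 5) with hl | hl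
      · exact Or.inl (hθ.trans (hlight p hl) (hrad k (by omega)))
      by_cases hg : GoodBox n p (radius n k)
      · exact Or.inr ⟨(p, k), mem_filter.2 ⟨mem_product.2 ⟨hp, mem_range.2 (by omega)⟩, hl, hg⟩, hθ⟩
      · simp only [GoodBox, not_forall, not_le] at hg
        obtain ⟨a, ha, hlt⟩ := hg
        have hpa : Close n p (p + a) (radius n k) := ⟨0, fun x => by
          rw [show (p - (p + a) - fun i => (((0 : Idx n t → ℤ) i : ℤ) : ℝ)) = -a by
            funext i; simp, ev_neg', abs_neg]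
          exact ha x⟩
        obtain ⟨q, hq, hcl, hwq⟩ := hnet (p + a)
        have hθq : Close n θ q (radius n (k + 1)) :=
          (hθ.trans hpa le_rfl).trans hcl (by linarith [radius_succ n k])
        refine ih (k + 1) (by omega) q hq ?_ θ hθq
        rw [pow_succ']
        nlinarith [wt_add_le p a, mul_le_mul_of_nonneg_left hw hk0]
  -- the cover
  have hw_le : ∀ pk ∈ cs, ∀ a, (∀ x, |ev n t a x| ≤ radius n pk.2) →
      kap n * wt n pk.1 ≤ ∑ x, (res n pk.1 x + ev n t a x) ^ 2 :=
    fun pk h => ((mem_filter.1 h).2).2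
  let e := cs.equivFin
  refine ⟨{
    size := cs.card
    ctr := fun c => (e.symm c).1.1
    w := fun c => wt n (e.symm c).1.1
    r := fun c => radius n (e.symm c).1.2
    d := fun c => res n (e.symm c).1.1
    d_eq := fun c x => ⟨round (ev n t (e.symm c).1.1 x), by rw [res]; ring⟩
    d_abs := fun c x => abs_sub_round _
    d_sq := fun c => (sum_res_sq _).le
    r_le := fun c => by
      have := mem_range.1 (mem_product.1 (mem_filter.1 (e.symm c).2).1).2
      linarith [hrad _ (Nat.lt_succ_iff.1 this)]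
    low := fun c a ha => hw_le _ (e.symm c).2 a ha
    few := ?_
    covers := ?_ }⟩
  · set β : ℝ := (2 : ℝ) ^ (-(n : ℝ) / 1000)
    have hβ : 0 ≤ β := Real.rpow_nonneg zero_le_two _
    set f : (Idx n t → ℝ) → ℝ := fun p =>
      if 2 / 5 ≤ alph n * wt n p then Real.exp (-(β * wt n p)) else 0
    have hf : ∀ p, 0 ≤ f p := fun p => by simp only [f]; split_ifs <;> positivity
    rw [e.symm.sum_comp (fun pk => Real.exp (-(β * wt n pk.1.1))), sum_coe_sort cs
      (fun pk => Real.exp (-(β * wt n pk.1)))]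
    calc ∑ pk ∈ cs, Real.exp (-(β * wt n pk.1)) = ∑ pk ∈ cs, f pk.1 := by
          refine sum_congr rfl fun pk h => ?_
          simp [f, ((mem_filter.1 h).2).1]
      _ ≤ ∑ pk ∈ ((range (2 ^ n + 1)).biUnion net) ×ˢ range (steps + 1), f pk.1 :=
          sum_le_sum_of_subset_of_nonneg (filter_subset _ _) fun pk _ _ => hf _
      _ = ((steps : ℝ) + 1) * ∑ p ∈ (range (2 ^ n + 1)).biUnion net, f p := by
          rw [sum_product, mul_sum]
          exact sum_congr rfl fun p _ => by simp
      _ ≤ ((steps : ℝ) + 1) * ∑ v ∈ range (2 ^ n + 1), ∑ p ∈ net v, f p :=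
          mul_le_mul_of_nonneg_left (sum_biUnion_le_sum hf) (by positivity)
      _ ≤ ((steps : ℝ) + 1) * ∑ _v ∈ range (2 ^ n + 1),
            (Real.exp (-(n : ℝ) ^ 2) / (((steps : ℝ) + 1) * (2 ^ n + 1))) := by
          refine mul_le_mul_of_nonneg_left (sum_le_sum fun v _ => ?_) (by positivity)
          rw [le_div_iff₀ (by positivity)]
          rcases lt_or_ge (alph n * ((v : ℝ) + 1)) (2 / 5) with h | h
          · rw [sum_eq_zero fun p hp => if_neg (not_le.2 (lt_of_le_of_lt
              (mul_le_mul_of_nonneg_left (hlev v p hp).2.le hα) h)), zero_mul]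
            positivity
          · refine le_trans ?_ (hfew v h)
            have : ∑ p ∈ net v, f p ≤
                Real.exp (alph n * ((v : ℝ) + 1) + 1 / 4) * Real.exp (-(β * v)) := by
              refine (sum_le_sum (g := fun _ => Real.exp (-(β * v))) fun p hp => ?_).trans ?_
              · simp only [f]
                split_ifs
                · exact Real.exp_le_exp.2 (neg_le_neg
                    (mul_le_mul_of_nonneg_left (hlev v p hp).1 hβ))
                · positivity
              · rw [sum_const, nsmul_eq_mul]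
                exact mul_le_mul_of_nonneg_right (hnc v) (Real.exp_pos _).le
            rw [← Real.exp_add, ← sub_eq_add_neg] at this
            rw [mul_comm]
            exact mul_le_mul_of_nonneg_left this (by positivity)
      _ = Real.exp (-(n : ℝ) ^ 2) := by
          rw [sum_const, card_range, nsmul_eq_mul]
          push_cast
          field_simp
  · intro θ
    obtain ⟨p, hp, hcl, -⟩ := hnet θ
    have h := main steps 0 (zero_add _) p hp (by
      rw [pow_zero, one_mul]; linarith [wt_le p]) θ (by simpa [radius] using hcl)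
    rcases h with ⟨z, hz⟩ | ⟨pk, hpk, z, hz⟩
    · exact ⟨z, Or.inl (by simpa using hz)⟩
    · exact ⟨z, Or.inr ⟨e ⟨pk, hpk⟩, by simpa using hz⟩⟩
where
  sum_biUnion_le_sum {α β : Type} [DecidableEq β] {s : Finset α} {t : α → Finset β} {f : β → ℝ}
      (hf : ∀ b, 0 ≤ f b) : ∑ x ∈ s.biUnion t, f x ≤ ∑ i ∈ s, ∑ x ∈ t i, f x := by
    classical
    induction s using Finset.induction with
    | empty => simp
    | @insert a s ha ih =>
      rw [biUnion_insert, sum_insert ha]
      have h := sum_union_inter (s₁ := t a) (s₂ := s.biUnion t) (f := f)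
      have : 0 ≤ ∑ x ∈ t a ∩ s.biUnion t, f x := sum_nonneg fun x _ => hf x
      linarith

end Vale.Agent.P047.Disproof
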