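import Mathlib

/-!
Basic notions for the disproof of the square-root bound on the level-one Fourier mass.
-/

namespace Vale.Agent.P047.Disproof

open Finset

/-- The cube, `true` read as `+1`. -/
abbrev Cube (n : ℕ) := Fin n → Bool

/-- A bit as a sign. -/
def sgn (b : Bool) : ℝ := if b then 1 else -1

/-- Fourier coefficient. -/
noncomputable def coef {n : ℕ} (f : Cube n → ℝ) (S : Finset (Fin n)) : ℝ :=
  (∑ x, f x * ∏ i ∈ S, sgn (x i)) / 2 ^ n

/-- All coefficients above level `d` vanish. -/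
def DegLE {n : ℕ} (f : Cube n → ℝ) (d : ℕ) : Prop :=
  ∀ S : Finset (Fin n), d < S.card → coef f S = 0

/-- Values `±1`. -/
def IsBool {n : ℕ} (f : Cube n → ℝ) : Prop := ∀ x, f x = 1 ∨ f x = -1

/-- Level-one mass. -/
noncomputable def levelOne {n : ℕ} (f : Cube n → ℝ) : ℝ :=
  ∑ i : Fin n, (∑ x, f x * sgn (x i)) / 2 ^ n

end Vale.Agent.P047.Disproof
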