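import Mathlib

/-! An even strongly log-concave factor which equals `cos (π q)` for `|q| ≤ 1/3` and dominates
`|cos (π q)|` up to a little beyond `1/2`. -/

open MeasureTheory Set Real

noncomputable section

namespace Vale.Agent.P047.Disproof

/-- Truncation to the central third. -/
def clampThird (q : ℝ) : ℝ := max (-(1 / 3)) (min (1 / 3) q)

/-- The derivative of the exponent. -/
def kerSlope (q : ℝ) : ℝ := π * tan (π * clampThird q) + 2 * (q - clampThird q)

/-- The exponent. -/
def kerExp (q : ℝ) : ℝ := ∫ t in (0 : ℝ)..q, kerSlope t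

/-- The factor. -/
def kerFn (q : ℝ) : ℝ := exp (-kerExp q)

lemma clampThird_mem (q : ℝ) : clampThird q ∈ Icc (-(1 / 3) : ℝ) (1 / 3) :=
  ⟨le_max_left _ _, max_le (by norm_num) (min_le_left _ _)⟩

lemma clampThird_eq {q : ℝ} (h : |q| ≤ 1 / 3) : clampThird q = q := by
  rw [abs_le] at h
  rw [clampThird, min_eq_right h.2, max_eq_right h.1]

lemma clampThird_neg (q : ℝ) : clampThird (-q) = -clampThird q := by
  unfold clampThird
  rcases le_total q (1 / 3) with h | h <;> rcases le_total (-(1 / 3)) q with h' | h'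
  · rw [min_eq_right h, max_eq_right h', min_eq_right (by linarith : -q ≤ 1 / 3),
      max_eq_right (by linarith : -(1 / 3) ≤ -q)]
  · rw [min_eq_right h, max_eq_left h', min_eq_left (by linarith : (1 : ℝ) / 3 ≤ -q),
      max_eq_right (by norm_num : -(1 / 3) ≤ (1 : ℝ) / 3), neg_neg]
  · rw [min_eq_left h, max_eq_right (by norm_num : -(1 / 3) ≤ (1 : ℝ) / 3),
      min_eq_right (by linarith : -q ≤ 1 / 3), max_eq_left (by linarith : -q ≤ -(1 / 3))]
  · linarith

lemma cos_pi_mul_pos {q : ℝ} (h : |q| < 1 / 2) : 0 < cos (π * q) := by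
  rw [abs_lt] at h
  exact cos_pos_of_mem_Ioo ⟨by nlinarith [pi_pos], by nlinarith [pi_pos]⟩

lemma continuous_kerSlope : Continuous kerSlope := by
  have hc : Continuous clampThird := by unfold clampThird; fun_prop
  refine (continuous_const.mul (ContinuousOn.comp_continuous continuousOn_tan
    (continuous_const.mul hc) fun q => ?_)).add (continuous_const.mul (continuous_id.sub hc))
  refine (cos_pi_mul_pos ?_).ne'
  have := clampThird_mem q
  rw [abs_lt]
  constructor <;> linarith [this.1, this.2]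

lemma hasDerivAt_kerExp (q : ℝ) : HasDerivAt kerExp (kerSlope q) q :=
  intervalIntegral.integral_hasDerivAt_right (continuous_kerSlope.intervalIntegrable _ _)
    (continuous_kerSlope.stronglyMeasurableAtFilter _ _) continuous_kerSlope.continuousAt

lemma hasDerivAt_pi_tan {q : ℝ} (h : |q| < 1 / 2) :
    HasDerivAt (fun t => π * tan (π * t)) (π * (1 / cos (π * q) ^ 2 * π)) q := by
  have hl : HasDerivAt (fun t => π * t) π q := by simpa using (hasDerivAt_id q).const_mul π
  exact ((hasDerivAt_tan (cos_pi_mul_pos h).ne').comp q hl).const_mul π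

lemma monotoneOn_pi_tan_sub : MonotoneOn (fun t => π * tan (π * t) - 2 * t) (Ioo (-(1 / 2)) (1 / 2)) := by
  have hd : ∀ t ∈ Ioo (-(1 / 2) : ℝ) (1 / 2),
      HasDerivAt (fun t => π * tan (π * t) - 2 * t) (π * (1 / cos (π * t) ^ 2 * π) - 2) t :=
    fun t ht => (hasDerivAt_pi_tan (abs_lt.2 ht)).sub (by simpa using (hasDerivAt_id t).const_mul 2)
  refine monotoneOn_of_hasDerivWithinAt_nonneg (convex_Ioo _ _)
    (fun t ht => (hd t ht).continuousAt.continuousWithinAt)
    (fun t ht => (hd t (interior_subset ht)).hasDerivWithinAt) fun t ht => ?_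
  have hcpos := cos_pi_mul_pos (abs_lt.2 (interior_subset ht : t ∈ Ioo _ _))
  have h1 : cos (π * t) ^ 2 ≤ 1 := cos_sq_le_one _
  have h2 : 1 ≤ 1 / cos (π * t) ^ 2 := (one_le_div (by positivity)).2 h1
  nlinarith [pi_gt_three, mul_le_mul_of_nonneg_left h2 (mul_nonneg pi_pos.le pi_pos.le)]

lemma monotone_kerSlope_sub : Monotone fun q => kerSlope q - 2 * q := by
  have hc : Monotone clampThird := fun a b h => max_le_max le_rfl (min_le_min le_rfl h)
  intro a b h
  have hmem : ∀ q, clampThird q ∈ Ioo (-(1 / 2) : ℝ) (1 / 2) := fun q =>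
    ⟨by linarith [(clampThird_mem q).1], by linarith [(clampThird_mem q).2]⟩
  have := monotoneOn_pi_tan_sub (hmem a) (hmem b) (hc h)
  simp only [kerSlope] at this ⊢
  linarith

lemma kerExp_midpoint (p q : ℝ) :
    2 * kerExp ((p + q) / 2) + 2 * ((p - q) / 2) ^ 2 ≤ kerExp p + kerExp q := by
  have hd : ∀ t, HasDerivAt (fun t => kerExp t - t ^ 2) (kerSlope t - 2 * t) t := fun t => by
    simpa using (hasDerivAt_kerExp t).fun_sub (hasDerivAt_pow 2 t)
  have hconv : ConvexOn ℝ univ fun t => kerExp t - t ^ 2 := by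
    refine Monotone.convexOn_univ_of_deriv (fun t => (hd t).differentiableAt) ?_
    rw [show deriv (fun t => kerExp t - t ^ 2) = fun t => kerSlope t - 2 * t from
      funext fun t => (hd t).deriv]
    exact monotone_kerSlope_sub
  have h := hconv.2 (mem_univ p) (mem_univ q) (by norm_num : (0 : ℝ) ≤ 1 / 2)
    (by norm_num : (0 : ℝ) ≤ 1 / 2) (by norm_num)
  simp only [smul_eq_mul] at h
  rw [show 1 / 2 * p + 1 / 2 * q = (p + q) / 2 by ring] at h
  nlinarith

lemma kerExp_neg (q : ℝ) : kerExp (-q) = kerExp q := by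
  have h : ∀ t, kerSlope (-t) = -kerSlope t := fun t => by
    simp only [kerSlope, clampThird_neg, mul_neg, tan_neg]; ring
  have := intervalIntegral.integral_comp_neg (a := 0) (b := q) kerSlope
  simp only [h, intervalIntegral.integral_neg, neg_zero] at this
  rw [kerExp, kerExp, intervalIntegral.integral_symm (-q) 0, ← this, neg_neg]

lemma hasDerivAt_log_cos {q : ℝ} (h : |q| < 1 / 2) :
    HasDerivAt (fun t => log (cos (π * t))) (-(π * tan (π * q))) q := by
  have hl : HasDerivAt (fun t => π * t) π q := by simpa using (hasDerivAt_id q).const_mul π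
  exact (((hasDerivAt_cos _).comp q hl).log (cos_pi_mul_pos h).ne').congr_deriv
    (by rw [tan_eq_sin_div_cos]; simp only [Function.comp]; ring)

lemma kerExp_eq {q : ℝ} (h : |q| ≤ 1 / 3) : kerExp q = -log (cos (π * q)) := by
  have key : ∀ t ∈ uIcc 0 q, |t| ≤ 1 / 3 := fun t ht => by
    have := abs_sub_left_of_mem_uIcc ht
    simp only [sub_zero] at this
    linarith
  have hd : ∀ t ∈ uIcc 0 q, HasDerivAt (fun t => -log (cos (π * t))) (kerSlope t) t := fun t ht => by
    have e : kerSlope t = π * tan (π * t) := by rw [kerSlope, clampThird_eq (key t ht)]; ring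
    rw [e]
    simpa using (hasDerivAt_log_cos (lt_of_le_of_lt (key t ht) (by norm_num))).fun_neg
  rw [kerExp, intervalIntegral.integral_eq_sub_of_hasDerivAt hd
    (continuous_kerSlope.intervalIntegrable _ _)]
  simp

theorem kerFn_eq {q : ℝ} (h : |q| ≤ 1 / 3) : kerFn q = cos (π * q) := by
  rw [kerFn, kerExp_eq h, neg_neg, exp_log (cos_pi_mul_pos (by linarith))]

theorem continuous_kerFn : Continuous kerFn :=
  (continuous_iff_continuousAt.2 fun q => (hasDerivAt_kerExp q).continuousAt).neg.rexp

theorem kerFn_pos (q : ℝ) : 0 < kerFn q := exp_pos _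

theorem kerFn_neg (q : ℝ) : kerFn (-q) = kerFn q := by rw [kerFn, kerExp_neg, kerFn]

/-- Strong log-concavity with `c = 1`. -/
theorem kerFn_midpoint (p q : ℝ) :
    kerFn p * kerFn q * exp (2 * 1 * ((p - q) / 2) ^ 2) ≤ kerFn ((p + q) / 2) ^ 2 := by
  rw [kerFn, kerFn, kerFn, ← exp_add, ← exp_add, sq (exp _), ← exp_add, exp_le_exp]
  linarith [kerExp_midpoint p q]

lemma abs_cos_le_kerFn_aux {q : ℝ} (h0 : 0 ≤ q) (h : q ≤ 13 / 25) : |cos (π * q)| ≤ kerFn q := by
  rcases le_or_gt q (1 / 3) with h3 | h3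
  · have hq : |q| ≤ 1 / 3 := by rwa [abs_of_nonneg h0]
    rw [kerFn_eq hq, abs_of_pos (cos_pi_mul_pos (by linarith))]
  rcases lt_or_ge q (1 / 2) with h2 | h2
  · set F := fun t => kerExp t + log (cos (π * t)) with hF
    have habs : ∀ t ∈ Icc (1 / 3 : ℝ) q, |t| < 1 / 2 := fun t ht => by
      rw [abs_of_nonneg (by linarith [ht.1])]; linarith [ht.2]
    have hd : ∀ t ∈ Icc (1 / 3 : ℝ) q, HasDerivAt F (kerSlope t + -(π * tan (π * t))) t :=
      fun t ht => (hasDerivAt_kerExp t).fun_add (hasDerivAt_log_cos (habs t ht))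
    have hanti : AntitoneOn F (Icc (1 / 3) q) := by
      refine antitoneOn_of_hasDerivWithinAt_nonpos (convex_Icc _ _)
        (fun t ht => (hd t ht).continuousAt.continuousWithinAt)
        (fun t ht => (hd t (interior_subset ht)).hasDerivWithinAt) fun t ht => ?_
      have ht' : t ∈ Icc (1 / 3 : ℝ) q := interior_subset ht
      have hc : clampThird t = 1 / 3 := by
        rw [clampThird, min_eq_left ht'.1, max_eq_right (by norm_num)]
      have := monotoneOn_pi_tan_sub (a := 1 / 3) (b := t) ⟨by norm_num, by norm_num⟩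
        (abs_lt.1 (habs t ht')) ht'.1
      simp only [kerSlope, hc] at this ⊢
      linarith
    have h1 := hanti ⟨le_rfl, h3.le⟩ ⟨h3.le, le_rfl⟩ h3.le
    have h13 : F (1 / 3) = 0 := by
      simp only [hF]; rw [kerExp_eq (by norm_num)]; ring
    rw [h13] at h1
    simp only [hF] at h1
    have hcq : 0 < cos (π * q) := cos_pi_mul_pos (by rw [abs_of_nonneg h0]; exact h2)
    rw [abs_of_pos hcq, kerFn, ← exp_log hcq, exp_le_exp]
    linarith
  · have h1 : |cos (π * q)| ≤ 1 / 12 := by
      have e : cos (π * q) = -sin (π * (q - 1 / 2)) := by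
        rw [show π * q = π * (q - 1 / 2) + π / 2 by ring, cos_add_pi_div_two]
      rw [e, abs_neg]
      refine abs_sin_le_abs.trans ?_
      rw [abs_of_nonneg (mul_nonneg pi_pos.le (by linarith))]
      nlinarith [pi_lt_d2, pi_pos]
    refine h1.trans ?_
    have hslope : ∀ t ∈ Icc (1 / 3 : ℝ) q, kerSlope t ≤ 6 := by
      intro t ht
      have hh : kerSlope t - 2 * t ≤ kerSlope q - 2 * q := monotone_kerSlope_sub ht.2
      have hq : kerSlope q ≤ π * (7 / 4) + 2 * (q - 1 / 3) := by
        have hcq : clampThird q = 1 / 3 := by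
          rw [clampThird, min_eq_left h3.le, max_eq_right (by norm_num)]
        rw [kerSlope, hcq, show π * (1 / 3) = π / 3 by ring, tan_pi_div_three]
        have : √3 ≤ 7 / 4 := by rw [sqrt_le_iff]; norm_num
        nlinarith [pi_pos]
      nlinarith [pi_lt_d2, ht.2]
    have h13 : kerExp (1 / 3) ≤ 7 / 10 := by
      rw [kerExp_eq (by norm_num), show π * (1 / 3) = π / 3 by ring, cos_pi_div_three, one_div,
        log_inv, neg_neg]
      linarith [log_two_lt_d9]
    have hE : kerExp q ≤ 22 / 10 := by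
      have h5 := intervalIntegral.integral_mono_on (μ := volume) h3.le
        (continuous_kerSlope.intervalIntegrable (1 / 3) q)
        (continuous_const.intervalIntegrable (1 / 3) q) hslope
      rw [intervalIntegral.integral_const, smul_eq_mul] at h5
      have e := intervalIntegral.integral_add_adjacent_intervals
        (continuous_kerSlope.intervalIntegrable 0 (1 / 3))
        (continuous_kerSlope.intervalIntegrable (1 / 3) q) (μ := volume)
      simp only [kerExp] at h13 ⊢
      linarith
    rw [kerFn]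
    have h9 : exp (2.2 : ℝ) ≤ 12 := by
      have e1 := exp_one_lt_d9
      have : exp (2.2 : ℝ) ≤ exp 1 * exp 1 * exp (0.2 : ℝ) := by
        rw [← exp_add, ← exp_add, exp_le_exp]; norm_num
      have h02 : exp (0.2 : ℝ) ≤ 1.3 := (exp_bound_div_one_sub_of_interval (by norm_num)
        (by norm_num)).trans (by norm_num)
      nlinarith [exp_pos (1 : ℝ), exp_pos (0.2 : ℝ), mul_pos (exp_pos (1 : ℝ)) (exp_pos (1 : ℝ))]
    calc (1 / 12 : ℝ) ≤ 1 / exp (2.2 : ℝ) := one_div_le_one_div_of_le (exp_pos _) h9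
      _ = exp (-(2.2 : ℝ)) := by rw [exp_neg, one_div]
      _ ≤ exp (-kerExp q) := exp_le_exp.2 (by linarith)

/-- The factor dominates `|cos (π q)|` up to a little beyond one half. -/
theorem abs_cos_le_kerFn {q : ℝ} (h : |q| ≤ 13 / 25) : |cos (π * q)| ≤ kerFn q := by
  rcases le_total 0 q with h0 | h0
  · rw [abs_of_nonneg h0] at h
    exact abs_cos_le_kerFn_aux h0 h
  · rw [abs_of_nonpos h0] at h
    have := abs_cos_le_kerFn_aux (neg_nonneg.2 h0) h
    rwa [kerFn_neg, mul_neg, cos_neg] at this

end Vale.Agent.P047.Disproof
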