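import Vale.Agent.P047.Disproof.FourierSolve
import Vale.Agent.P047.Disproof.PrekopaKernel

/-!
Exact signs of low degree on the odd points of an integer function.
-/

namespace Vale.Agent.P047.Disproof

open Finset Filter

/-- The two-point factor around a half integer. -/
lemma two_point_eq (j : ℤ) (y : ℝ) :
    (1 / 2 : ℂ) * Complex.exp (2 * Real.pi * Complex.I * (((j : ℝ) * y : ℝ) : ℂ)) +
      (1 / 2 : ℂ) * Complex.exp (2 * Real.pi * Complex.I * ((((j + 1 : ℤ) : ℝ) * y : ℝ) : ℂ)) =
    Complex.exp (2 * Real.pi * Complex.I * ((((j : ℝ) + 1 / 2) * y : ℝ) : ℂ)) *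
      (Real.cos (Real.pi * y) : ℂ) := by
  rw [Complex.ofReal_cos, Complex.cos, ← mul_div_assoc, mul_add, ← Complex.exp_add,
    ← Complex.exp_add, add_div]
  rw [add_comm]
  congr 1
  all_goals
    rw [div_eq_mul_inv, one_mul, mul_comm]
    congr 2
    push_cast
    ring

theorem stage : ∀ᶠ n : ℕ in atTop, ∀ (C : Cover n) (F : Cube n → ℤ) (S : Finset (Cube n)) (θ : ℝ),
    (1 : ℝ) / n ≤ θ → Good C S θ → DegLE (fun x => (F x : ℝ)) (n - tdeg n - 1) →
    (∀ x ∈ S, Odd (F x)) →
    ∃ e : Cube n → ℤ, (∀ x, (Odd (F x) → e x = 1 ∨ e x = -1) ∧ (Even (F x) → e x = 0)) ∧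
      DegLE (fun x => (e x : ℝ)) (n - tdeg n - 1) := by
  classical
  filter_upwards [exists_low_degree_of_factors, eventually_gt_atTop 0]
    with n hsolve hn C F S θ hθ hG hF hodd
  -- twisted values and their halves
  set T : Cube n → ℤ := fun x => parZ x * F x with hT
  set K : Cube n → Finset ℤ := fun x =>
    if Odd (F x) then {T x / 2, T x / 2 + 1} else {T x / 2} with hK
  set c : Cube n → ℤ → ℂ := fun x _ => if Odd (F x) then (1 / 2 : ℂ) else 1 with hc
  set φ : Cube n → ℝ → ℂ := fun x y => ∑ k ∈ K x, c x k *
      Complex.exp (2 * Real.pi * Complex.I * (((k : ℝ) * y : ℝ) : ℂ)) with hφ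
  have hpar : ∀ x : Cube n, parZ x = 1 ∨ parZ x = -1 := fun x =>
    mul_self_eq_one_iff.1 (parZ_mul_self x)
  have hTodd : ∀ x, Odd (F x) ↔ T x % 2 = 1 := by
    intro x
    rw [Int.odd_iff, hT]
    rcases hpar x with h | h <;> simp only [h] <;> omega
  have hφodd : ∀ x, Odd (F x) → ∀ y, φ x y =
      Complex.exp (2 * Real.pi * Complex.I * (((T x : ℝ) / 2 * y : ℝ) : ℂ)) *
        (Real.cos (Real.pi * y) : ℂ) := by
    intro x hx y
    have h2 : (T x : ℝ) / 2 = ((T x / 2 : ℤ) : ℝ) + 1 / 2 := by
      have h' : T x = 2 * (T x / 2) + 1 := by have := (hTodd x).1 hx; omega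
      conv_lhs => rw [h']
      push_cast; ring
    simp only [hφ, hK, hc, if_pos hx]
    rw [sum_pair (by omega), h2, two_point_eq]
  have hφeven : ∀ x, ¬ Odd (F x) → ∀ y, φ x y =
      Complex.exp (2 * Real.pi * Complex.I * (((T x : ℝ) / 2 * y : ℝ) : ℂ)) := by
    intro x hx y
    have h2 : (T x : ℝ) / 2 = ((T x / 2 : ℤ) : ℝ) := by
      have h' : T x = 2 * (T x / 2) := by
        have : T x % 2 ≠ 1 := fun h => hx ((hTodd x).2 h)
        omega
      conv_lhs => rw [h']
      push_cast; ring
    simp only [hφ, hK, hc, if_neg hx, sum_singleton, one_mul, h2]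
  have hphase : ∀ t : ℝ, ‖Complex.exp (2 * Real.pi * Complex.I * (t : ℂ))‖ = 1 := fun t => by
    rw [Complex.norm_exp]; simp
  let Fac : Factors S :=
    { φ := φ
      g := fun x y => if Odd (F x) then kerFn y else 1
      v := fun x => (T x : ℝ) / 2
      φ_cont := fun x => by simp only [hφ]; fun_prop
      φ_per := fun x y j => by
        simp only [hφ]
        refine sum_congr rfl fun k _ => ?_
        congr 1
        rw [show (2 * Real.pi * Complex.I * (((k : ℝ) * (y + j) : ℝ) : ℂ)) =
            2 * Real.pi * Complex.I * (((k : ℝ) * y : ℝ) : ℂ) +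
              ((k * j : ℤ) : ℂ) * (2 * Real.pi * Complex.I) by push_cast; ring,
          Complex.exp_add, Complex.exp_int_mul_two_pi_mul_I, mul_one]
      g_cont := fun x => by
        split_ifs
        · exact continuous_kerFn
        · exact continuous_const
      g_pos := fun x y => by
        split_ifs
        · exact kerFn_pos y
        · exact one_pos
      g_even := fun x y => by rw [kerFn_neg]
      g_lc := fun x p q => by
        split_ifs
        · refine le_trans ?_ (kerFn_midpoint p q)
          exact le_mul_of_one_le_right (mul_nonneg (kerFn_pos p).le (kerFn_pos q).le)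
            (Real.one_le_exp (by positivity))
        · simp
      g_slc := fun x hx p q => by
        simp only [if_pos (hodd x hx)]
        simpa using kerFn_midpoint p q
      le_g := fun x y hy => by
        by_cases hx : Odd (F x)
        · rw [if_pos hx, hφodd x hx, norm_mul, hphase, one_mul, Complex.norm_real, Real.norm_eq_abs]
          exact (abs_cos_le_kerFn hy).trans
            (le_mul_of_one_le_left (kerFn_pos y).le (le_add_of_nonneg_right (by positivity)))
        · rw [if_neg hx, hφeven x hx, hphase, mul_one]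
          exact le_add_of_nonneg_right (by positivity)
      near := fun x y hy => by
        by_cases hx : Odd (F x)
        · rw [if_pos hx, hφodd x hx, kerFn_eq (hy.trans (by norm_num)), sub_self, norm_zero]
          have := kerFn_pos y
          rw [kerFn_eq (hy.trans (by norm_num))] at this
          positivity
        · rw [if_neg hx, hφeven x hx]
          simp
      v_orth := fun a => by
        have h := (degLE_iff_orth (t := tdeg n) (by have := tdeg_lt hn; omega) _).1 hF a
        have e : ∀ x, (T x : ℝ) / 2 * ev n (tdeg n) a x =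
            1 / 2 * ((F x : ℝ) * parity x * ev n (tdeg n) a x) := by
          intro x
          simp only [hT]
          rw [Int.cast_mul, parZ_cast]; ring
        simp only [e, ← mul_sum, h, mul_zero] }
  obtain ⟨G, hdeg, hmem⟩ := hsolve C S θ hθ hG Fac K c fun x y => rfl
  have hTx : ∀ x, parZ x * T x = F x := fun x => by
    simp only [hT]
    rw [← mul_assoc, parZ_mul_self, one_mul]
  refine ⟨fun x => 2 * G x - F x, fun x => ⟨fun hx => ?_, fun hx => ?_⟩, ?_⟩
  · have h := hmem x
    simp only [hK, if_pos hx, mem_insert, mem_singleton] at h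
    have h1 := (hTodd x).1 hx
    have h2 := hTx x
    rcases hpar x with hp | hp <;> rw [hp] at h h2 <;> dsimp only <;> omega
  · have hx' : ¬ Odd (F x) := Int.not_odd_iff_even.2 hx
    have h := hmem x
    simp only [hK, if_neg hx', mem_singleton] at h
    have h1 : T x % 2 ≠ 1 := fun h' => hx' ((hTodd x).2 h')
    have h2 := hTx x
    rcases hpar x with hp | hp <;> rw [hp] at h h2 <;> dsimp only <;> omega
  · have ht := tdeg_lt hn
    refine (degLE_iff_orth (t := tdeg n) (by omega) _).2 fun a => ?_
    have hA := (degLE_iff_orth (t := tdeg n) (by omega) _).1 hdeg a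
    have hB := (degLE_iff_orth (t := tdeg n) (by omega) _).1 hF a
    push_cast
    simp only [sub_mul, mul_assoc, sum_sub_distrib, ← mul_sum] at hA hB ⊢
    rw [hA, hB]; ring

end Vale.Agent.P047.Disproof
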