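import Vale.Agent.P047.Disproof.Majority
import Vale.Agent.P047.Disproof.Stage

/-!
From an integer function to a zero-one function, one exact halving at a time.
-/

namespace Vale.Agent.P047.Disproof

open Finset Filter

/-- The level-one weight of a point. -/
noncomputable def lev {n : ℕ} (x : Cube n) : ℝ := (∑ i, sgn (x i)) / 2 ^ n

lemma levelOne_eq_sum {n : ℕ} (f : Cube n → ℝ) : levelOne f = ∑ x, f x * lev x := by
  simp only [levelOne, lev, mul_div_assoc', mul_sum, sum_div]
  exact sum_comm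

lemma abs_lev_le {n : ℕ} (x : Cube n) : |lev x| ≤ n / 2 ^ n := by
  rw [lev, abs_div, abs_of_pos (by positivity : (0 : ℝ) < 2 ^ n)]
  refine div_le_div_of_nonneg_right ((abs_sum_le_sum_abs _ _).trans (le_of_eq ?_)) (by positivity)
  have : ∀ b, |sgn b| = 1 := fun b => by cases b <;> simp [sgn]
  simp [this]

lemma abs_levelOne_le {n : ℕ} (f : Cube n → ℝ) {B : ℝ} (h : ∀ x, |f x| ≤ B) :
    |levelOne f| ≤ n * B := by
  rw [levelOne_eq_sum]
  refine (abs_sum_le_sum_abs _ _).trans ((sum_le_sum fun x _ => ?_).trans_eq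
    (sum_const (B * (n / 2 ^ n)) : ∑ _x : Cube n, B * ((n : ℝ) / 2 ^ n) = _))
    |>.trans_eq ?_
  · rw [abs_mul]
    exact mul_le_mul (h x) (abs_lev_le x) (abs_nonneg _) ((abs_nonneg _).trans (h x))
  · rw [card_univ, Fintype.card_fun, Fintype.card_bool, Fintype.card_fin, nsmul_eq_mul]
    push_cast
    field_simp

lemma levelOne_const {n : ℕ} (c : ℝ) : levelOne (fun _ : Cube n => c) = 0 := by
  refine sum_eq_zero fun i _ => ?_
  have h := degLE_const (n := n) c 0 {i} (by simp)
  simpa [coef] using h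

lemma levelOne_add {n : ℕ} (f g : Cube n → ℝ) :
    levelOne (fun x => f x + g x) = levelOne f + levelOne g := by
  simp only [levelOne_eq_sum, add_mul, sum_add_distrib]

lemma levelOne_mul_left {n : ℕ} (c : ℝ) (f : Cube n → ℝ) :
    levelOne (fun x => c * f x) = c * levelOne f := by
  simp only [levelOne_eq_sum, mul_assoc, mul_sum]

/-- All stages: the odd set contains the good set `S (M - 1)` at each of them. -/
lemma descend {n D : ℕ} (S : ℕ → Finset (Cube n)) {L : ℕ}
    (hst : ∀ F : Cube n → ℤ, ∀ i < L, DegLE (fun x => (F x : ℝ)) D → (∀ x ∈ S i, Odd (F x)) →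
      ∃ e : Cube n → ℤ, (∀ x, (Odd (F x) → e x = 1 ∨ e x = -1) ∧ (Even (F x) → e x = 0)) ∧
        DegLE (fun x => (e x : ℝ)) D) :
    ∀ M ≤ L, ∀ F : Cube n → ℤ, DegLE (fun x => (F x : ℝ)) D →
      (∀ x, 0 ≤ F x ∧ F x ≤ 2 ^ M) → (∀ i < M, ∀ x ∈ S i, F x = 2 ^ (M - 1 - i)) →
      ∃ G : Cube n → ℤ, DegLE (fun x => (G x : ℝ)) D ∧ (∀ x, G x = 0 ∨ G x = 1) ∧
        levelOne (fun x => (F x : ℝ)) ≤ 2 ^ M * levelOne (fun x => (G x : ℝ)) := by
  intro M
  induction M with
  | zero =>
    intro _ F hF hb _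
    refine ⟨F, hF, fun x => ?_, by simp⟩
    have := hb x
    simp only [pow_zero] at this
    omega
  | succ M ih =>
    intro hM F hF hb hex
    obtain ⟨e, he, hed⟩ := hst F M (by omega) hF fun x hx => by
      rw [hex M (by omega) x hx]
      exact ⟨0, by simp⟩
    obtain ⟨s, hs, hsl⟩ : ∃ s : ℤ, (s = 1 ∨ s = -1) ∧
        0 ≤ (s : ℝ) * levelOne (fun x => (e x : ℝ)) := by
      rcases le_total 0 (levelOne fun x => (e x : ℝ)) with h | h
      · exact ⟨1, Or.inl rfl, by simpa⟩
      · exact ⟨-1, Or.inr rfl, by simpa⟩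
    have hev : ∀ x, ∃ k : ℤ, F x + s * e x = 2 * k ∧ 0 ≤ k ∧ k ≤ 2 ^ M := fun x => by
      have h1 := hb x
      rw [pow_succ] at h1
      rcases Int.even_or_odd (F x) with ⟨k, hk⟩ | ⟨k, hk⟩
      · exact ⟨k, by rw [(he x).2 ⟨k, hk⟩]; omega, by omega, by omega⟩
      · rcases (he x).1 ⟨k, hk⟩ with h | h <;> rcases hs with rfl | rfl <;> rw [h]
        · exact ⟨k + 1, by omega, by omega, by omega⟩
        · exact ⟨k, by omega, by omega, by omega⟩
        · exact ⟨k, by omega, by omega, by omega⟩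
        · exact ⟨k + 1, by omega, by omega, by omega⟩
    choose F' hF' hb' using hev
    have heq : ∀ x, (F' x : ℝ) = 1 / 2 * (F x : ℝ) + (s : ℝ) / 2 * (e x : ℝ) := fun x => by
      have := congrArg (fun z : ℤ => (z : ℝ)) (hF' x)
      push_cast at this
      linarith
    obtain ⟨G, hG, hG01, hle⟩ := ih (by omega) F'
      (by simp only [heq]; exact degLE_add (degLE_mul_left _ hF) (degLE_mul_left _ hed)) hb'
      fun i hi x hx => by
        have hFx := hex i (by omega) x hx
        rw [show M + 1 - 1 - i = M - 1 - i + 1 by omega, pow_succ] at hFx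
        have := hF' x
        rw [(he x).2 ⟨2 ^ (M - 1 - i), by omega⟩] at this
        omega
    refine ⟨G, hG, hG01, ?_⟩
    simp only [heq, levelOne_add, levelOne_mul_left] at hle
    rw [pow_succ]
    linarith

end Vale.Agent.P047.Disproof
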