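import Vale.Agent.P047.Disproof.Defs

/-!
Gaussian noise on the circle and the torus, and conditional negative entropy.
-/

namespace Vale.Agent.P047.Disproof

open MeasureTheory ProbabilityTheory InformationTheory
open scoped NNReal

/-- The circle. -/
abbrev Tor := UnitAddCircle

/-- Centred Gaussian of variance `v` on the circle. -/
noncomputable def noise1 (v : ℝ) : Measure Tor :=
  (gaussianReal 0 v.toNNReal).map (fun x : ℝ => (x : Tor))

/-- Gaussian pair of variance `v` and correlation `r` on the torus, from the half sum and the
difference. -/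
noncomputable def noise2 (v r : ℝ) : Measure (Tor × Tor) :=
  ((gaussianReal 0 (v * (1 + r) / 2).toNNReal).prod
      (gaussianReal 0 (2 * v * (1 - r)).toNNReal)).map
    (fun p : ℝ × ℝ => (((p.1 - p.2 / 2 : ℝ) : Tor), ((p.1 + p.2 / 2 : ℝ) : Tor)))

/-- Differential entropy of a real Gaussian of variance `v`. -/
noncomputable def gEnt (v : ℝ) : ℝ := Real.log (2 * Real.pi * Real.exp 1 * v) / 2

/-- Negative conditional entropy of the second coordinate given the first, relative to the uniform
law. -/
noncomputable def negEnt {Ω X : Type*} [MeasurableSpace Ω] [MeasureSpace X]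
    (μ : Measure (Ω × X)) : ℝ :=
  (klDiv μ (μ.fst.prod volume)).toReal

/-- Add independent noise to the second coordinate. -/
noncomputable def addNoise {Ω X : Type*} [MeasurableSpace Ω] [MeasurableSpace X] [Add X]
    (μ : Measure (Ω × X)) (ν : Measure X) : Measure (Ω × X) :=
  (μ.prod ν).map (fun p => (p.1.1, p.1.2 + p.2))

end Vale.Agent.P047.Disproof
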