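import Mathlib

/-!
Integrals over the unit box of products of trigonometric polynomials of integral linear forms count
integer solutions.
-/

namespace Vale.Agent.P047.Disproof

open Finset MeasureTheory Complex

theorem integral_unit_exp (m : ℤ) :
    ∫ y in Set.Ico (0 : ℝ) 1, exp (2 * Real.pi * I * (m : ℂ) * (y : ℂ)) =
      if m = 0 then 1 else 0 := by
  rw [integral_Ico_eq_integral_Ioc, ← intervalIntegral.integral_of_le zero_le_one]
  split_ifs with h
  · simp [h]
  · have hc : 2 * (Real.pi : ℂ) * I * (m : ℂ) ≠ 0 := by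
      simp [Real.pi_ne_zero, I_ne_zero, h]
    rw [integral_exp_mul_complex hc]
    have e : exp (2 * (Real.pi : ℂ) * I * (m : ℂ) * ((1 : ℝ) : ℂ)) = 1 := by
      rw [← exp_int_mul_two_pi_mul_I m]; congr 1; push_cast; ring
    rw [e]; simp

theorem integral_box_exp {ι : Type*} [Fintype ι] (m : ι → ℤ) :
    ∫ θ in Set.univ.pi (fun _ : ι => Set.Ico (0 : ℝ) 1),
      exp (2 * Real.pi * I * ∑ i, (m i : ℂ) * (θ i : ℂ)) = if ∀ i, m i = 0 then 1 else 0 := by
  classical
  have e : ∀ θ : ι → ℝ, exp (2 * Real.pi * I * ∑ i, (m i : ℂ) * (θ i : ℂ)) =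
      ∏ i, exp (2 * Real.pi * I * (m i : ℂ) * (θ i : ℂ)) := by
    intro θ
    rw [← exp_sum, mul_sum]
    congr 1
    exact sum_congr rfl fun i _ => by ring
  simp only [e]
  rw [volume_pi, Measure.restrict_pi_pi,
    integral_fintype_prod_eq_prod (μ := fun _ : ι => volume.restrict (Set.Ico (0:ℝ) 1))
      (fun i (y : ℝ) => exp (2 * Real.pi * I * (m i : ℂ) * (y : ℂ)))]
  simp only [integral_unit_exp]
  simp [Fintype.prod_ite_zero]

/-- The counting identity: the integral over the torus is the weighted number of integer vectors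
orthogonal to all the columns. -/
theorem integral_box_prod_eq_sum {ι X : Type*} [Fintype ι] [Fintype X] [DecidableEq X]
    (A : X → ι → ℤ) (K : X → Finset ℤ) (c : X → ℤ → ℂ) :
    ∫ θ in Set.univ.pi (fun _ : ι => Set.Ico (0 : ℝ) 1),
      ∏ x, ∑ k ∈ K x, c x k *
        exp (2 * Real.pi * I * (((k : ℝ) * ∑ i, θ i * (A x i : ℝ) : ℝ) : ℂ)) =
      ∑ k ∈ Fintype.piFinset K,
        if ∀ i, ∑ x, k x * A x i = 0 then ∏ x, c x (k x) else 0 := by
  classical
  set s := Set.univ.pi (fun _ : ι => Set.Ico (0 : ℝ) 1) with hs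
  have : IsFiniteMeasure (volume.restrict s) := by
    constructor
    rw [Measure.restrict_apply_univ, hs, volume_pi, Measure.pi_pi]
    simp
  have e : ∀ θ : ι → ℝ, ∏ x, ∑ k ∈ K x, c x k *
        exp (2 * Real.pi * I * (((k : ℝ) * ∑ i, θ i * (A x i : ℝ) : ℝ) : ℂ)) =
      ∑ k ∈ Fintype.piFinset K, (∏ x, c x (k x)) *
        exp (2 * Real.pi * I * ∑ i, ((∑ x, k x * A x i : ℤ) : ℂ) * (θ i : ℂ)) := by
    intro θ
    rw [prod_univ_sum]
    refine sum_congr rfl fun k _ => ?_
    rw [prod_mul_distrib, ← exp_sum]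
    congr 2
    push_cast
    simp only [mul_sum, sum_mul]
    rw [sum_comm]
    exact sum_congr rfl fun i _ => sum_congr rfl fun x _ => by ring
  simp only [e]
  rw [integral_finsetSum]
  · refine sum_congr rfl fun k _ => ?_
    rw [integral_const_mul, hs, integral_box_exp]
    split_ifs <;> simp
  · intro k _
    refine Integrable.const_mul ?_ _
    refine Integrable.mono' (integrable_const (1 : ℝ))
      (Continuous.aestronglyMeasurable (by fun_prop)) ?_
    refine Filter.Eventually.of_forall fun θ => ?_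
    rw [Complex.norm_exp]
    simp

/-- If the integral is nonzero there is an integer solution of nonzero weight. -/
theorem exists_solution_of_integral_ne_zero {ι X : Type*} [Fintype ι] [Fintype X] [DecidableEq X]
    (A : X → ι → ℤ) (K : X → Finset ℤ) (c : X → ℤ → ℂ)
    (h : ∫ θ in Set.univ.pi (fun _ : ι => Set.Ico (0 : ℝ) 1),
      ∏ x, ∑ k ∈ K x, c x k *
        exp (2 * Real.pi * I * (((k : ℝ) * ∑ i, θ i * (A x i : ℝ) : ℝ) : ℂ)) ≠ 0) :
    ∃ k : X → ℤ, (∀ x, k x ∈ K x) ∧ ∀ i, ∑ x, k x * A x i = 0 := by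
  classical
  rw [integral_box_prod_eq_sum] at h
  obtain ⟨k, hk, hne⟩ := exists_ne_zero_of_sum_ne_zero h
  refine ⟨k, Fintype.mem_piFinset.1 hk, ?_⟩
  by_contra hcon
  exact hne (if_neg hcon)

end Vale.Agent.P047.Disproof
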