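import Vale.Agent.P047.Disproof.MinorMajor
import Vale.Agent.P047.Disproof.TorusBasic
import Vale.Agent.P047.Disproof.FourierCount

/-!
Nonvanishing torus integrals give integer functions of low degree with prescribed ranges.
-/

namespace Vale.Agent.P047.Disproof

open Finset Filter MeasureTheory

/-- The parity sign as an integer. -/
def parZ {n : ℕ} (x : Cube n) : ℤ := ∏ i, if x i then 1 else -1

lemma parZ_cast {n : ℕ} (x : Cube n) : (parZ x : ℝ) = parity x := by
  simp only [parZ, parity, Int.cast_prod]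
  exact prod_congr rfl fun i _ => by cases x i <;> simp [sgn]

lemma parZ_mul_self {n : ℕ} (x : Cube n) : parZ x * parZ x = 1 := by
  have h : ((parZ x * parZ x : ℤ) : ℝ) = 1 := by push_cast; rw [parZ_cast, parity_mul_self]
  exact_mod_cast h

open Classical in
lemma ev_eq_sum (n t : ℕ) (θ : Idx n t → ℝ) (x : Cube n) :
    ev n t θ x = ∑ i, θ i * ((ev n t (Pi.single i (1 : ℤ)) x : ℤ) : ℝ) := by
  conv_lhs => rw [← Finset.univ_sum_single θ]
  rw [← evL_apply, map_sum, Finset.sum_apply]
  refine sum_congr rfl fun i _ => ?_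
  have h : (Pi.single i (θ i) : Idx n t → ℝ) =
      θ i • fun j => ((Pi.single i (1 : ℤ) : Idx n t → ℤ) j : ℝ) := by
    funext j
    by_cases hj : j = i
    · subst hj; simp
    · simp [hj]
  rw [h, map_smul, Pi.smul_apply, smul_eq_mul, evL_apply, ev_intCast]

lemma tdeg_lt {n : ℕ} (hn : 0 < n) : tdeg n < n := by unfold tdeg; omega

/-- A family of periodic factors with integral spectra in `K x` gives an integer function of low
degree whose twist lies in `K`. -/
theorem exists_low_degree_of_factors : ∀ᶠ n : ℕ in atTop, ∀ (C : Cover n) (S : Finset (Cube n))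
    (θ : ℝ), (1 : ℝ) / n ≤ θ → Good C S θ → ∀ (F : Factors S) (K : Cube n → Finset ℤ)
    (c : Cube n → ℤ → ℂ),
    (∀ x y, F.φ x y = ∑ k ∈ K x, c x k *
      Complex.exp (2 * Real.pi * Complex.I * (((k : ℝ) * y : ℝ) : ℂ))) →
    ∃ G : Cube n → ℤ, DegLE (fun x => (G x : ℝ)) (n - tdeg n - 1) ∧
      ∀ x, parZ x * G x ∈ K x := by
  classical
  filter_upwards [integral_ne_zero, eventually_gt_atTop 0] with n hint hn C S θ hθ hG F K c hφ
  have h := hint C S θ hθ hG F
  have hev : ∀ (a : Idx n (tdeg n) → ℝ) (x : Cube n), F.φ x (ev n (tdeg n) a x) =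
      ∑ k ∈ K x, c x k * Complex.exp (2 * Real.pi * Complex.I *
        (((k : ℝ) * ∑ i, a i * ((ev n (tdeg n) (Pi.single i (1 : ℤ)) x : ℤ) : ℝ) : ℝ) : ℂ)) := by
    intro a x
    rw [← ev_eq_sum]
    exact hφ x _
  simp only [hev] at h
  obtain ⟨k, hk, hsol⟩ := exists_solution_of_integral_ne_zero
    (fun x i => ev n (tdeg n) (Pi.single i (1 : ℤ)) x) K c h
  refine ⟨fun x => parZ x * k x, ?_, fun x => ?_⟩
  · refine (degLE_iff_orth (t := tdeg n) (by have := tdeg_lt hn; omega) _).2 fun a => ?_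
    have e : ∀ x, ((parZ x * k x : ℤ) : ℝ) * parity x * ev n (tdeg n) a x =
        ∑ i, a i * (((k x * ev n (tdeg n) (Pi.single i (1 : ℤ)) x : ℤ)) : ℝ) := by
      intro x
      rw [Int.cast_mul, parZ_cast, mul_right_comm (parity x), parity_mul_self, one_mul,
        ev_eq_sum, mul_sum]
      exact sum_congr rfl fun i _ => by push_cast; ring
    simp only [e]
    rw [sum_comm]
    refine sum_eq_zero fun i _ => ?_
    rw [← mul_sum, ← Int.cast_sum, hsol i, Int.cast_zero, mul_zero]
  · rw [← mul_assoc, parZ_mul_self, one_mul]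
    exact hk x

end Vale.Agent.P047.Disproof
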