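import Mathlib

/-!
Random halvings: a finite set is split into `2 ^ m` classes each of which sees a given projection
and a given finite family of centres as uniformly as the whole set.
-/

namespace Vale.Agent.P047.Sampling

open Finset Matrix

variable {X : Type*} [Fintype X] [DecidableEq X]

/-- The sign of a coin. -/
def sgn (b : Bool) : ℝ := if b then 1 else -1

lemma sgn_not (b : Bool) : sgn (!b) = -sgn b := by cases b <;> simp [sgn]

lemma sgn_sq (b : Bool) : sgn b ^ 2 = 1 := by cases b <;> simp [sgn]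

/-- Change one coin. -/
def flipAt (a : X) (ξ : X → Bool) : X → Bool := Function.update ξ a (!ξ a)

omit [Fintype X] in
lemma flipAt_flipAt (a : X) (ξ : X → Bool) : flipAt a (flipAt a ξ) = ξ := by
  funext x
  by_cases h : x = a
  · subst h; simp [flipAt]
  · simp [flipAt, h]

omit [Fintype X] in
lemma flipAt_self (a : X) (ξ : X → Bool) : flipAt a ξ a = !ξ a := by simp [flipAt]

omit [Fintype X] in
lemma flipAt_ne {a x : X} (h : x ≠ a) (ξ : X → Bool) : flipAt a ξ x = ξ x := by simp [flipAt, h]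

lemma sum_eq_half (a : X) (F : (X → Bool) → ℝ) :
    ∑ ξ, F ξ = (∑ ξ, (F ξ + F (flipAt a ξ))) / 2 := by
  have : ∑ ξ, F (flipAt a ξ) = ∑ ξ, F ξ :=
    Equiv.sum_comp (Function.Involutive.toPerm _ (flipAt_flipAt a)) F
  rw [sum_add_distrib, this]
  ring

/-! ### Scalar sums -/

lemma sum_exp_signed_le (e : X → ℝ) (s : Finset X) :
    ∑ ξ : X → Bool, Real.exp (∑ x ∈ s, sgn (ξ x) * e x) ≤
      2 ^ Fintype.card X * Real.exp ((∑ x ∈ s, e x ^ 2) / 2) := by
  induction s using Finset.induction with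
  | empty => simp
  | @insert a s ha ih =>
    rw [sum_eq_half a]
    have hflip : ∀ ξ : X → Bool, ∑ x ∈ s, sgn (flipAt a ξ x) * e x = ∑ x ∈ s, sgn (ξ x) * e x :=
      fun ξ => sum_congr rfl fun x hx => by rw [flipAt_ne (ne_of_mem_of_not_mem hx ha)]
    have hb : ∀ ξ : X → Bool,
        Real.exp (∑ x ∈ insert a s, sgn (ξ x) * e x) +
          Real.exp (∑ x ∈ insert a s, sgn (flipAt a ξ x) * e x) ≤
        2 * Real.exp (e a ^ 2 / 2) * Real.exp (∑ x ∈ s, sgn (ξ x) * e x) := by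
      intro ξ
      rw [sum_insert ha, sum_insert ha, hflip, flipAt_self, sgn_not, Real.exp_add, Real.exp_add,
        ← add_mul, neg_mul]
      refine mul_le_mul_of_nonneg_right ?_ (Real.exp_pos _).le
      have := Real.cosh_le_exp_half_sq (sgn (ξ a) * e a)
      rw [mul_pow, sgn_sq, one_mul, Real.cosh_eq] at this
      linarith
    calc (∑ ξ : X → Bool, (Real.exp (∑ x ∈ insert a s, sgn (ξ x) * e x) +
          Real.exp (∑ x ∈ insert a s, sgn (flipAt a ξ x) * e x))) / 2
        ≤ (∑ ξ : X → Bool, 2 * Real.exp (e a ^ 2 / 2) *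
            Real.exp (∑ x ∈ s, sgn (ξ x) * e x)) / 2 := by
          gcongr with ξ; exact hb ξ
      _ = Real.exp (e a ^ 2 / 2) * ∑ ξ : X → Bool, Real.exp (∑ x ∈ s, sgn (ξ x) * e x) := by
          rw [← mul_sum]; ring
      _ ≤ Real.exp (e a ^ 2 / 2) * (2 ^ Fintype.card X * Real.exp ((∑ x ∈ s, e x ^ 2) / 2)) :=
          mul_le_mul_of_nonneg_left ih (Real.exp_pos _).le
      _ = _ := by rw [sum_insert ha, add_div, Real.exp_add]; ring

/-! ### Signed sums of vectors -/

omit [DecidableEq X] in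
lemma dot_mulVec_symm {A : Matrix X X ℝ} (hA : A.transpose = A) (v w : X → ℝ) :
    v ⬝ᵥ (A *ᵥ w) = (A *ᵥ v) ⬝ᵥ w := by
  rw [dotProduct_mulVec, ← mulVec_transpose, hA]

omit [DecidableEq X] in
lemma dot_self_nonneg (v : X → ℝ) : 0 ≤ v ⬝ᵥ v :=
  sum_nonneg fun x _ => mul_self_nonneg (v x)

lemma sum_exp_quad_le (u : X → X → ℝ) (hu : ∀ y : X → ℝ, ∑ x, (u x ⬝ᵥ y) ^ 2 ≤ y ⬝ᵥ y)
    (s : Finset X) : ∀ Q : Matrix X X ℝ, Q.transpose = Q →
      (∀ z, 4 * ((Q *ᵥ z) ⬝ᵥ (Q *ᵥ z)) - 2 * ∑ x ∈ univ \ s, (u x ⬝ᵥ (Q *ᵥ z)) ^ 2 ≤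
        z ⬝ᵥ (Q *ᵥ z)) →
      ∑ ξ : X → Bool, Real.exp ((∑ x ∈ s, sgn (ξ x) • u x) ⬝ᵥ
          (Q *ᵥ ∑ x ∈ s, sgn (ξ x) • u x)) ≤
        2 ^ Fintype.card X * Real.exp ((∑ x ∈ s, u x ⬝ᵥ u x) / 2) := by
  induction s using Finset.induction with
  | empty => intro Q _ _; simp
  | @insert a s ha ih =>
    intro Q hQs hQ
    set v := Q *ᵥ u a with hv
    set Q' := Q + (2 : ℝ) • vecMulVec v v with hQ'
    have hQ's : Q'.transpose = Q' := by
      rw [hQ', transpose_add, transpose_smul, hQs, transpose_vecMulVec]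
    have hQ'v : ∀ z, Q' *ᵥ z = Q *ᵥ (z + (2 * (u a ⬝ᵥ (Q *ᵥ z))) • u a) := by
      intro z
      rw [hQ', add_mulVec, smul_mulVec, vecMulVec_mulVec, mulVec_add, mulVec_smul,
        dot_mulVec_symm hQs (u a) z, ← hv]
      congr 1
      ext i
      simp
      ring
    have hqu : u a ⬝ᵥ (Q *ᵥ u a) ≤ (u a ⬝ᵥ u a) / 2 := by
      have h := hQ (u a)
      have h1 : ∑ x ∈ univ \ insert a s, (u x ⬝ᵥ v) ^ 2 ≤ ∑ x, (u x ⬝ᵥ v) ^ 2 :=
        sum_le_sum_of_subset_of_nonneg (subset_univ _) fun _ _ _ => sq_nonneg _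
      have h2 := dot_self_nonneg (v - (1 / 2 : ℝ) • u a)
      simp only [sub_dotProduct, dotProduct_sub, smul_dotProduct, dotProduct_smul, smul_eq_mul] at h2
      rw [dotProduct_comm v (u a)] at h2
      rw [← hv] at h ⊢
      linarith [hu v]
    have hQ'h : ∀ z, 4 * ((Q' *ᵥ z) ⬝ᵥ (Q' *ᵥ z)) - 2 * ∑ x ∈ univ \ s, (u x ⬝ᵥ (Q' *ᵥ z)) ^ 2 ≤
        z ⬝ᵥ (Q' *ᵥ z) := by
      intro z
      set c := u a ⬝ᵥ (Q *ᵥ z) with hc
      set α := u a ⬝ᵥ (Q *ᵥ u a)
      set w := z + (2 * c) • u a with hw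
      rw [hQ'v, ← hw]
      have hsplit : univ \ s = insert a (univ \ insert a s) := by
        ext x; by_cases h : x = a <;> simp [h, ha]
      rw [hsplit, sum_insert (by simp)]
      have h := hQ w
      have ew : w ⬝ᵥ (Q *ᵥ w) = z ⬝ᵥ (Q *ᵥ z) + 4 * c ^ 2 + 4 * c ^ 2 * α := by
        rw [hw, mulVec_add, mulVec_smul]
        simp only [add_dotProduct, dotProduct_add, smul_dotProduct, dotProduct_smul, smul_eq_mul]
        rw [show z ⬝ᵥ (Q *ᵥ u a) = c by
          rw [dot_mulVec_symm hQs, dotProduct_comm]]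
        ring
      have eu : u a ⬝ᵥ (Q *ᵥ w) = c * (1 + 2 * α) := by
        rw [hw, mulVec_add, mulVec_smul, dotProduct_add, dotProduct_smul, smul_eq_mul]
        ring
      have ez : z ⬝ᵥ (Q *ᵥ w) = z ⬝ᵥ (Q *ᵥ z) + 2 * c ^ 2 := by
        rw [hw, mulVec_add, mulVec_smul, dotProduct_add, dotProduct_smul, smul_eq_mul,
          show z ⬝ᵥ (Q *ᵥ u a) = c by rw [dot_mulVec_symm hQs, dotProduct_comm]]
        ring
      have hα : 0 ≤ α := by
        have h0 := hQ (u a)
        have h1 : ∑ x ∈ univ \ insert a s, (u x ⬝ᵥ v) ^ 2 ≤ ∑ x, (u x ⬝ᵥ v) ^ 2 :=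
          sum_le_sum_of_subset_of_nonneg (subset_univ _) fun _ _ _ => sq_nonneg _
        rw [← hv] at h0
        linarith [hu v, dot_self_nonneg v]
      rw [eu, ez]
      nlinarith [mul_nonneg (sq_nonneg c) hα, mul_nonneg (sq_nonneg c) (sq_nonneg α)]
    rw [sum_eq_half a]
    have hflip : ∀ ξ : X → Bool, ∑ x ∈ s, sgn (flipAt a ξ x) • u x = ∑ x ∈ s, sgn (ξ x) • u x :=
      fun ξ => sum_congr rfl fun x hx => by rw [flipAt_ne (ne_of_mem_of_not_mem hx ha)]
    have hb : ∀ ξ : X → Bool,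
        Real.exp ((∑ x ∈ insert a s, sgn (ξ x) • u x) ⬝ᵥ
            (Q *ᵥ ∑ x ∈ insert a s, sgn (ξ x) • u x)) +
          Real.exp ((∑ x ∈ insert a s, sgn (flipAt a ξ x) • u x) ⬝ᵥ
            (Q *ᵥ ∑ x ∈ insert a s, sgn (flipAt a ξ x) • u x)) ≤
        2 * Real.exp ((u a ⬝ᵥ u a) / 2) *
          Real.exp ((∑ x ∈ s, sgn (ξ x) • u x) ⬝ᵥ (Q' *ᵥ ∑ x ∈ s, sgn (ξ x) • u x)) := by
      intro ξ
      rw [sum_insert ha, sum_insert ha, hflip, flipAt_self, sgn_not]
      set Z := ∑ x ∈ s, sgn (ξ x) • u x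
      set c := u a ⬝ᵥ (Q *ᵥ Z) with hc
      have e : ∀ σ : ℝ, σ ^ 2 = 1 → (σ • u a + Z) ⬝ᵥ (Q *ᵥ (σ • u a + Z)) =
          u a ⬝ᵥ (Q *ᵥ u a) + Z ⬝ᵥ (Q *ᵥ Z) + 2 * σ * c := by
        intro σ hσ
        rw [mulVec_add, mulVec_smul]
        simp only [add_dotProduct, dotProduct_add, smul_dotProduct, dotProduct_smul, smul_eq_mul]
        rw [show Z ⬝ᵥ (Q *ᵥ u a) = c by rw [dot_mulVec_symm hQs, dotProduct_comm]]
        linear_combination (u a ⬝ᵥ (Q *ᵥ u a)) * hσ
      have eQ' : Z ⬝ᵥ (Q' *ᵥ Z) = Z ⬝ᵥ (Q *ᵥ Z) + 2 * c ^ 2 := by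
        rw [hQ'v, mulVec_add, mulVec_smul, dotProduct_add, dotProduct_smul, smul_eq_mul,
          show Z ⬝ᵥ (Q *ᵥ u a) = c by rw [dot_mulVec_symm hQs, dotProduct_comm]]
        ring
      rw [e _ (sgn_sq _), e _ (by rw [neg_sq, sgn_sq]), eQ']
      simp only [Real.exp_add]
      have hcosh : Real.exp (2 * sgn (ξ a) * c) + Real.exp (2 * -sgn (ξ a) * c) ≤
          2 * Real.exp (2 * c ^ 2) := by
        have := Real.cosh_le_exp_half_sq (2 * sgn (ξ a) * c)
        rw [Real.cosh_eq, mul_pow, mul_pow, sgn_sq] at this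
        rw [show 2 * -sgn (ξ a) * c = -(2 * sgn (ξ a) * c) by ring]
        rw [show (2:ℝ) ^ 2 * 1 * c ^ 2 / 2 = 2 * c ^ 2 by ring] at this
        linarith
      have h1 := Real.exp_le_exp.2 hqu
      calc _ = Real.exp (u a ⬝ᵥ (Q *ᵥ u a)) * Real.exp (Z ⬝ᵥ (Q *ᵥ Z)) *
            (Real.exp (2 * sgn (ξ a) * c) + Real.exp (2 * -sgn (ξ a) * c)) := by ring
        _ ≤ Real.exp ((u a ⬝ᵥ u a) / 2) * Real.exp (Z ⬝ᵥ (Q *ᵥ Z)) * (2 * Real.exp (2 * c ^ 2)) := by
            gcongr
        _ = _ := by ring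
    refine (div_le_div_of_nonneg_right (sum_le_sum fun ξ _ => hb ξ) two_pos.le).trans ?_
    rw [← mul_sum, sum_insert ha, add_div, Real.exp_add]
    have := mul_le_mul_of_nonneg_left (ih Q' hQ's hQ'h) (Real.exp_pos ((u a ⬝ᵥ u a) / 2)).le
    linarith

/-! ### Powers of a symmetric matrix -/

lemma exists_spectral {A : Matrix X X ℝ} (hA : A.transpose = A) :
    ∃ (U : Matrix X X ℝ) (l : X → ℝ), U * U.transpose = 1 ∧
      ∀ q : ℕ, A ^ q = U * diagonal (fun i => l i ^ q) * U.transpose := by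
  have hh : A.IsHermitian := by rw [IsHermitian, conjTranspose_eq_transpose_of_trivial, hA]
  refine ⟨hh.eigenvectorUnitary, hh.eigenvalues, ?_, fun q => ?_⟩
  · have := Unitary.coe_mul_star_self hh.eigenvectorUnitary
    simpa [star_eq_conjTranspose, conjTranspose_eq_transpose_of_trivial] using this
  · conv_lhs => rw [hh.spectral_theorem, ← map_pow, diagonal_pow]
    rw [Unitary.conjStarAlgAut_apply]
    rw [star_eq_conjTranspose, conjTranspose_eq_transpose_of_trivial]
    congr 2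

lemma quad_pow {A U : Matrix X X ℝ} {l : X → ℝ}
    (h : ∀ q : ℕ, A ^ q = U * diagonal (fun i => l i ^ q) * U.transpose) (q : ℕ) (v : X → ℝ) :
    v ⬝ᵥ (A ^ q *ᵥ v) = ∑ i, l i ^ q * (U.transpose *ᵥ v) i ^ 2 := by
  rw [h q, ← mulVec_mulVec, ← mulVec_mulVec, dotProduct_mulVec, ← mulVec_transpose]
  simp only [dotProduct, mulVec_diagonal]
  exact sum_congr rfl fun i _ => by ring

lemma sum_sq_spectral {U : Matrix X X ℝ} (hU : U * U.transpose = 1) (v : X → ℝ) :
    ∑ i, (U.transpose *ᵥ v) i ^ 2 = v ⬝ᵥ v := by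
  have : (U.transpose *ᵥ v) ⬝ᵥ (U.transpose *ᵥ v) = v ⬝ᵥ v := by
    rw [dotProduct_mulVec, ← mulVec_transpose, transpose_transpose, mulVec_mulVec, hU, one_mulVec]
  rw [← this]
  exact sum_congr rfl fun i _ => sq _

lemma young_pow {m q : ℕ} (hm : 0 < m) (hq : q ≤ m) {x y : ℝ} (hx : 0 ≤ x) (hy : 0 ≤ y) :
    x ^ q * y ^ (m - q) ≤ ((q : ℝ) * x ^ m + ((m : ℝ) - q) * y ^ m) / m := by
  have hm' : (0:ℝ) < m := Nat.cast_pos.2 hm
  have hqm : (q : ℝ) ≤ m := Nat.cast_le.2 hq
  have e : ∀ (z : ℝ) (k : ℕ), 0 ≤ z → (z ^ m) ^ ((k : ℝ) / m) = z ^ k := fun z k hz => by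
    rw [← Real.rpow_natCast z m, ← Real.rpow_mul hz, mul_div_cancel₀ _ hm'.ne', Real.rpow_natCast]
  have h := Real.geom_mean_le_arith_mean2_weighted (w₁ := (q : ℝ) / m) (w₂ := ((m - q : ℕ) : ℝ) / m)
    (by positivity) (by positivity) (pow_nonneg hx m) (pow_nonneg hy m)
    (by rw [← add_div, Nat.cast_sub hq, add_sub_cancel, div_self hm'.ne'])
  rw [e x q hx, e y _ hy] at h
  refine h.trans_eq ?_
  rw [Nat.cast_sub hq]
  field_simp

lemma quad_pow_nonneg {A : Matrix X X ℝ} (hA : A.transpose = A) {m : ℕ} (hm : Even m) (v : X → ℝ) :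
    0 ≤ v ⬝ᵥ (A ^ m *ᵥ v) := by
  obtain ⟨U, l, -, h⟩ := exists_spectral hA
  rw [quad_pow h]
  exact sum_nonneg fun i _ => mul_nonneg (hm.pow_nonneg _) (sq_nonneg _)

lemma quad_mul_le {A B : Matrix X X ℝ} (hA : A.transpose = A) (hB : B.transpose = B) {m q : ℕ}
    (hm : 0 < m) (heven : Even m) (hq : q ≤ m) (v : X → ℝ) :
    (v ⬝ᵥ (A ^ q *ᵥ v)) * (v ⬝ᵥ (B ^ (m - q) *ᵥ v)) ≤
      (v ⬝ᵥ v) * (((q : ℝ) * (v ⬝ᵥ (A ^ m *ᵥ v)) + ((m : ℝ) - q) * (v ⬝ᵥ (B ^ m *ᵥ v))) / m) := by
  obtain ⟨U, l, hU, h⟩ := exists_spectral hA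
  obtain ⟨U', l', hU', h'⟩ := exists_spectral hB
  simp only [quad_pow h, quad_pow h']
  set a := fun i => (U.transpose *ᵥ v) i ^ 2
  set b := fun i => (U'.transpose *ᵥ v) i ^ 2
  have ha : ∀ i, 0 ≤ a i := fun i => sq_nonneg _
  have hb : ∀ i, 0 ≤ b i := fun i => sq_nonneg _
  have sa : ∑ i, a i = v ⬝ᵥ v := sum_sq_spectral hU v
  have sb : ∑ i, b i = v ⬝ᵥ v := sum_sq_spectral hU' v
  calc (∑ i, l i ^ q * a i) * ∑ j, l' j ^ (m - q) * b j
      ≤ ∑ i, ∑ j, (((q : ℝ) * l i ^ m + ((m : ℝ) - q) * l' j ^ m) / m) * (a i * b j) := by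
        rw [sum_mul_sum]
        refine sum_le_sum fun i _ => sum_le_sum fun j _ => ?_
        rw [show l i ^ q * a i * (l' j ^ (m - q) * b j) = l i ^ q * l' j ^ (m - q) * (a i * b j) by ring]
        refine mul_le_mul_of_nonneg_right ((le_abs_self _).trans ?_) (mul_nonneg (ha i) (hb j))
        rw [abs_mul, abs_pow, abs_pow]
        refine (young_pow hm hq (abs_nonneg _) (abs_nonneg _)).trans_eq ?_
        rw [heven.pow_abs, heven.pow_abs]
    _ = ((q : ℝ) * ((∑ i, l i ^ m * a i) * ∑ j, b j) +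
          ((m : ℝ) - q) * ((∑ i, a i) * ∑ j, l' j ^ m * b j)) / m := by
        simp only [sum_mul_sum]
        rw [mul_sum, mul_sum, ← sum_add_distrib, sum_div]
        refine sum_congr rfl fun i _ => ?_
        rw [mul_sum, mul_sum, ← sum_add_distrib, sum_div]
        exact sum_congr rfl fun j _ => by ring
    _ = _ := by rw [sa, sb]; ring

lemma pow_sub_pow (A B : Matrix X X ℝ) : ∀ k : ℕ,
    A ^ k - B ^ k = ∑ q ∈ range k, A ^ q * (A - B) * B ^ (k - 1 - q)
  | 0 => by simp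
  | k + 1 => by
    rw [sum_range_succ, show k + 1 - 1 - k = 0 by omega, pow_zero, mul_one]
    have h : ∀ q ∈ range k, A ^ q * (A - B) * B ^ (k + 1 - 1 - q) =
        A ^ q * (A - B) * B ^ (k - 1 - q) * B := fun q hq => by
      rw [mul_assoc (A ^ q * (A - B)), ← pow_succ]
      congr 2
      have := mem_range.1 hq
      omega
    rw [sum_congr rfl h, ← sum_mul, ← pow_sub_pow A B k, pow_succ, pow_succ]
    noncomm_ring

/-- The signed compressed diagonal operator. -/
def comp (P : Matrix X X ℝ) (c : X → ℝ) (ξ : X → Bool) : Matrix X X ℝ :=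
  P * diagonal (fun x => sgn (ξ x) * c x) * P

lemma comp_transpose {P : Matrix X X ℝ} (hP : P.transpose = P) (c : X → ℝ) (ξ : X → Bool) :
    (comp P c ξ).transpose = comp P c ξ := by
  simp [comp, transpose_mul, hP, Matrix.mul_assoc]

lemma pow_transpose {A : Matrix X X ℝ} (hA : A.transpose = A) (k : ℕ) :
    (A ^ k).transpose = A ^ k := by rw [transpose_pow, hA]

/-- The trace moments of a signed sum of rank one matrices. -/
lemma sum_trace_pow_le {P : Matrix X X ℝ} (hP : P.transpose = P) (hPP : P * P = P) {ρ : ℝ}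
    (hρ : 0 ≤ ρ) (hdiag : ∀ x, P x x ≤ ρ) {c : X → ℝ} (hc : ∀ x, c x ^ 2 ≤ 1) :
    ∀ p : ℕ, ∑ ξ : X → Bool, trace (comp P c ξ ^ (2 * p)) ≤
      2 ^ Fintype.card X * ((∏ j ∈ range p, (2 * (j : ℝ) + 1)) * ρ ^ p * Fintype.card X)
  | 0 => by simp
  | p + 1 => by
    set m := 2 * p with hm
    have heven : Even m := even_two_mul p
    set v : X → X → ℝ := fun x y => P y x with hv
    have hsymm : ∀ x y, P x y = P y x := fun x y => congrFun (congrFun hP y) x
    have hvv : ∀ x, v x ⬝ᵥ v x = P x x := fun x => by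
      have : (P * P) x x = P x x := by rw [hPP]
      rw [← this, mul_apply]
      exact sum_congr rfl fun y _ => by simp only [hv]; rw [hsymm y x]
    have hdiagP : ∀ (Y : Matrix X X ℝ) x, (P * Y * P) x x = v x ⬝ᵥ (Y *ᵥ v x) := fun Y x => by
      rw [Matrix.mul_assoc, mul_apply]
      refine sum_congr rfl fun y _ => ?_
      simp only [hv, mulVec, dotProduct, mul_apply]
      rw [hsymm x y]
    have htr : ∀ ξ, trace (comp P c ξ ^ (2 * (p + 1))) =
        ∑ x, sgn (ξ x) * c x * (v x ⬝ᵥ (comp P c ξ ^ (m + 1) *ᵥ v x)) := fun ξ => by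
      rw [show 2 * (p + 1) = (m + 1) + 1 by omega, pow_succ']
      conv_lhs => arg 1; arg 1; rw [comp]
      rw [Matrix.mul_assoc P, Matrix.mul_assoc P, trace_mul_comm, Matrix.mul_assoc, Matrix.mul_assoc,
        trace]
      refine sum_congr rfl fun x _ => ?_
      rw [diag_apply, diagonal_mul, ← Matrix.mul_assoc, hdiagP]
    have pair : ∀ x ξ,
        sgn (ξ x) * c x * (v x ⬝ᵥ (comp P c ξ ^ (m + 1) *ᵥ v x)) +
          sgn (flipAt x ξ x) * c x * (v x ⬝ᵥ (comp P c (flipAt x ξ) ^ (m + 1) *ᵥ v x)) ≤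
        ((m : ℝ) + 1) * ρ * (v x ⬝ᵥ (comp P c ξ ^ m *ᵥ v x) +
          v x ⬝ᵥ (comp P c (flipAt x ξ) ^ m *ᵥ v x)) := by
      intro x ξ
      set A := comp P c ξ with hA
      set B := comp P c (flipAt x ξ) with hB
      have hAs : A.transpose = A := comp_transpose hP c ξ
      have hBs : B.transpose = B := comp_transpose hP c _
      have hd : A - B = (2 * sgn (ξ x) * c x) • vecMulVec (v x) (v x) := by
        ext i j
        simp only [hA, hB, comp, Matrix.sub_apply, Matrix.smul_apply, vecMulVec_apply, smul_eq_mul,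
          hv]
        rw [mul_apply, mul_apply]
        simp only [mul_diagonal, ← sum_sub_distrib]
        rw [sum_eq_single x (fun y _ hy => by rw [flipAt_ne hy]; ring) (by simp), flipAt_self,
          sgn_not, hsymm x j]
        ring
      have e1 : v x ⬝ᵥ (A ^ (m + 1) *ᵥ v x) - v x ⬝ᵥ (B ^ (m + 1) *ᵥ v x) =
          (2 * sgn (ξ x) * c x) * ∑ q ∈ range (m + 1),
            (v x ⬝ᵥ (A ^ q *ᵥ v x)) * (v x ⬝ᵥ (B ^ (m - q) *ᵥ v x)) := by
        rw [← dotProduct_sub, ← sub_mulVec, pow_sub_pow, sum_mulVec, dotProduct_sum, mul_sum]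
        refine sum_congr rfl fun q _ => ?_
        rw [hd, show m + 1 - 1 - q = m - q by omega]
        simp only [Matrix.mul_smul, Matrix.smul_mul, smul_mulVec, dotProduct_smul, smul_eq_mul,
          ← mulVec_mulVec, vecMulVec_mulVec]
        congr 1
        simp [mulVec_smul, dotProduct_smul, op_smul_eq_smul]
        ring
      set S := ∑ q ∈ range (m + 1), (v x ⬝ᵥ (A ^ q *ᵥ v x)) * (v x ⬝ᵥ (B ^ (m - q) *ᵥ v x))
      set am := v x ⬝ᵥ (A ^ m *ᵥ v x)
      set bm := v x ⬝ᵥ (B ^ m *ᵥ v x)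
      have ham : 0 ≤ am := quad_pow_nonneg hAs heven _
      have hbm : 0 ≤ bm := quad_pow_nonneg hBs heven _
      have hP0 : 0 ≤ P x x := hvv x ▸ dot_self_nonneg _
      have hS : 2 * S ≤ ((m : ℝ) + 1) * P x x * (am + bm) := by
        rcases Nat.eq_zero_or_pos m with h0 | hpos
        · have : am = P x x ∧ bm = P x x := by
            simp only [am, bm, h0, pow_zero, one_mulVec, hvv, and_self]
          simp only [S, h0, zero_add, sum_range_one, Nat.sub_zero, pow_zero, one_mulVec, hvv,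
            this.1, this.2, Nat.cast_zero]
          nlinarith
        · have h1 : S ≤ ∑ q ∈ range (m + 1), P x x * (((q : ℝ) * am + ((m : ℝ) - q) * bm) / m) :=
            sum_le_sum fun q hq => by
              rw [← hvv x]
              exact quad_mul_le hAs hBs hpos heven (Nat.lt_succ_iff.1 (mem_range.1 hq)) _
          have hsum : ∑ q ∈ range (m + 1), (q : ℝ) = (m : ℝ) * ((m : ℝ) + 1) / 2 := by
            clear h1
            induction m with
            | zero => simp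
            | succ k _ =>
              have h := Finset.sum_range_id_mul_two (k + 1 + 1)
              have h' : ((∑ i ∈ range (k + 1 + 1), i : ℕ) : ℝ) * 2 = ((k + 1 + 1) * (k + 1) : ℕ) := by
                exact_mod_cast h
              push_cast at h' ⊢
              linarith
          have h2 : ∑ q ∈ range (m + 1), P x x * (((q : ℝ) * am + ((m : ℝ) - q) * bm) / m) =
              P x x * (((m : ℝ) * ((m : ℝ) + 1) / 2 * am +
                ((m : ℝ) * ((m : ℝ) + 1) / 2) * bm) / m) := by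
            rw [← mul_sum, ← sum_div, sum_add_distrib, ← sum_mul, ← sum_mul, sum_sub_distrib, hsum,
              sum_const, card_range, nsmul_eq_mul]
            push_cast
            ring
          have hm0 : (0 : ℝ) < m := Nat.cast_pos.2 hpos
          have h3 : P x x * (((m : ℝ) * ((m : ℝ) + 1) / 2 * am +
              ((m : ℝ) * ((m : ℝ) + 1) / 2) * bm) / m) = ((m : ℝ) + 1) * P x x * (am + bm) / 2 := by
            field_simp
          linarith
      have hpos : 0 ≤ ((m : ℝ) + 1) * (am + bm) := by positivity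
      rw [flipAt_self, sgn_not]
      calc sgn (ξ x) * c x * (v x ⬝ᵥ (A ^ (m + 1) *ᵥ v x)) +
            -sgn (ξ x) * c x * (v x ⬝ᵥ (B ^ (m + 1) *ᵥ v x))
          = sgn (ξ x) ^ 2 * c x ^ 2 * (2 * S) := by
            linear_combination (sgn (ξ x) * c x) * e1
        _ ≤ c x ^ 2 * (((m : ℝ) + 1) * P x x * (am + bm)) := by
            rw [sgn_sq, one_mul]; exact mul_le_mul_of_nonneg_left hS (sq_nonneg _)
        _ ≤ 1 * (((m : ℝ) + 1) * ρ * (am + bm)) := by
            refine mul_le_mul (hc x) ?_ (by nlinarith) zero_le_one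
            nlinarith [mul_le_mul_of_nonneg_right (hdiag x) hpos]
        _ = _ := one_mul _
    have hPle : ∀ ξ, ∑ x, v x ⬝ᵥ (comp P c ξ ^ m *ᵥ v x) ≤ trace (comp P c ξ ^ m) := by
      intro ξ
      set H := comp P c ξ ^ p with hH
      have hHs : H.transpose = H := pow_transpose (comp_transpose hP c ξ) p
      have e : comp P c ξ ^ m = H * H.transpose := by rw [hHs, hH, ← pow_add, hm, two_mul]
      calc ∑ x, v x ⬝ᵥ (comp P c ξ ^ m *ᵥ v x) = trace (P * (H * H.transpose) * P) := by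
            rw [trace, e]; exact sum_congr rfl fun x _ => by rw [diag_apply, hdiagP]
        _ = trace (H.transpose * P * H) := by
            rw [trace_mul_comm, ← Matrix.mul_assoc, hPP, ← Matrix.mul_assoc, trace_mul_comm,
              ← Matrix.mul_assoc]
        _ ≤ trace (H * H.transpose) := by
            rw [trace_mul_comm H]
            refine sum_le_sum fun j _ => ?_
            set h : X → ℝ := fun y => H y j
            have e1 : (H.transpose * P * H) j j = h ⬝ᵥ (P *ᵥ h) := by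
              rw [Matrix.mul_assoc, mul_apply]
              exact sum_congr rfl fun y _ => by simp [h, mulVec, dotProduct, mul_apply]
            have e2 : (H.transpose * H) j j = h ⬝ᵥ h := by
              rw [mul_apply]; rfl
            rw [diag_apply, diag_apply, e1, e2]
            have h0 := dot_self_nonneg (h - P *ᵥ h)
            have h1 : (P *ᵥ h) ⬝ᵥ (P *ᵥ h) = h ⬝ᵥ (P *ᵥ h) := by
              rw [← dot_mulVec_symm hP, mulVec_mulVec, hPP]
            simp only [sub_dotProduct, dotProduct_sub, dotProduct_comm (P *ᵥ h) h] at h0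
            linarith
        _ = _ := by rw [← e]
    calc ∑ ξ, trace (comp P c ξ ^ (2 * (p + 1)))
        = ∑ x, (∑ ξ, (sgn (ξ x) * c x * (v x ⬝ᵥ (comp P c ξ ^ (m + 1) *ᵥ v x)) +
            sgn (flipAt x ξ x) * c x * (v x ⬝ᵥ (comp P c (flipAt x ξ) ^ (m + 1) *ᵥ v x)))) / 2 := by
          simp only [htr]
          rw [sum_comm]
          exact sum_congr rfl fun x _ => sum_eq_half x _
      _ ≤ ∑ x, (∑ ξ, ((m : ℝ) + 1) * ρ * (v x ⬝ᵥ (comp P c ξ ^ m *ᵥ v x) +
            v x ⬝ᵥ (comp P c (flipAt x ξ) ^ m *ᵥ v x))) / 2 := by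
          gcongr with x _ ξ _; exact pair x ξ
      _ = ((m : ℝ) + 1) * ρ * ∑ ξ, ∑ x, v x ⬝ᵥ (comp P c ξ ^ m *ᵥ v x) := by
          rw [sum_comm (s := (univ : Finset (X → Bool))) (t := univ), mul_sum]
          refine sum_congr rfl fun x _ => ?_
          rw [← mul_sum, mul_div_assoc, ← sum_eq_half x (fun ξ => v x ⬝ᵥ (comp P c ξ ^ m *ᵥ v x))]
      _ ≤ ((m : ℝ) + 1) * ρ * ∑ ξ, trace (comp P c ξ ^ m) :=
          mul_le_mul_of_nonneg_left (sum_le_sum fun ξ _ => hPle ξ) (by positivity)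
      _ ≤ ((m : ℝ) + 1) * ρ *
          (2 ^ Fintype.card X * ((∏ j ∈ range p, (2 * (j : ℝ) + 1)) * ρ ^ p * Fintype.card X)) :=
          mul_le_mul_of_nonneg_left (sum_trace_pow_le hP hPP hρ hdiag hc p) (by positivity)
      _ = _ := by rw [prod_range_succ, hm]; push_cast; ring

/-- The top of a symmetric matrix is bounded by an even trace moment. -/
lemma abs_quad_le {A : Matrix X X ℝ} (hA : A.transpose = A) {p : ℕ} (hp : 0 < p) {ε : ℝ}
    (hε : 0 ≤ ε) (ht : trace (A ^ (2 * p)) ≤ ε ^ (2 * p)) (a : X → ℝ) :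
    |a ⬝ᵥ (A *ᵥ a)| ≤ ε * (a ⬝ᵥ a) := by
  obtain ⟨U, l, hU, h⟩ := exists_spectral hA
  have htr : trace (A ^ (2 * p)) = ∑ i, l i ^ (2 * p) := by
    rw [h, trace_mul_comm, ← Matrix.mul_assoc, mul_eq_one_comm.1 hU, Matrix.one_mul,
      trace_diagonal]
  have hl : ∀ i, |l i| ≤ ε := fun i => by
    refine (pow_le_pow_iff_left₀ (abs_nonneg _) hε (n := 2 * p) (by omega)).1 ?_
    rw [(even_two_mul p).pow_abs]
    exact ((single_le_sum (f := fun j => l j ^ (2 * p))
      (fun j _ => (even_two_mul p).pow_nonneg _) (mem_univ i)).trans_eq htr.symm).trans ht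
  have e := quad_pow h 1 a
  rw [pow_one] at e
  rw [e, ← sum_sq_spectral hU a, mul_sum]
  refine (abs_sum_le_sum_abs _ _).trans (sum_le_sum fun i _ => ?_)
  rw [pow_one, abs_mul, abs_sq]
  exact mul_le_mul_of_nonneg_right (hl i) (sq_nonneg _)

/-! ### One halving, and the iteration -/

variable {ι κ : Type*} [Fintype ι] [Fintype κ]

/-- The bound on the failure of one halving of one class. -/
noncomputable def failBound (X : Type*) [Fintype X] {ι : Type*} [Fintype ι] (w : ι → ℝ)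
    (ρ ε : ℝ) (p : ℕ) : ℝ :=
  (∏ j ∈ range p, (2 * (j : ℝ) + 1)) * ρ ^ p * Fintype.card X / ε ^ (2 * p) +
    ∑ i, (2 * Real.exp (-(ε ^ 2 * w i / 2)) + Real.exp (-(ε ^ 2 * w i / 4) + ρ * w i / 2))

/-- A sign vector halves the classes `c` well. -/
def GoodHalving (P : Matrix X X ℝ) (c : κ → X → ℝ) (d : ι → X → ℝ) (w : ι → ℝ) (ε : ℝ)
    (ξ : X → Bool) : Prop :=
  (∀ l (a : X → ℝ), P *ᵥ a = a → |∑ x, sgn (ξ x) * c l x * a x ^ 2| ≤ ε * ∑ x, a x ^ 2) ∧
    ∀ l i, |∑ x, sgn (ξ x) * c l x * d i x ^ 2| ≤ ε * w i ∧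
      ∑ y, (P *ᵥ fun x => sgn (ξ x) * c l x * d i x) y ^ 2 ≤ ε ^ 2 * w i

open Classical in
/-- Few sign vectors halve some class badly. -/
theorem card_bad_halving_le {P : Matrix X X ℝ} (hP : P.transpose = P) (hPP : P * P = P) {ρ : ℝ}
    (hρ : 0 ≤ ρ) (hdiag : ∀ x, P x x ≤ ρ) (c : κ → X → ℝ) (hc : ∀ l x, c l x ^ 2 ≤ 1)
    {d : ι → X → ℝ} {w : ι → ℝ} (hd : ∀ i x, |d i x| ≤ 1) (hw : ∀ i, ∑ x, d i x ^ 2 ≤ w i)
    {ε : ℝ} (hε : 0 < ε) {p : ℕ} (hp : 0 < p) :
    ((univ.filter fun ξ : X → Bool => ¬ GoodHalving P c d w ε ξ).card : ℝ) ≤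
      2 ^ Fintype.card X * ((Fintype.card κ : ℝ) * failBound X w ρ ε p) := by
  have hsymm : ∀ x y, P x y = P y x := fun x y => congrFun (congrFun hP y) x
  set u : κ → ι → X → X → ℝ := fun l i x => (c l x * d i x) • fun y => P y x
  have hcd : ∀ l i x, (c l x * d i x) ^ 2 ≤ d i x ^ 2 := fun l i x => by
    rw [mul_pow]; exact mul_le_of_le_one_left (sq_nonneg _) (hc l x)
  have hcd1 : ∀ l i x, (c l x * d i x) ^ 2 ≤ 1 := fun l i x =>
    (hcd l i x).trans ((sq_le_one_iff_abs_le_one _).2 (hd i x))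
  have hu : ∀ l i (y : X → ℝ), ∑ x, (u l i x ⬝ᵥ y) ^ 2 ≤ y ⬝ᵥ y := fun l i y => by
    have e : ∀ x, u l i x ⬝ᵥ y = c l x * d i x * (P *ᵥ y) x := fun x => by
      simp only [u, smul_dotProduct, smul_eq_mul]
      congr 1
      exact sum_congr rfl fun z _ => congrArg (· * y z) (hsymm z x)
    calc ∑ x, (u l i x ⬝ᵥ y) ^ 2 ≤ ∑ x, (P *ᵥ y) x ^ 2 := sum_le_sum fun x _ => by
          rw [e, mul_pow]; exact mul_le_of_le_one_left (sq_nonneg _) (hcd1 l i x)
      _ = (P *ᵥ y) ⬝ᵥ (P *ᵥ y) := sum_congr rfl fun x _ => sq _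
      _ ≤ y ⬝ᵥ y := by
          have h0 := dot_self_nonneg (y - P *ᵥ y)
          have h1 : (P *ᵥ y) ⬝ᵥ (P *ᵥ y) = y ⬝ᵥ (P *ᵥ y) := by
            rw [← dot_mulVec_symm hP, mulVec_mulVec, hPP]
          simp only [sub_dotProduct, dotProduct_sub, dotProduct_comm (P *ᵥ y) y] at h0
          linarith
  set Z : κ → ι → (X → Bool) → X → ℝ := fun l i ξ => ∑ x, sgn (ξ x) • u l i x
  have hZ : ∀ l i ξ, Z l i ξ = P *ᵥ fun x => sgn (ξ x) * c l x * d i x := fun l i ξ => by
    funext y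
    simp only [Z, u, Finset.sum_apply, Pi.smul_apply, smul_eq_mul, mulVec, dotProduct]
    exact sum_congr rfl fun x _ => by ring
  set T1 : κ → (X → Bool) → ℝ := fun l ξ => trace (comp P (c l) ξ ^ (2 * p)) / ε ^ (2 * p)
  set T2 : κ → ι → (X → Bool) → ℝ := fun l i ξ =>
    Real.exp ((∑ x, sgn (ξ x) * (ε * c l x * d i x ^ 2)) - ε ^ 2 * w i) +
      Real.exp ((∑ x, sgn (ξ x) * (-(ε * c l x * d i x ^ 2))) - ε ^ 2 * w i) +
      Real.exp ((Z l i ξ ⬝ᵥ (((1 / 4 : ℝ) • (1 : Matrix X X ℝ)) *ᵥ Z l i ξ)) - ε ^ 2 * w i / 4)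
  set score : (X → Bool) → ℝ := fun ξ => ∑ l, (T1 l ξ + ∑ i, T2 l i ξ)
  have hT1 : ∀ l ξ, 0 ≤ T1 l ξ := fun l ξ => by
    refine div_nonneg ?_ (by positivity)
    rw [trace]
    refine sum_nonneg fun x _ => ?_
    have h := quad_pow_nonneg (comp_transpose hP (c l) ξ) (even_two_mul p) (Pi.single x 1)
    simpa [mulVec_single_one, single_dotProduct] using h
  have hT2 : ∀ l i ξ, 0 ≤ T2 l i ξ := fun l i ξ => by positivity
  set N : ℝ := 2 ^ Fintype.card X with hN
  have hN0 : 0 < N := by positivity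
  have hE : ∑ ξ, score ξ ≤ N * ((Fintype.card κ : ℝ) * failBound X w ρ ε p) := by
    simp only [score]
    rw [sum_comm]
    calc ∑ l, ∑ ξ, (T1 l ξ + ∑ i, T2 l i ξ) ≤ ∑ _l : κ, N * failBound X w ρ ε p := by
          refine sum_le_sum fun l _ => ?_
          rw [sum_add_distrib, failBound, mul_add]
          refine add_le_add ?_ ?_
          · simp only [T1, ← sum_div]
            rw [mul_div_assoc']
            exact div_le_div_of_nonneg_right (sum_trace_pow_le hP hPP hρ hdiag (hc l) p)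
              (by positivity)
          · rw [sum_comm, mul_sum]
            refine sum_le_sum fun i _ => ?_
            simp only [T2, sum_add_distrib, Real.exp_sub, ← sum_div]
            have hs : ∀ σ : ℝ, σ ^ 2 = 1 →
                ∑ x, (σ * (ε * c l x * d i x ^ 2)) ^ 2 ≤ ε ^ 2 * w i := fun σ hσ => by
              refine le_trans ?_ (mul_le_mul_of_nonneg_left (hw i) (sq_nonneg ε))
              rw [mul_sum]
              refine sum_le_sum fun x _ => ?_
              rw [mul_pow, hσ, one_mul, mul_assoc, mul_pow]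
              refine mul_le_mul_of_nonneg_left ?_ (sq_nonneg ε)
              have h1 := (sq_le_one_iff_abs_le_one _).2 (hd i x)
              calc (c l x * d i x ^ 2) ^ 2 = c l x ^ 2 * d i x ^ 2 * d i x ^ 2 := by ring
                _ ≤ 1 * 1 * d i x ^ 2 := by gcongr; exact hc l x
                _ = _ := by ring
            have hu2 : ∑ x, u l i x ⬝ᵥ u l i x ≤ ρ * w i := by
              refine le_trans ?_ (mul_le_mul_of_nonneg_left (hw i) hρ)
              rw [mul_sum]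
              refine sum_le_sum fun x _ => ?_
              have e : (fun y => P y x) ⬝ᵥ (fun y => P y x) = P x x := by
                have : (P * P) x x = P x x := by rw [hPP]
                rw [← this, mul_apply]
                exact sum_congr rfl fun y _ => congrArg (· * P y x) (hsymm y x)
              simp only [u, smul_dotProduct, dotProduct_smul, smul_eq_mul, e]
              rw [← mul_assoc, ← sq, mul_comm ρ]
              exact (mul_le_mul_of_nonneg_left (hdiag x) (sq_nonneg _)).trans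
                (mul_le_mul_of_nonneg_right (hcd l i x) hρ)
            have q1 := sum_exp_signed_le (fun x => ε * c l x * d i x ^ 2) univ
            have q2 := sum_exp_signed_le (fun x => -(ε * c l x * d i x ^ 2)) univ
            have q3 := sum_exp_quad_le (u l i) (hu l i) univ ((1 / 4 : ℝ) • 1)
              (by rw [transpose_smul, transpose_one]) (fun z => by
                simp [smul_mulVec, dotProduct_smul, smul_dotProduct])
            simp only [mul_neg] at q2 ⊢
            have b1 : Real.exp ((∑ x, (ε * c l x * d i x ^ 2) ^ 2) / 2) / Real.exp (ε ^ 2 * w i) ≤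
                Real.exp (-(ε ^ 2 * w i / 2)) := by
              rw [← Real.exp_sub]
              refine Real.exp_le_exp.2 ?_
              have := hs 1 (one_pow 2)
              simp only [one_mul] at this
              linarith
            have b2 : Real.exp ((∑ x, u l i x ⬝ᵥ u l i x) / 2) / Real.exp (ε ^ 2 * w i / 4) ≤
                Real.exp (-(ε ^ 2 * w i / 4) + ρ * w i / 2) := by
              rw [← Real.exp_sub]
              exact Real.exp_le_exp.2 (by linarith)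
            simp only [neg_sq] at q2
            rw [mul_add, two_mul, mul_add]
            refine add_le_add (add_le_add ?_ ?_) ?_
            · refine (div_le_div_of_nonneg_right q1 (Real.exp_pos _).le).trans ?_
              rw [mul_div_assoc]; exact mul_le_mul_of_nonneg_left b1 hN0.le
            · refine (div_le_div_of_nonneg_right q2 (Real.exp_pos _).le).trans ?_
              rw [mul_div_assoc]; exact mul_le_mul_of_nonneg_left b1 hN0.le
            · refine (div_le_div_of_nonneg_right q3 (Real.exp_pos _).le).trans ?_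
              rw [mul_div_assoc]; exact mul_le_mul_of_nonneg_left b2 hN0.le
      _ = _ := by rw [sum_const, card_univ, nsmul_eq_mul]; ring
  have hscore : ∀ ξ, 0 ≤ score ξ := fun ξ =>
    sum_nonneg fun l _ => add_nonneg (hT1 l ξ) (sum_nonneg fun i _ => hT2 l i ξ)
  refine le_trans ?_ hE
  have good : ∀ ξ, score ξ < 1 → GoodHalving P c d w ε ξ := by
    intro ξ hξ
    have hl : ∀ l, T1 l ξ + ∑ i, T2 l i ξ < 1 := fun l =>
      lt_of_le_of_lt (single_le_sum (f := fun l => T1 l ξ + ∑ i, T2 l i ξ)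
        (fun l _ => add_nonneg (hT1 l ξ) (sum_nonneg fun i _ => hT2 l i ξ)) (mem_univ l)) hξ
    refine ⟨fun l a ha => ?_, fun l i => ?_⟩
    · have h1 : T1 l ξ ≤ 1 := by
        linarith [hl l, sum_nonneg (fun i (_ : i ∈ univ) => hT2 l i ξ)]
      have h2 := abs_quad_le (comp_transpose hP (c l) ξ) hp hε.le
        ((div_le_one (by positivity)).1 h1) a
      have e1 : a ⬝ᵥ (comp P (c l) ξ *ᵥ a) = ∑ x, sgn (ξ x) * c l x * a x ^ 2 := by
        rw [comp, ← mulVec_mulVec, ← mulVec_mulVec, ha, dot_mulVec_symm hP, ha]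
        simp only [dotProduct, mulVec_diagonal]
        exact sum_congr rfl fun x _ => by ring
      rw [e1] at h2
      exact h2.trans_eq (congrArg _ (sum_congr rfl fun x _ => (sq _).symm))
    · have h1 : T2 l i ξ < 1 := lt_of_le_of_lt
        (le_add_of_nonneg_of_le (hT1 l ξ) (single_le_sum (fun j _ => hT2 l j ξ) (mem_univ i))) (hl l)
      have p1 := Real.exp_pos ((∑ x, sgn (ξ x) * (ε * c l x * d i x ^ 2)) - ε ^ 2 * w i)
      have p2 := Real.exp_pos ((∑ x, sgn (ξ x) * (-(ε * c l x * d i x ^ 2))) - ε ^ 2 * w i)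
      have p3 := Real.exp_pos
        ((Z l i ξ ⬝ᵥ (((1 / 4 : ℝ) • (1 : Matrix X X ℝ)) *ᵥ Z l i ξ)) - ε ^ 2 * w i / 4)
      simp only [T2] at h1
      have s1 := Real.exp_lt_one_iff.1 (lt_of_le_of_lt (by linarith) h1 :
        Real.exp ((∑ x, sgn (ξ x) * (ε * c l x * d i x ^ 2)) - ε ^ 2 * w i) < 1)
      have s2 := Real.exp_lt_one_iff.1 (lt_of_le_of_lt (by linarith) h1 :
        Real.exp ((∑ x, sgn (ξ x) * (-(ε * c l x * d i x ^ 2))) - ε ^ 2 * w i) < 1)
      have s3 := Real.exp_lt_one_iff.1 (lt_of_le_of_lt (by linarith) h1 :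
        Real.exp ((Z l i ξ ⬝ᵥ (((1 / 4 : ℝ) • (1 : Matrix X X ℝ)) *ᵥ Z l i ξ)) - ε ^ 2 * w i / 4) < 1)
      have e1 : ∑ x, sgn (ξ x) * (ε * c l x * d i x ^ 2) =
          ε * ∑ x, sgn (ξ x) * c l x * d i x ^ 2 := by
        rw [mul_sum]; exact sum_congr rfl fun x _ => by ring
      simp only [mul_neg, sum_neg_distrib, e1] at s1 s2
      refine ⟨abs_le.2 ⟨?_, ?_⟩, ?_⟩
      · nlinarith
      · nlinarith
      · rw [smul_mulVec, one_mulVec, dotProduct_smul, smul_eq_mul, hZ] at s3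
        simp only [dotProduct, ← sq] at s3
        linarith
  calc ((univ.filter fun ξ : X → Bool => ¬ GoodHalving P c d w ε ξ).card : ℝ)
      = ∑ _ξ ∈ univ.filter (fun ξ : X → Bool => ¬ GoodHalving P c d w ε ξ), (1 : ℝ) := by simp
    _ ≤ ∑ ξ ∈ univ.filter (fun ξ : X → Bool => ¬ GoodHalving P c d w ε ξ), score ξ :=
        sum_le_sum fun ξ hξ => not_lt.1 fun h => (mem_filter.1 hξ).2 (good ξ h)
    _ ≤ ∑ ξ, score ξ :=
        sum_le_sum_of_subset_of_nonneg (subset_univ _) fun ξ _ _ => hscore ξ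

omit [DecidableEq X] in
lemma dot_add_le {A B : X → ℝ} {α β : ℝ} (hA : A ⬝ᵥ A ≤ α ^ 2) (hB : B ⬝ᵥ B ≤ β ^ 2)
    (hα : 0 ≤ α) (hβ : 0 ≤ β) : (A + B) ⬝ᵥ (A + B) ≤ (α + β) ^ 2 := by
  rcases eq_or_lt_of_le (mul_nonneg hα hβ) with h | h
  · rcases mul_eq_zero.1 h.symm with h0 | h0
    · have hA0 : A = 0 := dotProduct_self_eq_zero.1 (le_antisymm (by simpa [h0] using hA) (dot_self_nonneg A))
      simpa [hA0, h0] using hB
    · have hB0 : B = 0 := dotProduct_self_eq_zero.1 (le_antisymm (by simpa [h0] using hB) (dot_self_nonneg B))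
      simpa [hB0, h0] using hA
  · have h0 := dot_self_nonneg (β • A - α • B)
    simp only [sub_dotProduct, dotProduct_sub, smul_dotProduct, dotProduct_smul, smul_eq_mul,
      dotProduct_comm B A] at h0
    have h1 : 2 * (α * β) * (A ⬝ᵥ B) ≤ 2 * (α * β) * (α * β) := by
      nlinarith [mul_le_mul_of_nonneg_left hA (sq_nonneg β), mul_le_mul_of_nonneg_left hB (sq_nonneg α)]
    have h2 := le_of_mul_le_mul_left h1 (by linarith)
    simp only [add_dotProduct, dotProduct_add, dotProduct_comm B A]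
    nlinarith

/-- The indicator of a class. -/
def ind {L : Type*} [DecidableEq L] (lab : X → L) (l : L) (x : X) : ℝ := if lab x = l then 1 else 0

/-- A labelling splits into classes each of density `2 ^ (-k)` up to `k ε`. -/
def GoodLabels (P : Matrix X X ℝ) (d : ι → X → ℝ) (w : ι → ℝ) (ε : ℝ) (k : ℕ)
    (lab : X → Fin k → Bool) : Prop :=
  ∀ l,
    (∀ a : X → ℝ, P *ᵥ a = a →
      |(∑ x, ind lab l x * a x ^ 2) - (1 / 2 : ℝ) ^ k * ∑ x, a x ^ 2| ≤ k * ε * ∑ x, a x ^ 2) ∧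
    ∀ i, |(∑ x, ind lab l x * d i x ^ 2) - (1 / 2 : ℝ) ^ k * ∑ x, d i x ^ 2| ≤ k * ε * w i ∧
      ∑ y, (P *ᵥ fun x => (ind lab l x - (1 / 2 : ℝ) ^ k) * d i x) y ^ 2 ≤
        ((k : ℝ) * ε) ^ 2 * w i

omit [DecidableEq X] [Fintype ι] in
lemma goodLabels_snoc {P : Matrix X X ℝ} {d : ι → X → ℝ} {w : ι → ℝ}
    (hw : ∀ i, ∑ x, d i x ^ 2 ≤ w i) {ε : ℝ} (hε : 0 < ε) {k : ℕ} {lab : X → Fin k → Bool}
    (hlab : GoodLabels P d w ε k lab) {ξ : X → Bool}
    (hξ : GoodHalving P (fun l => ind lab l) d w ε ξ) :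
    GoodLabels P d w ε (k + 1) (fun x => Fin.snoc (lab x) (ξ x)) := by
  intro l'
  obtain ⟨l, b, rfl⟩ : ∃ l b, l' = Fin.snoc l b :=
    ⟨Fin.init l', l' (Fin.last k), (Fin.snoc_init_self l').symm⟩
  have hind : ∀ x, ind (fun x => (Fin.snoc (lab x) (ξ x) : Fin (k + 1) → Bool)) (Fin.snoc l b) x =
      (1 + sgn b * sgn (ξ x)) / 2 * ind lab l x := by
    intro x
    simp only [ind, Fin.snoc_inj]
    by_cases h1 : lab x = l <;> cases b <;> cases hx : ξ x <;> simp [h1, sgn]
  have hb1 : |sgn b| = 1 := by cases b <;> simp [sgn]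
  obtain ⟨ha0, hd0⟩ := hlab l
  have step : ∀ (e : X → ℝ),
      (∑ x, ind (fun x => (Fin.snoc (lab x) (ξ x) : Fin (k + 1) → Bool)) (Fin.snoc l b) x * e x) -
        (1 / 2 : ℝ) ^ (k + 1) * ∑ x, e x =
      ((∑ x, ind lab l x * e x) - (1 / 2 : ℝ) ^ k * ∑ x, e x) / 2 +
        sgn b * (∑ x, sgn (ξ x) * ind lab l x * e x) / 2 := by
    intro e
    simp only [hind, mul_sum, ← sum_sub_distrib, sum_div, ← sum_add_distrib]
    exact sum_congr rfl fun x _ => by ring
  have bnd : ∀ {A B S T : ℝ}, |A| ≤ S → |B| ≤ T → |A / 2 + sgn b * B / 2| ≤ (S + T) / 2 := by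
    intro A B S T hA hB
    refine (abs_add_le _ _).trans ?_
    rw [abs_div, abs_div, abs_mul, hb1, one_mul, abs_two, ← add_div]
    linarith
  refine ⟨fun a haP => ?_, fun i => ⟨?_, ?_⟩⟩
  · rw [step (fun x => a x ^ 2)]
    refine (bnd (ha0 a haP) (hξ.1 l a haP)).trans ?_
    have : 0 ≤ ∑ x, a x ^ 2 := sum_nonneg fun x _ => sq_nonneg _
    push_cast
    nlinarith [mul_nonneg (mul_nonneg (Nat.cast_nonneg (α := ℝ) k) hε.le) this, mul_nonneg hε.le this]
  · rw [step (fun x => d i x ^ 2)]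
    refine (bnd (hd0 i).1 (hξ.2 l i).1).trans ?_
    have : 0 ≤ w i := le_trans (sum_nonneg fun x _ => sq_nonneg _) (hw i)
    push_cast
    nlinarith [mul_nonneg (mul_nonneg (Nat.cast_nonneg (α := ℝ) k) hε.le) this, mul_nonneg hε.le this]
  · set A := P *ᵥ fun x => (ind lab l x - (1 / 2 : ℝ) ^ k) * d i x
    set B := P *ᵥ fun x => sgn (ξ x) * ind lab l x * d i x
    have hw0 : 0 ≤ w i := le_trans (sum_nonneg fun x _ => sq_nonneg _) (hw i)
    have e : (P *ᵥ fun x => (ind (fun x => (Fin.snoc (lab x) (ξ x) : Fin (k + 1) → Bool))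
        (Fin.snoc l b) x - (1 / 2 : ℝ) ^ (k + 1)) * d i x) = (1 / 2 : ℝ) • (A + sgn b • B) := by
      rw [← mulVec_smul, ← mulVec_add, ← mulVec_smul]
      congr 1
      funext x
      simp only [hind, Pi.smul_apply, Pi.add_apply, smul_eq_mul]
      ring
    have hA : A ⬝ᵥ A ≤ ((k : ℝ) * ε * Real.sqrt (w i)) ^ 2 := by
      rw [mul_pow, Real.sq_sqrt hw0]
      exact le_of_eq_of_le (sum_congr rfl fun x _ => (sq _).symm) (hd0 i).2
    have hB : (sgn b • B) ⬝ᵥ (sgn b • B) ≤ (ε * Real.sqrt (w i)) ^ 2 := by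
      rw [smul_dotProduct, dotProduct_smul, smul_eq_mul, smul_eq_mul, ← mul_assoc, ← sq, sgn_sq,
        one_mul, mul_pow, Real.sq_sqrt hw0]
      exact le_of_eq_of_le (sum_congr rfl fun x _ => (sq _).symm) (hξ.2 l i).2
    have h := dot_add_le hA hB (by positivity) (by positivity)
    rw [← add_mul, ← add_one_mul, mul_pow, Real.sq_sqrt hw0] at h
    rw [e]
    simp only [Pi.smul_apply, smul_eq_mul, mul_pow, ← mul_sum]
    have h' : ∑ y, (A + sgn b • B) y ^ 2 = (A + sgn b • B) ⬝ᵥ (A + sgn b • B) :=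
      sum_congr rfl fun x _ => sq _
    rw [h']
    push_cast
    nlinarith [dot_self_nonneg (A + sgn b • B)]

omit [DecidableEq X] in
lemma failBound_nonneg {w : ι → ℝ} {ρ ε : ℝ} (hρ : 0 ≤ ρ) {p : ℕ} :
    0 ≤ failBound X w ρ ε p := by
  unfold failBound
  refine add_nonneg (div_nonneg (mul_nonneg (mul_nonneg (prod_nonneg fun j _ => by positivity)
    (pow_nonneg hρ p)) (Nat.cast_nonneg _)) ?_) (sum_nonneg fun i _ => by positivity)
  rw [pow_mul]; positivity

open Classical in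
/-- Few labellings are bad: at most the fraction `(2 ^ k - 1) * failBound`. -/
theorem card_bad_labels_le {P : Matrix X X ℝ} (hP : P.transpose = P) (hPP : P * P = P) {ρ : ℝ}
    (hρ : 0 ≤ ρ) (hdiag : ∀ x, P x x ≤ ρ) {d : ι → X → ℝ} {w : ι → ℝ}
    (hd : ∀ i x, |d i x| ≤ 1) (hw : ∀ i, ∑ x, d i x ^ 2 ≤ w i) {ε : ℝ} (hε : 0 < ε) {p : ℕ}
    (hp : 0 < p) : ∀ k : ℕ,
    ((univ.filter fun lab : X → Fin k → Bool => ¬ GoodLabels P d w ε k lab).card : ℝ) ≤
      (2 ^ k - 1) * failBound X w ρ ε p * Fintype.card (X → Fin k → Bool)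
  | 0 => by
    have : ∀ lab : X → Fin 0 → Bool, GoodLabels P d w ε 0 lab := by
      intro lab l
      refine ⟨fun a _ => ?_, fun i => ⟨?_, ?_⟩⟩
      all_goals simp [ind, Subsingleton.elim _ l]
      simp [mulVec, dotProduct]
    simp [this]
  | k + 1 => by
    have ih := card_bad_labels_le hP hPP hρ hdiag hd hw hε hp k
    set fb := failBound X w ρ ε p
    have hfb : 0 ≤ fb := failBound_nonneg hρ
    let e : (X → Fin (k + 1) → Bool) ≃ (X → Fin k → Bool) × (X → Bool) :=
      { toFun := fun f => (fun x => Fin.init (f x), fun x => f x (Fin.last k))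
        invFun := fun g x => Fin.snoc (g.1 x) (g.2 x)
        left_inv := fun f => funext fun x => Fin.snoc_init_self _
        right_inv := fun g => by simp }
    have hN : (Fintype.card (X → Fin (k + 1) → Bool) : ℝ) =
        Fintype.card (X → Fin k → Bool) * 2 ^ Fintype.card X := by
      rw [Fintype.card_congr e, Fintype.card_prod]
      simp
    calc ((univ.filter fun lab : X → Fin (k + 1) → Bool => ¬ GoodLabels P d w ε (k + 1) lab).card : ℝ)
        = ∑ lab : X → Fin (k + 1) → Bool,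
            if ¬ GoodLabels P d w ε (k + 1) lab then (1 : ℝ) else 0 := (sum_boole _ _).symm
      _ = ∑ lab : X → Fin k → Bool, ∑ ξ : X → Bool,
            if ¬ GoodLabels P d w ε (k + 1) (e.symm (lab, ξ)) then (1 : ℝ) else 0 := by
          rw [← Fintype.sum_prod_type (f := fun g : (X → Fin k → Bool) × (X → Bool) =>
            if ¬ GoodLabels P d w ε (k + 1) (e.symm g) then (1 : ℝ) else 0)]
          exact (e.symm.sum_comp (fun lab => if ¬ GoodLabels P d w ε (k + 1) lab then (1 : ℝ) else 0)).symm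
      _ ≤ ∑ lab : X → Fin k → Bool, (2 ^ Fintype.card X *
            (if ¬ GoodLabels P d w ε k lab then (1 : ℝ) else 0) +
              2 ^ Fintype.card X * ((Fintype.card (Fin k → Bool) : ℝ) * fb)) := by
          refine sum_le_sum fun lab _ => ?_
          by_cases hlab : GoodLabels P d w ε k lab
          · rw [if_neg (not_not.2 hlab), mul_zero, zero_add]
            refine le_trans ?_ (card_bad_halving_le hP hPP hρ hdiag (fun l => ind lab l)
              (fun l x => by unfold ind; split_ifs <;> simp) hd hw hε hp)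
            rw [← sum_boole]
            refine sum_le_sum fun ξ _ => ?_
            by_cases hξ : GoodHalving P (fun l => ind lab l) d w ε ξ
            · have : GoodLabels P d w ε (k + 1) (e.symm (lab, ξ)) := goodLabels_snoc hw hε hlab hξ
              rw [if_neg (not_not.2 this), if_neg (not_not.2 hξ)]
            · rw [if_pos hξ]; split_ifs <;> simp
          · rw [if_pos hlab, mul_one]
            refine le_add_of_le_of_nonneg ?_ (by positivity)
            calc (∑ ξ : X → Bool, if ¬ GoodLabels P d w ε (k + 1) (e.symm (lab, ξ)) then (1 : ℝ) else 0)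
                ≤ ∑ _ξ : X → Bool, (1 : ℝ) := sum_le_sum fun ξ _ => by split_ifs <;> simp
              _ = _ := by simp
      _ = 2 ^ Fintype.card X *
            ((univ.filter fun lab : X → Fin k → Bool => ¬ GoodLabels P d w ε k lab).card : ℝ) +
          Fintype.card (X → Fin k → Bool) * 2 ^ Fintype.card X * (2 ^ k * fb) := by
          rw [sum_add_distrib, ← mul_sum, sum_boole, sum_const, card_univ, nsmul_eq_mul]
          simp only [Fintype.card_fun, Fintype.card_fin, Fintype.card_bool]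
          push_cast
          ring
      _ ≤ _ := by
          rw [hN]
          refine le_trans (add_le_add_left (mul_le_mul_of_nonneg_left ih (by positivity)) _) ?_
          rw [pow_succ (2 : ℝ) k]
          linarith

end Vale.Agent.P047.Sampling
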