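import Vale.Agent.P047.Disproof.Cover
import Vale.Agent.P047.Disproof.TorusBasic
import Vale.Agent.P047.Disproof.Sampling

/-!
The cube version of the sampling: `2 ^ m` classes which see the polynomials of degree at most `t`
and the given centres like the whole cube.
-/

namespace Vale.Agent.P047.Disproof

open Finset Matrix Filter Topology

/-- Number of sets of at most `t` coordinates. -/
def lowCount (n t : ℕ) : ℕ := (univ.filter fun S : Finset (Fin n) => S.card ≤ t).card

/-- The projection on polynomials of degree at most `t`. -/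
noncomputable def lowProj (n t : ℕ) : Matrix (Cube n) (Cube n) ℝ := fun x y =>
  (∑ S ∈ univ.filter (fun S : Finset (Fin n) => S.card ≤ t),
    (∏ i ∈ S, sgn (x i)) * ∏ i ∈ S, sgn (y i)) / 2 ^ n

lemma lowProj_transpose (n t : ℕ) : (lowProj n t).transpose = lowProj n t := by
  ext x y
  simp only [transpose_apply, lowProj]
  exact congrArg (· / _) (sum_congr rfl fun S _ => mul_comm _ _)

lemma lowProj_mulVec {n t : ℕ} (a : Cube n → ℝ) (x : Cube n) :
    (lowProj n t *ᵥ a) x =
      ∑ S ∈ univ.filter (fun S : Finset (Fin n) => S.card ≤ t),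
        coef a S * ∏ i ∈ S, sgn (x i) := by
  simp only [mulVec, dotProduct, lowProj, coef, sum_div, sum_mul]
  rw [sum_comm]
  exact sum_congr rfl fun S _ => sum_congr rfl fun y _ => by ring

lemma lowProj_mulVec_eq {n t : ℕ} {a : Cube n → ℝ} (ha : DegLE a t) : lowProj n t *ᵥ a = a := by
  funext x
  rw [lowProj_mulVec, sum_filter_of_ne (fun S _ hS => le_of_not_gt fun h => hS (by simp [ha S h]))]
  exact (expansion a x).symm

lemma lowProj_idem (n t : ℕ) : lowProj n t * lowProj n t = lowProj n t := by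
  refine ext_iff_mulVec.2 fun v => ?_
  rw [← mulVec_mulVec]
  refine lowProj_mulVec_eq fun S hS => ?_
  simp only [coef, lowProj_mulVec, sum_mul]
  rw [sum_comm, sum_div]
  refine sum_eq_zero fun T hT => ?_
  have : T ≠ S := fun h => by subst h; exact absurd (mem_filter.1 hT).2 (not_le.2 hS)
  have h := sum_chi_mul T S
  rw [if_neg this] at h
  simp only [chi] at h
  simp [mul_assoc, ← mul_sum, h]

lemma lowProj_diag (n t : ℕ) (x : Cube n) : lowProj n t x x = lowCount n t / 2 ^ n := by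
  simp [lowProj, lowCount, ← prod_mul_distrib, sgn_mul_self]

/-- Each of the `2 ^ m` classes of `lab` sees the polynomials of degree at most `t` and the centres
like the whole cube, up to the relative error `e`. -/
def GoodClasses {n : ℕ} {ι : Type*} (t : ℕ) (d : ι → Cube n → ℝ) (w : ι → ℝ) (e : ℝ) {m : ℕ}
    (lab : Cube n → Fin m → Bool) : Prop :=
  ∀ l : Fin m → Bool,
    (∀ a : Cube n → ℝ, DegLE a t →
      |(∑ x ∈ univ.filter (fun x => lab x = l), a x ^ 2) - (1 / 2 : ℝ) ^ m * ∑ x, a x ^ 2| ≤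
        e * ∑ x, a x ^ 2) ∧
    ∀ i, |(∑ x ∈ univ.filter (fun x => lab x = l), d i x ^ 2) -
          (1 / 2 : ℝ) ^ m * ∑ x, d i x ^ 2| ≤ e * w i ∧
      ∀ a : Cube n → ℝ, DegLE a t →
        (∑ x, ((if lab x = l then 1 else 0) - (1 / 2 : ℝ) ^ m) * d i x * a x) ^ 2 ≤
          e ^ 2 * w i * ∑ x, a x ^ 2

open Classical in
/-- A uniform labelling has good classes outside a small fraction. -/
theorem card_bad_classes_le {n t m : ℕ} (hn : 0 < n) {ι : Type*} [Fintype ι]
    {d : ι → Cube n → ℝ} {w : ι → ℝ} (hd : ∀ i x, |d i x| ≤ 1) (hw : ∀ i, ∑ x, d i x ^ 2 ≤ w i)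
    {ε : ℝ} (hε0 : 0 < ε)
    (hρ : 8 * (n : ℝ) * (lowCount n t / 2 ^ n) ≤ ε ^ 2) :
    ((univ.filter fun lab : Cube n → Fin m → Bool => ¬ GoodClasses t d w (m * ε) lab).card : ℝ) ≤
      2 ^ m * ((1 / 2 : ℝ) ^ n + 3 * ∑ i, Real.exp (-(ε ^ 2 * w i / 8))) *
        Fintype.card (Cube n → Fin m → Bool) := by
  set ρ : ℝ := lowCount n t / 2 ^ n
  have hρ0 : 0 ≤ ρ := by positivity
  have hn1 : (1 : ℝ) ≤ n := Nat.one_le_cast.2 hn
  have hfb : Sampling.failBound (Cube n) w ρ ε n ≤
      (1 / 2 : ℝ) ^ n + 3 * ∑ i, Real.exp (-(ε ^ 2 * w i / 8)) := by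
    have h1 : (∏ j ∈ range n, (2 * (j : ℝ) + 1)) * ρ ^ n * Fintype.card (Cube n) / ε ^ (2 * n) ≤
        (1 / 2 : ℝ) ^ n := by
      have hp : ∏ j ∈ range n, (2 * (j : ℝ) + 1) ≤ (2 * (n : ℝ)) ^ n := by
        refine (prod_le_prod (fun j _ => by positivity) fun j hj => ?_).trans_eq
          (by rw [prod_const, card_range])
        have : (j : ℝ) + 1 ≤ n := by exact_mod_cast mem_range.1 hj
        linarith
      have hcard : (Fintype.card (Cube n) : ℝ) = 2 ^ n := by simp
      rw [hcard, pow_mul, div_le_iff₀ (by positivity), ← mul_pow]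
      calc (∏ j ∈ range n, (2 * (j : ℝ) + 1)) * ρ ^ n * 2 ^ n ≤ (2 * n) ^ n * ρ ^ n * 2 ^ n := by
            gcongr
        _ = (4 * n * ρ) ^ n := by rw [← mul_pow, ← mul_pow]; ring_nf
        _ ≤ _ := by
            refine pow_le_pow_left₀ (by positivity) ?_ n
            linarith
    have h2 : ∑ i, (2 * Real.exp (-(ε ^ 2 * w i / 2)) +
        Real.exp (-(ε ^ 2 * w i / 4) + ρ * w i / 2)) ≤ 3 * ∑ i, Real.exp (-(ε ^ 2 * w i / 8)) := by
      rw [mul_sum]
      refine sum_le_sum fun i _ => ?_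
      have hw0 : 0 ≤ w i := le_trans (sum_nonneg fun x _ => sq_nonneg _) (hw i)
      have e1 := Real.exp_le_exp.2 (show -(ε ^ 2 * w i / 2) ≤ -(ε ^ 2 * w i / 8) by
        nlinarith [mul_nonneg (sq_nonneg ε) hw0])
      have e2 := Real.exp_le_exp.2 (show -(ε ^ 2 * w i / 4) + ρ * w i / 2 ≤ -(ε ^ 2 * w i / 8) by
        nlinarith [mul_nonneg (mul_nonneg (sub_nonneg.2 hn1) hρ0) hw0,
          mul_le_mul_of_nonneg_right hρ hw0])
      linarith
    exact add_le_add h1 h2
  have good : ∀ lab : Cube n → Fin m → Bool,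
      Sampling.GoodLabels (lowProj n t) d w ε m lab → GoodClasses t d w (m * ε) lab := by
    intro lab hlab l
    obtain ⟨ha, hd'⟩ := hlab l
    have hflt : ∀ f : Cube n → ℝ, ∑ x ∈ univ.filter (fun x => lab x = l), f x =
        ∑ x, Sampling.ind lab l x * f x := fun f => by
      rw [sum_filter]
      exact sum_congr rfl fun x _ => by simp [Sampling.ind]
    refine ⟨fun a hdeg => ?_, fun i => ⟨?_, fun a hdeg => ?_⟩⟩
    · rw [hflt]
      exact ha a (lowProj_mulVec_eq hdeg)
    · rw [hflt]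
      exact (hd' i).1
    · set g := fun x => (Sampling.ind lab l x - (1 / 2 : ℝ) ^ m) * d i x
      have key : ∑ x, g x * a x = ∑ x, (lowProj n t *ᵥ g) x * a x := by
        conv_lhs => rw [← lowProj_mulVec_eq hdeg]
        exact Sampling.dot_mulVec_symm (lowProj_transpose n t) g a
      change (∑ x, g x * a x) ^ 2 ≤ _
      rw [key]
      exact (sum_mul_sq_le_sq_mul_sq univ _ _).trans
        (mul_le_mul_of_nonneg_right (hd' i).2 (sum_nonneg fun x _ => sq_nonneg _))
  refine le_trans ?_ ((Sampling.card_bad_labels_le (lowProj_transpose n t) (lowProj_idem n t) hρ0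
    (fun x => (lowProj_diag n t x).le) hd hw hε0 hn m).trans ?_)
  · exact Nat.cast_le.2 (card_le_card fun lab hlab =>
      mem_filter.2 ⟨mem_univ _, fun h => (mem_filter.1 hlab).2 (good lab h)⟩)
  · refine mul_le_mul_of_nonneg_right ?_ (Nat.cast_nonneg _)
    exact mul_le_mul (sub_le_self _ zero_le_one) hfb (Sampling.failBound_nonneg hρ0) (by positivity)

/-! ### The sampling needed by the stages -/

lemma eventually_poly_le_two_rpow (C : ℝ) (k : ℕ) {c : ℝ} (hc : 0 < c) :
    ∀ᶠ n : ℕ in atTop, C * (n : ℝ) ^ k ≤ (2 : ℝ) ^ (c * n) := by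
  have hr : 1 < (2 : ℝ) ^ c := Real.one_lt_rpow one_lt_two hc
  have h := (tendsto_pow_const_div_const_pow_of_one_lt k hr).const_mul C
  rw [mul_zero] at h
  filter_upwards [h.eventually (eventually_le_nhds zero_lt_one)] with n hn
  rw [← mul_div_assoc, div_le_one (by positivity)] at hn
  rwa [Real.rpow_mul zero_le_two, Real.rpow_natCast]

lemma lowCount_le {n : ℕ} :
    (lowCount n (tdeg n) : ℝ) / 2 ^ n ≤ (2 : ℝ) ^ (-(7 * (n : ℝ)) / 200) := by
  set t := tdeg n with ht
  have h1 : (lowCount n t : ℝ) * (1 / 2 : ℝ) ^ t ≤ (3 / 2 : ℝ) ^ n := by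
    have e : ∑ S : Finset (Fin n), (1 / 2 : ℝ) ^ S.card = (3 / 2 : ℝ) ^ n := by
      have := sum_pow_mul_eq_add_pow (1 / 2 : ℝ) 1 (univ : Finset (Fin n))
      simp only [one_pow, mul_one, card_univ, Fintype.card_fin, powerset_univ] at this
      rw [this]; norm_num
    rw [← e, lowCount, ← nsmul_eq_mul, ← sum_const]
    refine (sum_le_sum fun S hS => ?_).trans
      (sum_le_sum_of_subset_of_nonneg (subset_univ _) fun _ _ _ => by positivity)
    exact pow_le_pow_of_le_one (by norm_num) (by norm_num) (mem_filter.1 hS).2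
  have h2 : (lowCount n t : ℝ) / 2 ^ n ≤ (3 / 4 : ℝ) ^ n * 2 ^ t := by
    rw [_root_.one_div_pow, mul_one_div, div_le_iff₀ (by positivity)] at h1
    rw [div_le_iff₀ (by positivity)]
    refine h1.trans_eq ?_
    rw [mul_comm ((3 / 4 : ℝ) ^ n * 2 ^ t), ← mul_assoc, ← mul_pow]
    norm_num
  have h34 : (3 / 4 : ℝ) ≤ (2 : ℝ) ^ (-(2 : ℝ) / 5) := by
    refine (pow_le_pow_iff_left₀ (by norm_num) (by positivity) (n := 5) (by norm_num)).1 ?_
    rw [← Real.rpow_natCast ((2 : ℝ) ^ (-(2 : ℝ) / 5)) 5, ← Real.rpow_mul zero_le_two]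
    norm_num
  have h3 : (2 : ℝ) ^ t ≤ (2 : ℝ) ^ (73 * (n : ℝ) / 200) := by
    rw [← Real.rpow_natCast]
    refine Real.rpow_le_rpow_of_exponent_le one_le_two ?_
    rw [le_div_iff₀ (by norm_num : (0 : ℝ) < 200), ht, tdeg]
    exact_mod_cast Nat.div_mul_le_self (73 * n) 200
  refine h2.trans ((mul_le_mul (pow_le_pow_left₀ (by norm_num) h34 n) h3 (by positivity)
    (by positivity)).trans_eq ?_)
  rw [← Real.rpow_natCast ((2 : ℝ) ^ (-(2 : ℝ) / 5)) n, ← Real.rpow_mul zero_le_two,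
    ← Real.rpow_add zero_lt_two]
  ring_nf

/-- Classes with error far below `θ * κ` sample every box. -/
lemma good_of_goodClasses {n m : ℕ} (C : Cover n) {e : ℝ} (he : 0 ≤ e)
    (he' : e ≤ (1 / 2 : ℝ) ^ m * kap n / 100) (hk : kap n ≤ 1) {lab : Cube n → Fin m → Bool}
    (h : GoodClasses (tdeg n) C.d C.w e lab) (l : Fin m → Bool) :
    Good C (univ.filter fun x => lab x = l) ((1 / 2 : ℝ) ^ m) := by
  obtain ⟨ha, hd⟩ := h l
  set θ : ℝ := (1 / 2 : ℝ) ^ m
  set S := univ.filter fun x => lab x = l with hS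
  have hθ : 0 < θ := by positivity
  have hk0 : 0 < kap n := by unfold kap; positivity
  have he2 : e ≤ θ / 2 := by nlinarith
  refine ⟨fun a => ?_, fun c a hr => ?_⟩
  · have h1 := (abs_le.1 (ha _ (degLE_ev _ _ a))).1
    have : 0 ≤ ∑ x, ev n (tdeg n) a x ^ 2 := sum_nonneg fun x _ => sq_nonneg _
    nlinarith
  · set f := ev n (tdeg n) a
    have hf : DegLE f (tdeg n) := degLE_ev _ _ a
    set w := C.w c
    set A := ∑ x, (C.d c x + f x) ^ 2
    set F := ∑ x, f x ^ 2
    set D := ∑ x, C.d c x ^ 2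
    set B := ∑ x, C.d c x * f x
    have hw : 0 ≤ w := le_trans (sum_nonneg fun x _ => sq_nonneg _) (C.d_sq c)
    have hA : kap n * w ≤ A := C.low c a hr
    have hDw : D ≤ w := C.d_sq c
    have hF0 : 0 ≤ F := sum_nonneg fun x _ => sq_nonneg _
    have eA : A = D + 2 * B + F := by
      simp only [A, D, B, F, mul_sum, ← sum_add_distrib]
      exact sum_congr rfl fun x _ => by ring
    have hF : F ≤ 2 * A + 2 * w := by
      have : F ≤ ∑ x, (2 * (C.d c x + f x) ^ 2 + 2 * C.d c x ^ 2) :=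
        sum_le_sum fun x _ => by nlinarith [sq_nonneg (C.d c x + f x + C.d c x)]
      rw [sum_add_distrib, ← mul_sum, ← mul_sum] at this
      linarith
    have eS : ∑ x ∈ S, (C.d c x + f x) ^ 2 = (∑ x ∈ S, C.d c x ^ 2) +
        2 * ((∑ x, ((if lab x = l then 1 else 0) - θ) * C.d c x * f x) + θ * B) +
          ∑ x ∈ S, f x ^ 2 := by
      simp only [B, mul_sum, ← sum_add_distrib]
      have : ∀ x, ((if lab x = l then 1 else 0) - θ) * C.d c x * f x + θ * (C.d c x * f x) =
          if lab x = l then C.d c x * f x else 0 := fun x => by split_ifs <;> ring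
      simp only [this, mul_ite, mul_zero, ← sum_filter, ← hS, ← sum_add_distrib]
      exact sum_congr rfl fun x _ => by ring
    set X := ∑ x, ((if lab x = l then 1 else 0) - θ) * C.d c x * f x
    have hX : |X| ≤ e * (w + F) / 2 := by
      have h1 : X ^ 2 ≤ e ^ 2 * w * F := (hd c).2 f hf
      refine abs_le_of_sq_le_sq (h1.trans ?_) (by positivity)
      nlinarith [mul_nonneg (sq_nonneg e) (sq_nonneg (w - F))]
    have h1 := (abs_le.1 (ha f hf)).1
    have h2 := (abs_le.1 (hd c).1).1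
    have h3 := (abs_le.1 hX).1
    have hbig : e * (6 * w + 4 * A) ≤ θ / 10 * A := by
      have h4 : e * (6 * w + 4 * A) ≤ θ * kap n / 100 * (6 * w + 4 * A) :=
        mul_le_mul_of_nonneg_right he' (by nlinarith)
      nlinarith [mul_le_mul_of_nonneg_left hA hθ.le,
        mul_le_mul_of_nonneg_right hk (mul_nonneg hθ.le (le_trans (by positivity) hA))]
    nlinarith [mul_le_mul_of_nonneg_left hF he, mul_le_mul_of_nonneg_left hA hθ.le]

open Classical in
/-- Most labellings give classes all of which sample every cover. -/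
theorem many_good : ∀ᶠ n : ℕ in atTop, ∀ (C : Cover n) (m : ℕ),
    (2 : ℝ) ^ m ≤ Real.sqrt n →
    ((univ.filter fun lab : Cube n → Fin m → Bool =>
        ∃ l, ¬ Good C (univ.filter fun x => lab x = l) ((1 / 2 : ℝ) ^ m)).card : ℝ) <
      1 / 4 * Fintype.card (Cube n → Fin m → Bool) := by
  filter_upwards [eventually_ge_atTop 1,
    eventually_poly_le_two_rpow 320000 4 (c := 1 / 2000) (by norm_num),
    eventually_poly_le_two_rpow 320000 5 (c := 69 / 2000) (by norm_num),
    eventually_poly_le_two_rpow 20 1 (c := 1) one_pos] with n hn hN1 hN2 hN3 C m hm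
  have hn1 : (1 : ℝ) ≤ n := Nat.one_le_cast.2 hn
  have hm2 : (2 : ℝ) ^ m ≤ n := hm.trans (Real.sqrt_le_iff.2 ⟨by positivity, by nlinarith⟩)
  have hm1 : (m : ℝ) + 1 ≤ 2 ^ m := by exact_mod_cast Nat.succ_le_of_lt Nat.lt_two_pow_self
  set k := kap n with hk
  have hk0 : 0 < k := by rw [hk, kap]; positivity
  have hk1 : k ≤ 1 := Real.rpow_le_one_of_one_le_of_nonpos one_le_two (by
    apply div_nonpos_of_nonpos_of_nonneg <;> simp)
  set ε : ℝ := (1 / 2 : ℝ) ^ m * k / (100 * ((m : ℝ) + 1)) with hε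
  have hε0 : 0 < ε := by positivity
  have he : (m : ℝ) * ε ≤ (1 / 2 : ℝ) ^ m * k / 100 := by
    rw [hε, ← mul_div_assoc, div_le_div_iff₀ (by positivity) (by norm_num)]
    nlinarith [show 0 < (1 / 2 : ℝ) ^ m * k by positivity]
  have hεlow : (2 : ℝ) ^ (-(n : ℝ) / 2000) / (40000 * (n : ℝ) ^ 4) ≤ ε ^ 2 := by
    have : k / (200 * (n : ℝ) ^ 2) ≤ ε := by
      rw [hε, _root_.one_div_pow, div_le_div_iff₀ (by positivity) (by positivity)]
      have : (2 : ℝ) ^ m * (100 * ((m : ℝ) + 1)) ≤ 200 * (n : ℝ) ^ 2 := by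
        nlinarith [mul_le_mul hm2 (hm1.trans hm2) (by positivity) (by positivity)]
      rw [one_div, mul_assoc, ← div_eq_inv_mul, le_div_iff₀ (by positivity)]
      nlinarith [mul_le_mul_of_nonneg_left this hk0.le]
    refine le_trans (le_of_eq ?_) (pow_le_pow_left₀ (by positivity) this 2)
    rw [div_pow, hk, kap, ← Real.rpow_natCast ((2 : ℝ) ^ _) 2, ← Real.rpow_mul zero_le_two]
    push_cast
    ring_nf
  have hdecay : (2 : ℝ) ^ (-(n : ℝ) / 1000) ≤ ε ^ 2 / 8 := by
    refine le_trans ?_ (div_le_div_of_nonneg_right hεlow (by norm_num))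
    rw [div_div, le_div_iff₀ (by positivity),
      show -(n : ℝ) / 2000 = -(n : ℝ) / 1000 + 1 / 2000 * n by ring, Real.rpow_add zero_lt_two]
    exact mul_le_mul_of_nonneg_left (by linarith) (by positivity)
  have hρ : 8 * (n : ℝ) * (lowCount n (tdeg n) / 2 ^ n) ≤ ε ^ 2 := by
    refine le_trans ?_ hεlow
    refine (mul_le_mul_of_nonneg_left lowCount_le (by positivity)).trans ?_
    rw [le_div_iff₀ (by positivity),
      show -(n : ℝ) / 2000 = -(7 * (n : ℝ)) / 200 + 69 / 2000 * n by ring,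
      Real.rpow_add zero_lt_two]
    nlinarith [mul_le_mul_of_nonneg_left hN2 (Real.rpow_nonneg zero_le_two (-(7 * (n : ℝ)) / 200))]
  have hsum : ∑ c, Real.exp (-(ε ^ 2 * C.w c / 8)) ≤ (1 / 2 : ℝ) ^ n := by
    refine le_trans (sum_le_sum fun c _ => Real.exp_le_exp.2 ?_) (C.few.trans ?_)
    · have hw : 0 ≤ C.w c := le_trans (sum_nonneg fun x _ => sq_nonneg _) (C.d_sq c)
      nlinarith [mul_le_mul_of_nonneg_right hdecay hw]
    · calc Real.exp (-(n : ℝ) ^ 2) ≤ Real.exp ((n : ℝ) * -1) :=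
            Real.exp_le_exp.2 (by nlinarith)
        _ = Real.exp (-1) ^ n := Real.exp_nat_mul _ _
        _ ≤ _ := by
            refine pow_le_pow_left₀ (Real.exp_pos _).le ?_ n
            rw [Real.exp_neg, one_div]
            exact inv_anti₀ two_pos (by linarith [Real.add_one_le_exp (1 : ℝ)])
  have hcard : (0 : ℝ) < Fintype.card (Cube n → Fin m → Bool) := Nat.cast_pos.2 Fintype.card_pos
  refine lt_of_le_of_lt (le_trans (Nat.cast_le.2 (card_le_card fun lab hlab => ?_))
    (card_bad_classes_le (t := tdeg n) (m := m) hn (fun c x => (C.d_abs c x).trans (by norm_num)) C.d_sq hε0 hρ)) ?_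
  · simp only [mem_filter, mem_univ, true_and] at hlab ⊢
    obtain ⟨l, hl⟩ := hlab
    exact fun hg => hl (good_of_goodClasses C (by positivity) he hk1 hg l)
  · refine mul_lt_mul_of_pos_right ?_ hcard
    have h2n : (20 : ℝ) * n ≤ 2 ^ n := by
      simpa [Real.rpow_natCast] using hN3
    calc (2 : ℝ) ^ m * ((1 / 2 : ℝ) ^ n + 3 * ∑ c, Real.exp (-(ε ^ 2 * C.w c / 8)))
        ≤ n * (4 * (1 / 2 : ℝ) ^ n) := by
          refine mul_le_mul hm2 (by linarith) (by positivity) (by positivity)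
      _ < 1 / 4 := by
          rw [_root_.one_div_pow, ← mul_assoc, mul_one_div, div_lt_iff₀ (by positivity)]
          nlinarith

end Vale.Agent.P047.Disproof
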