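import Vale.Agent.P047.Disproof.Correction
import Vale.Agent.P047.Disproof.SamplingCube

/-!
The random start: labels with values `2 ^ -i` or near `0` and `1`, with prescribed mean.
-/

namespace Vale.Agent.P047.Disproof

open Finset Filter

lemma Good.mono {n : ℕ} {C : Cover n} {S S' : Finset (Cube n)} {θ : ℝ} (h : Good C S θ)
    (hS : S ⊆ S') : Good C S' θ :=
  ⟨fun a => (h.1 a).trans (sum_le_sum_of_subset_of_nonneg hS fun _ _ _ => sq_nonneg _),
    fun c a hr => (h.2 c a hr).trans
      (sum_le_sum_of_subset_of_nonneg hS fun _ _ _ => sq_nonneg _)⟩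

open Classical in
/-- A split of the cube such that most finer labellings cut out good classes on both sides. -/
lemma exists_split : ∀ᶠ n : ℕ in atTop, ∀ (C : Cover n) (m : ℕ),
    (2 : ℝ) ^ (m + 1) ≤ Real.sqrt n →
    ∃ A : Cube n → Bool,
      ((univ.filter fun g : Cube n → Fin m → Bool => ∃ b l,
          ¬ Good C (univ.filter fun x => A x = b ∧ g x = l) ((1 / 2 : ℝ) ^ (m + 1))).card : ℝ) <
        1 / 4 * Fintype.card (Cube n → Fin m → Bool) := by
  classical
  filter_upwards [many_good] with n hn C m hm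
  by_contra hc
  push Not at hc
  let Φ : (Cube n → Bool) × (Cube n → Fin m → Bool) ≃ (Cube n → Fin (m + 1) → Bool) :=
    { toFun := fun p x => Fin.cons (p.1 x) (p.2 x)
      invFun := fun lab => (fun x => lab x 0, fun x => Fin.tail (lab x))
      left_inv := fun p => by simp
      right_inv := fun lab => funext fun x => Fin.cons_self_tail (lab x) }
  have h := hn C (m + 1) hm
  rw [natCast_card_filter] at h
  rw [← Φ.sum_comp, Fintype.sum_prod_type, ← Fintype.card_congr Φ, Fintype.card_prod,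
    Nat.cast_mul] at h
  refine absurd h (not_lt.mpr ?_)
  calc (1 : ℝ) / 4 * (Fintype.card (Cube n → Bool) * Fintype.card (Cube n → Fin m → Bool))
      = ∑ _A : Cube n → Bool, 1 / 4 * (Fintype.card (Cube n → Fin m → Bool) : ℝ) := by
        rw [sum_const, card_univ, nsmul_eq_mul]; ring
    _ ≤ _ := by
        refine sum_le_sum fun A _ => (hc A).trans ?_
        rw [natCast_card_filter]
        refine sum_le_sum fun g _ => ?_
        have hrw : ∀ b l, (univ.filter fun x => A x = b ∧ g x = l) =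
            univ.filter fun x => Φ (A, g) x = Fin.cons b l := fun b l =>
          filter_congr fun x _ => by simp [Φ, Fin.cons_inj]
        simp only [hrw]
        by_cases hex : ∃ l, ¬ Good C (univ.filter fun x => Φ (A, g) x = l) ((1 / 2 : ℝ) ^ (m + 1))
        · rw [if_pos hex]
          split_ifs <;> norm_num
        · rw [if_neg hex, if_neg]
          rintro ⟨b, l, hbl⟩
          exact hex ⟨_, hbl⟩

/-- The weighted choice of labels with small linear forms. -/
lemma exists_choice {X L : Type*} [Fintype X] [DecidableEq X] [Fintype L] [DecidableEq L]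
    [Nonempty L] (bad : (X → L) → Prop) [DecidablePred bad]
    (hbad : ((univ.filter bad).card : ℝ) < 1 / 4 * Fintype.card (X → L))
    (p : X → ℝ) (hp : ∀ x, 0 ≤ p x ∧ p x ≤ 1) (ξ : X → L × Bool → ℝ)
    (hξ : ∀ x o, |ξ x o| ≤ 1)
    (hmean : ∀ x, ∑ l, (p x * ξ x (l, true) + (1 - p x) * ξ x (l, false)) = 0)
    {ι : Type*} [Fintype ι] (c : ι → X → ℝ) {V u : ℝ} (hV : ∀ i, ∑ x, c i x ^ 2 ≤ V)
    (hV0 : 0 < V) (hu : 0 ≤ u)
    (hsmall : Fintype.card ι * (2 * Real.exp (-(u ^ 2 / (2 * V)))) ≤ 1 / 4) :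
    ∃ ω : X → L × Bool, ¬ bad (fun x => (ω x).1) ∧ ∀ i, |∑ x, c i x * ξ x (ω x)| ≤ u := by
  classical
  set K : ℝ := (Fintype.card L : ℝ) with hKdef
  have hK : 0 < K := Nat.cast_pos.mpr Fintype.card_pos
  set P : X → L × Bool → ℝ := fun x o => (if o.2 then p x else 1 - p x) / K with hP
  have hP0 : ∀ x o, 0 ≤ P x o := fun x o => by
    refine div_nonneg ?_ hK.le
    split_ifs <;> linarith [hp x]
  have hP1 : ∀ x, ∑ o, P x o = 1 := fun x => by
    simp only [hP, Fintype.sum_prod_type, Fintype.sum_bool, if_true, Bool.false_eq_true, if_false,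
      ← add_div, add_sub_cancel, sum_const, card_univ, nsmul_eq_mul]
    rw [mul_one_div]
    exact div_self hK.ne'
  have hm : ∀ x, ∑ o, P x o * ξ x o = 0 := fun x => by
    simp only [hP, Fintype.sum_prod_type, Fintype.sum_bool, if_true, Bool.false_eq_true, if_false,
      div_mul_eq_mul_div, ← sum_div, hmean x, zero_div]
  have htot : ∑ ω : X → L × Bool, ∏ x, P x (ω x) = 1 := by
    rw [← Fintype.prod_sum]
    exact prod_eq_one fun x _ => hP1 x
  have hfst : ∑ ω : X → L × Bool with bad (fun x => (ω x).1), ∏ x, P x (ω x) < 1 / 4 := by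
    rw [sum_filter, ← (Equiv.arrowProdEquivProdArrow X (fun _ => L) fun _ => Bool).symm.sum_comp,
      Fintype.sum_prod_type]
    change ∑ g : X → L, ∑ b : X → Bool, (if bad g then ∏ x, P x (g x, b x) else 0) < _
    have hb : ∀ g : X → L, ∑ b : X → Bool, (if bad g then ∏ x, P x (g x, b x) else 0) =
        if bad g then (1 : ℝ) / K ^ Fintype.card X else 0 := fun g => by
      split_ifs with h
      · rw [← Fintype.prod_sum (f := fun x b => P x (g x, b))]
        simp only [hP, Fintype.sum_bool, if_true, Bool.false_eq_true, if_false, ← add_div,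
          add_sub_cancel, prod_const, card_univ, one_div, inv_pow]
      · exact sum_const_zero
    simp only [hb]
    rw [← sum_filter, sum_const, nsmul_eq_mul, ← mul_div_assoc, mul_one, div_lt_iff₀ (by positivity)]
    refine lt_of_lt_of_eq hbad ?_
    rw [Fintype.card_fun, Nat.cast_pow]
  by_contra hc
  push Not at hc
  have hcover : ∀ ω : X → L × Bool, ∏ x, P x (ω x) ≤
      (if bad (fun x => (ω x).1) then ∏ x, P x (ω x) else 0) +
      ∑ i, if u < |∑ x, c i x * ξ x (ω x)| then ∏ x, P x (ω x) else 0 := by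
    intro ω
    have h0 : 0 ≤ ∏ x, P x (ω x) := prod_nonneg fun x _ => hP0 x _
    have hi : ∀ i, 0 ≤ if u < |∑ x, c i x * ξ x (ω x)| then ∏ x, P x (ω x) else 0 := fun i => by
      split_ifs <;> linarith
    by_cases hb : bad fun x => (ω x).1
    · rw [if_pos hb]
      linarith [sum_nonneg fun i (_ : i ∈ univ) => hi i]
    · obtain ⟨i, hiu⟩ := hc ω hb
      rw [if_neg hb, zero_add]
      exact le_of_eq_of_le (if_pos hiu).symm (single_le_sum (fun j _ => hi j) (mem_univ i))
  have h := sum_le_sum fun ω (_ : ω ∈ (univ : Finset (X → L × Bool))) => hcover ω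
  rw [sum_add_distrib, sum_comm, htot, ← sum_filter] at h
  have h2 : ∑ i, ∑ ω : X → L × Bool,
      (if u < |∑ x, c i x * ξ x (ω x)| then ∏ x, P x (ω x) else 0) ≤ 1 / 4 := by
    refine le_trans ?_ hsmall
    rw [← nsmul_eq_mul, ← card_univ, ← sum_const]
    refine sum_le_sum fun i _ => ?_
    rw [← sum_filter]
    exact hoeffding P hP0 hP1 ξ hm hξ (c i) (hV i) hV0 hu
  linarith

/-- The number of forced labels among `2 ^ m` and their values leave room for every mean in
`[η, 1 - η]`. -/
lemma pool_prob {q η a S : ℝ} {K L : ℕ} (hq : η ≤ q ∧ q ≤ 1 - η) (hη : η < 1 / 4) (ha0 : 0 ≤ a)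
    (ha : a ≤ η / 2) (hS : 0 ≤ S ∧ S ≤ 1) (hKL : (L : ℝ) ≤ η / 2 * K) (h1 : 1 ≤ η / 2 * (K : ℝ)) :
    ∃ p : ℝ, (0 ≤ p ∧ p ≤ 1) ∧
      S + ((K : ℝ) - L) * (p * (1 - a) + (1 - p) * a) = q * K := by
  have hK : (0 : ℝ) ≤ K := Nat.cast_nonneg K
  have hK' : (0 : ℝ) < K := hK.lt_of_ne fun h => by rw [← h] at h1; linarith
  have hL : (0 : ℝ) ≤ L := Nat.cast_nonneg L
  have hP : (0 : ℝ) < K - L := by nlinarith
  have hlo : a * ((K : ℝ) - L) ≤ q * K - S := by nlinarith
  have hhi : q * (K : ℝ) - S ≤ (1 - a) * (K - L) := by nlinarith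
  have h2 : 0 < 1 - 2 * a := by linarith
  refine ⟨((q * K - S) / (K - L) - a) / (1 - 2 * a), ⟨?_, ?_⟩, ?_⟩
  · exact div_nonneg (sub_nonneg.mpr ((le_div_iff₀ hP).mpr hlo)) h2.le
  · rw [div_le_one h2, sub_le_iff_le_add, div_le_iff₀ hP]
    linarith
  · set B : ℝ := (q * K - S) / (K - L) with hB
    have e : (B - a) / (1 - 2 * a) * (1 - a) + (1 - (B - a) / (1 - 2 * a)) * a = B := by
      linear_combination div_mul_cancel₀ (B - a) h2.ne'
    rw [e, hB, mul_div_cancel₀ _ hP.ne']
    ring

end Vale.Agent.P047.Disproof
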