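import Mathlib

/-!
An elementary proof of the two dimensional Gaussian Brascamp-Lieb inequality for three directions,
in product and in entropy form (monotone transport on the line and a change of variables).
-/

namespace Vale.Agent.P047.Disproof.BL

open MeasureTheory ProbabilityTheory Set Filter Real
open scoped Topology NNReal ENNReal

/-- The standard Gaussian density. -/
noncomputable def g (t : ℝ) : ℝ := (√(2 * π))⁻¹ * exp (-t ^ 2 / 2)

lemma g_eq : g = gaussianPDFReal 0 1 := by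
  ext t
  simp [g, gaussianPDFReal]

lemma g_pos (t : ℝ) : 0 < g t := by unfold g; positivity

lemma continuous_g : Continuous g := by unfold g; fun_prop

lemma integrable_g : Integrable g := g_eq ▸ integrable_gaussianPDFReal 0 1

lemma integral_g : ∫ t, g t = 1 := g_eq ▸ integral_gaussianPDFReal_eq_one 0 one_ne_zero

lemma integrable_mul_g {f : ℝ → ℝ} (hf : Continuous f) {b : ℝ} (hb : ∀ t, |f t| ≤ b) :
    Integrable fun t => f t * g t :=
  integrable_g.bdd_mul hf.aestronglyMeasurable (Eventually.of_forall hb)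

/-- Distribution function of a density. -/
noncomputable def cdfOf (h : ℝ → ℝ) (t : ℝ) : ℝ := ∫ x in Iic t, h x

section

variable {h : ℝ → ℝ} (hc : Continuous h) (hi : Integrable h) (hp : ∀ t, 0 < h t)
include hc hi

lemma hasDerivAt_cdfOf (t : ℝ) : HasDerivAt (cdfOf h) (h t) t := by
  have h1 : cdfOf h = fun s => cdfOf h 0 + ∫ x in (0:ℝ)..s, h x := funext fun s => by
    rw [← intervalIntegral.integral_Iic_sub_Iic hi.integrableOn hi.integrableOn, cdfOf, cdfOf]
    ring
  rw [h1]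
  exact (intervalIntegral.integral_hasDerivAt_right (hc.intervalIntegrable _ _)
    (hc.stronglyMeasurableAtFilter _ _) hc.continuousAt).const_add _

include hp

lemma strictMono_cdfOf : StrictMono (cdfOf h) :=
  strictMono_of_hasDerivAt_pos (fun t => hasDerivAt_cdfOf hc hi t) hp

lemma cdfOf_mem (hone : ∫ t, h t = 1) (t : ℝ) : cdfOf h t ∈ Ioo 0 1 := by
  have h0 : ∀ s, 0 ≤ cdfOf h s := fun s => integral_nonneg fun x => (hp x).le
  have h1 : ∀ s, cdfOf h s ≤ 1 := fun s => hone ▸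
    setIntegral_le_integral hi (Eventually.of_forall fun x => (hp x).le)
  exact ⟨(h0 (t - 1)).trans_lt (strictMono_cdfOf hc hi hp (by linarith)),
    (strictMono_cdfOf hc hi hp (by linarith : t < t + 1)).trans_le (h1 _)⟩

end

/-- The standard Gaussian distribution function. -/
noncomputable def Φ : ℝ → ℝ := cdfOf g

lemma Φ_eq_cdf (t : ℝ) : Φ t = cdf (gaussianReal 0 1) t := by
  rw [cdf_eq_real, measureReal_def, gaussianReal_apply_eq_integral 0 one_ne_zero, ← g_eq,
    ENNReal.toReal_ofReal (integral_nonneg fun x => (g_pos x).le)]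
  rfl

lemma strictMono_Φ : StrictMono Φ := strictMono_cdfOf continuous_g integrable_g g_pos

lemma hasDerivAt_Φ (t : ℝ) : HasDerivAt Φ (g t) t := hasDerivAt_cdfOf continuous_g integrable_g t

lemma exists_Φ {u : ℝ} (hu : u ∈ Ioo (0:ℝ) 1) : ∃ w, Φ w = u := by
  have hb : Tendsto Φ atBot (𝓝 0) := by
    rw [funext Φ_eq_cdf]; exact tendsto_cdf_atBot _
  have ht : Tendsto Φ atTop (𝓝 1) := by
    rw [funext Φ_eq_cdf]; exact tendsto_cdf_atTop _
  obtain ⟨a, ha⟩ := (hb.eventually (eventually_lt_nhds hu.1)).exists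
  obtain ⟨b, hb⟩ := (ht.eventually (eventually_gt_nhds hu.2)).exists
  exact intermediate_value_univ a b
    (continuous_iff_continuousAt.mpr fun t => (hasDerivAt_Φ t).continuousAt) ⟨ha.le, hb.le⟩

open Classical in
/-- The inverse of `Φ` on the open unit interval. -/
noncomputable def Ψ (u : ℝ) : ℝ := if h : u ∈ Ioo (0:ℝ) 1 then (exists_Φ h).choose else 0

lemma Φ_Ψ {u : ℝ} (hu : u ∈ Ioo (0:ℝ) 1) : Φ (Ψ u) = u := by
  rw [Ψ, dif_pos hu]; exact (exists_Φ hu).choose_spec

lemma hasDerivAt_Ψ {u : ℝ} (hu : u ∈ Ioo (0:ℝ) 1) : HasDerivAt Ψ (g (Ψ u))⁻¹ u := by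
  have hnhds : Ioo (0:ℝ) 1 ∈ 𝓝 u := isOpen_Ioo.mem_nhds hu
  have hmono : StrictMonoOn Ψ (Ioo 0 1) := fun a ha b hb hab => by
    rw [← strictMono_Φ.lt_iff_lt, Φ_Ψ ha, Φ_Ψ hb]; exact hab
  have himg : Ψ '' Ioo 0 1 = univ := eq_univ_of_forall fun w => by
    have hw : Φ w ∈ Ioo (0:ℝ) 1 := cdfOf_mem continuous_g integrable_g g_pos integral_g w
    exact ⟨Φ w, hw, strictMono_Φ.injective (Φ_Ψ hw)⟩
  refine (hasDerivAt_Φ _).of_local_left_inverse
    (hmono.continuousAt_of_image_mem_nhds hnhds (himg ▸ univ_mem)) (g_pos _).ne' ?_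
  filter_upwards [hnhds] with y hy using Φ_Ψ hy

/-- Monotone transport of a density relative to the Gaussian onto the Gaussian. -/
lemma exists_transport {f : ℝ → ℝ} (hf : Continuous f) (hpos : ∀ t, 0 < f t) {b : ℝ}
    (hb : ∀ t, f t ≤ b) (hone : ∫ t, f t * g t = 1) :
    ∃ T T' : ℝ → ℝ, (∀ t, HasDerivAt T (T' t) t) ∧ (∀ t, 0 < T' t) ∧
      ∀ t, g (T t) * T' t = f t * g t := by
  set h := fun t => f t * g t
  have hc : Continuous h := hf.mul continuous_g
  have hi : Integrable h :=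
    integrable_mul_g hf (b := b) fun t => (abs_of_pos (hpos t)).le.trans (hb t)
  have hp : ∀ t, 0 < h t := fun t => mul_pos (hpos t) (g_pos t)
  refine ⟨fun t => Ψ (cdfOf h t), fun t => (g (Ψ (cdfOf h t)))⁻¹ * h t, fun t => ?_,
    fun t => mul_pos (inv_pos.mpr (g_pos _)) (hp t), fun t => ?_⟩
  · exact (hasDerivAt_Ψ (cdfOf_mem hc hi hp hone t)).comp t (hasDerivAt_cdfOf hc hi t)
  · rw [← mul_assoc, mul_inv_cancel₀ (g_pos _).ne', one_mul]

section Main

variable (r : ℝ)

/-- Coefficient of the sum direction. -/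
noncomputable def al : ℝ := √((1 + r) / 2)

/-- Coefficient of the difference direction. -/
noncomputable def be : ℝ := √((1 - r) / 2)

/-- First point, in independent standard coordinates. -/
noncomputable def l0 (z : ℝ × ℝ) : ℝ := al r * z.1 - be r * z.2

/-- Second point, in independent standard coordinates. -/
noncomputable def l1 (z : ℝ × ℝ) : ℝ := al r * z.1 + be r * z.2

/-- The standard Gaussian density of the plane. -/
noncomputable def g2 (z : ℝ × ℝ) : ℝ := g z.1 * g z.2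

lemma g2_pos (z : ℝ × ℝ) : 0 < g2 z := mul_pos (g_pos _) (g_pos _)

lemma continuous_g2 : Continuous g2 := by unfold g2 g; fun_prop

lemma integrable_g2 : Integrable g2 := integrable_g.mul_prod integrable_g

lemma integral_g2 : ∫ z, g2 z = 1 := by
  unfold g2
  rw [Measure.volume_eq_prod, integral_prod_mul, integral_g, one_mul]

variable {r} (hr0 : 0 ≤ r) (hr1 : r < 1)
include hr0 hr1

omit hr1 in
lemma al_sq : al r ^ 2 = (1 + r) / 2 := sq_sqrt (by linarith)

omit hr0 in
lemma be_sq : be r ^ 2 = (1 - r) / 2 := sq_sqrt (by linarith)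

omit hr1 in
lemma al_pos : 0 < al r := sqrt_pos.mpr (by linarith)

omit hr0 in
lemma be_pos : 0 < be r := sqrt_pos.mpr (by linarith)

/-- Logarithm of the product of the three functions with their exponents. -/
noncomputable def logProd (r : ℝ) (f0 f1 fd : ℝ → ℝ) (z : ℝ × ℝ) : ℝ :=
  1 / (1 + r) * Real.log (f0 (l0 r z)) + 1 / (1 + r) * Real.log (f1 (l1 r z)) +
    2 * r / (1 + r) * Real.log (fd z.2)

omit hr0 hr1 in
lemma continuous_logProd {f0 f1 fd : ℝ → ℝ} (h0 : Continuous f0) (h1 : Continuous f1)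
    (hd : Continuous fd) (p0 : ∀ t, 0 < f0 t) (p1 : ∀ t, 0 < f1 t) (pd : ∀ t, 0 < fd t) :
    Continuous (logProd r f0 f1 fd) := by
  have k0 : Continuous fun z => Real.log (f0 (l0 r z)) :=
    (h0.comp (by unfold l0; fun_prop)).log fun z => (p0 _).ne'
  have k1 : Continuous fun z => Real.log (f1 (l1 r z)) :=
    (h1.comp (by unfold l1; fun_prop)).log fun z => (p1 _).ne'
  have kd : Continuous fun z : ℝ × ℝ => Real.log (fd z.2) :=
    (hd.comp continuous_snd).log fun z => (pd _).ne'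
  unfold logProd
  fun_prop

/-- Gaussian Brascamp-Lieb inequality for the three directions, in product form. -/
theorem lintegral_logProd_le {f0 f1 fd : ℝ → ℝ} (h0 : Continuous f0) (h1 : Continuous f1)
    (hd : Continuous fd) (p0 : ∀ t, 0 < f0 t) (p1 : ∀ t, 0 < f1 t) (pd : ∀ t, 0 < fd t) {b : ℝ}
    (b0 : ∀ t, f0 t ≤ b) (b1 : ∀ t, f1 t ≤ b) (bd : ∀ t, fd t ≤ b)
    (i0 : ∫ t, f0 t * g t = 1) (i1 : ∫ t, f1 t * g t = 1) (id' : ∫ t, fd t * g t = 1) :
    ∫⁻ z, ENNReal.ofReal (exp (logProd r f0 f1 fd z) * g2 z) ≤ 1 := by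
  obtain ⟨A, A', hA, hA0, hAg⟩ := exists_transport h0 p0 b0 i0
  obtain ⟨B, B', hB, hB0, hBg⟩ := exists_transport h1 p1 b1 i1
  obtain ⟨C, C', hC, hC0, hCg⟩ := exists_transport hd pd bd id'
  set p : ℝ := 1 / (1 + r) with hp
  set q : ℝ := 2 * r / (1 + r) with hq
  have hp0 : 0 < p := by positivity
  have hq0 : 0 ≤ q := by positivity
  set α := al r
  set β := be r
  have hα : α ^ 2 = (1 + r) / 2 := al_sq hr0
  have hβ : β ^ 2 = (1 - r) / 2 := be_sq hr1
  -- the transport map
  set Θ : ℝ × ℝ → ℝ × ℝ := fun z =>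
    (p * α * (A (l0 r z) + B (l1 r z)), p * β * (B (l1 r z) - A (l0 r z)) + q * C z.2) with hΘ
  let L0 : ℝ × ℝ →L[ℝ] ℝ := α • ContinuousLinearMap.fst ℝ ℝ ℝ - β • ContinuousLinearMap.snd ℝ ℝ ℝ
  let L1 : ℝ × ℝ →L[ℝ] ℝ := α • ContinuousLinearMap.fst ℝ ℝ ℝ + β • ContinuousLinearMap.snd ℝ ℝ ℝ
  let DΘ : ℝ × ℝ → (ℝ × ℝ →L[ℝ] ℝ × ℝ) := fun z =>
    ((p * α) • (A' (l0 r z) • L0 + B' (l1 r z) • L1)).prod
      ((p * β) • (B' (l1 r z) • L1 - A' (l0 r z) • L0) +
        q • (C' z.2 • ContinuousLinearMap.snd ℝ ℝ ℝ))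
  have hderiv : ∀ z, HasFDerivAt Θ (DΘ z) z := by
    intro z
    have d0 : HasFDerivAt (fun z => A (l0 r z)) (A' (l0 r z) • L0) z :=
      (hA (l0 r z)).comp_hasFDerivAt z L0.hasFDerivAt
    have d1 : HasFDerivAt (fun z => B (l1 r z)) (B' (l1 r z) • L1) z :=
      (hB (l1 r z)).comp_hasFDerivAt z L1.hasFDerivAt
    have d2 : HasFDerivAt (fun z : ℝ × ℝ => C z.2) (C' z.2 • ContinuousLinearMap.snd ℝ ℝ ℝ) z :=
      (hC z.2).comp_hasFDerivAt z (ContinuousLinearMap.snd ℝ ℝ ℝ).hasFDerivAt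
    exact ((d0.add d1).const_mul (p * α)).prodMk
      (((d1.sub d0).const_mul (p * β)).add (d2.const_mul q))
  have hdet : ∀ z, (DΘ z).det = (1 - r) / (1 + r) * (A' (l0 r z) * B' (l1 r z)) +
      r / (1 + r) * (A' (l0 r z) * C' z.2) + r / (1 + r) * (B' (l1 r z) * C' z.2) := by
    intro z
    rw [ContinuousLinearMap.det, ← LinearMap.det_toMatrix (Module.Basis.finTwoProd ℝ),
      Matrix.det_fin_two]
    simp [DΘ, L0, L1, LinearMap.toMatrix_apply]
    generalize A' (l0 r z) = a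
    generalize B' (l1 r z) = b
    generalize C' z.2 = c
    have e1 : p ^ 2 * (4 * α ^ 2 * β ^ 2) = (1 - r) / (1 + r) := by
      rw [hα, hβ, hp]; field_simp; ring
    have e2 : p * q * α ^ 2 = r / (1 + r) := by
      rw [hα, hp, hq]; field_simp
    rw [← e1, ← e2]
    ring
  have hinj : InjOn Θ univ := by
    intro u _ v _ huv
    simp only [hΘ, Prod.mk.injEq] at huv
    obtain ⟨e1, e2⟩ := huv
    have mono : ∀ {T T' : ℝ → ℝ}, (∀ t, HasDerivAt T (T' t) t) → (∀ t, 0 < T' t) → ∀ x y : ℝ,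
        0 ≤ (T x - T y) * (x - y) ∧ ((T x - T y) * (x - y) = 0 → x = y) := by
      intro T T' hT hT0 x y
      have hs := strictMono_of_hasDerivAt_pos hT hT0
      rcases lt_trichotomy x y with h | h | h
      · exact ⟨(mul_pos_of_neg_of_neg (sub_neg.mpr (hs h)) (sub_neg.mpr h)).le,
          fun e => absurd e (mul_pos_of_neg_of_neg (sub_neg.mpr (hs h)) (sub_neg.mpr h)).ne'⟩
      · exact ⟨by rw [h]; simp, fun _ => h⟩
      · exact ⟨(mul_pos (sub_pos.mpr (hs h)) (sub_pos.mpr h)).le,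
          fun e => absurd e (mul_pos (sub_pos.mpr (hs h)) (sub_pos.mpr h)).ne'⟩
    obtain ⟨a0, a1⟩ := mono hA hA0 (l0 r u) (l0 r v)
    obtain ⟨b0', b1'⟩ := mono hB hB0 (l1 r u) (l1 r v)
    obtain ⟨c0, -⟩ := mono hC hC0 u.2 v.2
    set x := (A (l0 r u) - A (l0 r v)) * (l0 r u - l0 r v) with hx
    set y := (B (l1 r u) - B (l1 r v)) * (l1 r u - l1 r v) with hy
    have key : p * x + p * y + q * ((C u.2 - C v.2) * (u.2 - v.2)) = 0 := by
      simp only [hx, hy, l0, l1] at e1 e2 ⊢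
      linear_combination (u.1 - v.1) * e1 + (u.2 - v.2) * e2
    have hq' := mul_nonneg hq0 c0
    have hxz : x = 0 := by nlinarith [mul_nonneg hp0.le b0', mul_nonneg hp0.le a0]
    have hyz : y = 0 := by nlinarith [mul_nonneg hp0.le b0', mul_nonneg hp0.le a0]
    have k0 := a1 hxz
    have k1 := b1' hyz
    simp only [l0, l1] at k0 k1
    refine Prod.ext ?_ ?_
    · have : α * (u.1 - v.1) = 0 := by linear_combination (k0 + k1) / 2
      linarith [(mul_eq_zero.mp this).resolve_left (al_pos hr0).ne']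
    · have : β * (u.2 - v.2) = 0 := by linear_combination (k1 - k0) / 2
      linarith [(mul_eq_zero.mp this).resolve_left (be_pos hr1).ne']
  -- pointwise bound
  have hpt : ∀ z, exp (logProd r f0 f1 fd z) * g2 z ≤ |(DΘ z).det| * g2 (Θ z) := by
    intro z
    have hl : ∀ {T T' f : ℝ → ℝ}, (∀ t, 0 < T' t) → (∀ t, 0 < f t) →
        (∀ t, g (T t) * T' t = f t * g t) → ∀ t,
        Real.log (f t) = Real.log (T' t) - T t ^ 2 / 2 + t ^ 2 / 2 := by
      intro T T' f hT0 hf0 hT t
      have := congrArg Real.log (hT t)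
      rw [Real.log_mul (g_pos _).ne' (hT0 t).ne', Real.log_mul (hf0 t).ne' (g_pos _).ne'] at this
      have hlg : ∀ s, Real.log (g s) = Real.log (√(2 * π))⁻¹ + -s ^ 2 / 2 := fun s => by
        rw [g, Real.log_mul (by positivity) (exp_pos _).ne', Real.log_exp]
      rw [hlg, hlg] at this
      linarith
    set a := A (l0 r z)
    set bb := B (l1 r z)
    set c := C z.2
    have hL : logProd r f0 f1 fd z = p * Real.log (A' (l0 r z)) + p * Real.log (B' (l1 r z)) +
        q * Real.log (C' z.2) - (p * a ^ 2 + p * bb ^ 2 + q * c ^ 2) / 2 +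
        (z.1 ^ 2 + z.2 ^ 2) / 2 := by
      have hquad : p * l0 r z ^ 2 + p * l1 r z ^ 2 + q * z.2 ^ 2 = z.1 ^ 2 + z.2 ^ 2 := by
        have : p * l0 r z ^ 2 + p * l1 r z ^ 2 + q * z.2 ^ 2 =
            p * (2 * α ^ 2) * z.1 ^ 2 + (p * (2 * β ^ 2) + q) * z.2 ^ 2 := by
          unfold l0 l1; ring
        rw [this, hα, hβ, hp, hq]
        field_simp
        ring
      rw [logProd, ← hp, ← hq, hl hA0 p0 hAg, hl hB0 p1 hBg, hl hC0 pd hCg]
      linear_combination hquad / 2
    have hsq : (Θ z).1 ^ 2 + (Θ z).2 ^ 2 ≤ p * a ^ 2 + p * bb ^ 2 + q * c ^ 2 := by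
      have e : p * a ^ 2 + p * bb ^ 2 + q * c ^ 2 - ((Θ z).1 ^ 2 + (Θ z).2 ^ 2) =
          r / (1 + r) ^ 2 * (bb - a - 2 * β * c) ^ 2 := by
        have : (Θ z).1 ^ 2 + (Θ z).2 ^ 2 = p ^ 2 * α ^ 2 * (a + bb) ^ 2 +
            (p ^ 2 * β ^ 2 * (bb - a) ^ 2 + 2 * p * q * β * (bb - a) * c + q ^ 2 * c ^ 2) := by
          simp only [hΘ]; ring
        rw [this, show r / (1 + r) ^ 2 * (bb - a - 2 * β * c) ^ 2 = r / (1 + r) ^ 2 *
          ((bb - a) ^ 2 - 4 * β * (bb - a) * c + 4 * β ^ 2 * c ^ 2) by ring, hα, hβ, hp, hq]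
        field_simp
        ring
      have : 0 ≤ r / (1 + r) ^ 2 * (bb - a - 2 * β * c) ^ 2 := by positivity
      linarith
    have hdetpos : exp (p * Real.log (A' (l0 r z)) + p * Real.log (B' (l1 r z)) +
        q * Real.log (C' z.2)) ≤ |(DΘ z).det| := by
      refine le_trans ?_ (le_abs_self _)
      rw [hdet]
      have hpa := hA0 (l0 r z)
      have hpb := hB0 (l1 r z)
      have hpc := hC0 z.2
      refine le_trans (le_of_eq ?_) (Real.geom_mean_le_arith_mean3_weighted
        (div_nonneg (by linarith) (by linarith)) (by positivity) (by positivity)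
        (by positivity) (by positivity) (by positivity) (by field_simp; ring))
      rw [Real.rpow_def_of_pos (by positivity), Real.rpow_def_of_pos (by positivity),
        Real.rpow_def_of_pos (by positivity), ← exp_add, ← exp_add, Real.log_mul hpa.ne' hpb.ne',
        Real.log_mul hpa.ne' hpc.ne', Real.log_mul hpb.ne' hpc.ne', hp, hq]
      congr 1
      field_simp
      ring
    have hg2 : ∀ w : ℝ × ℝ, g2 w = ((√(2 * π))⁻¹) ^ 2 * exp (-(w.1 ^ 2 + w.2 ^ 2) / 2) := fun w => by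
      rw [g2, g, g, show -(w.1 ^ 2 + w.2 ^ 2) / 2 = -w.1 ^ 2 / 2 + -w.2 ^ 2 / 2 by ring, exp_add]
      ring
    calc exp (logProd r f0 f1 fd z) * g2 z
        = exp (p * Real.log (A' (l0 r z)) + p * Real.log (B' (l1 r z)) + q * Real.log (C' z.2)) *
            (((√(2 * π))⁻¹) ^ 2 * exp (-(p * a ^ 2 + p * bb ^ 2 + q * c ^ 2) / 2)) := by
          rw [hg2, hL, mul_left_comm, mul_left_comm (exp _), ← exp_add, ← exp_add]
          congr 2; ring
      _ ≤ |(DΘ z).det| * g2 (Θ z) := by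
          rw [hg2 (Θ z)]
          gcongr
  calc ∫⁻ z, ENNReal.ofReal (exp (logProd r f0 f1 fd z) * g2 z)
      ≤ ∫⁻ z in univ, ENNReal.ofReal |(DΘ z).det| * ENNReal.ofReal (g2 (Θ z)) := by
        rw [setLIntegral_univ]
        refine lintegral_mono fun z => ?_
        rw [← ENNReal.ofReal_mul (abs_nonneg _)]
        exact ENNReal.ofReal_le_ofReal (hpt z)
    _ = ∫⁻ w in Θ '' univ, ENNReal.ofReal (g2 w) :=
        (lintegral_image_eq_lintegral_abs_det_fderiv_mul volume MeasurableSet.univ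
          (fun z _ => (hderiv z).hasFDerivWithinAt) hinj fun w => ENNReal.ofReal (g2 w)).symm
    _ ≤ ∫⁻ w, ENNReal.ofReal (g2 w) := setLIntegral_le_lintegral _ _
    _ = 1 := by
        rw [← ofReal_integral_eq_lintegral_ofReal integrable_g2
          (Eventually.of_forall fun w => (g2_pos w).le), integral_g2, ENNReal.ofReal_one]

/-- Entropy form: relative entropy of a plane density dominates the three directional ones. -/
theorem entropy_bl {f0 f1 fd : ℝ → ℝ} (h0 : Continuous f0) (h1 : Continuous f1)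
    (hd : Continuous fd) {a b : ℝ} (ha : 0 < a) (a0 : ∀ t, a ≤ f0 t) (a1 : ∀ t, a ≤ f1 t)
    (ad : ∀ t, a ≤ fd t) (b0 : ∀ t, f0 t ≤ b) (b1 : ∀ t, f1 t ≤ b) (bd : ∀ t, fd t ≤ b)
    (i0 : ∫ t, f0 t * g t = 1) (i1 : ∫ t, f1 t * g t = 1) (id' : ∫ t, fd t * g t = 1)
    {φ : ℝ × ℝ → ℝ} (hφ : Continuous φ) (aφ : ∀ z, a ≤ φ z) (bφ : ∀ z, φ z ≤ b)
    (iφ : ∫ z, φ z * g2 z = 1) :
    1 / (1 + r) * (∫ z, φ z * Real.log (f0 (l0 r z)) * g2 z) +
      1 / (1 + r) * (∫ z, φ z * Real.log (f1 (l1 r z)) * g2 z) +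
      2 * r / (1 + r) * (∫ z, φ z * Real.log (fd z.2) * g2 z) ≤
      ∫ z, φ z * Real.log (φ z) * g2 z := by
  have pos : ∀ {f : ℝ → ℝ}, (∀ t, a ≤ f t) → ∀ t, 0 < f t := fun h t => ha.trans_le (h t)
  have hb0 : 0 ≤ b := ha.le.trans ((a0 0).trans (b0 0))
  have pφ : ∀ z, 0 < φ z := fun z => ha.trans_le (aφ z)
  have bnd : ∀ t, a ≤ t → t ≤ b → |Real.log t| ≤ |Real.log a| + |Real.log b| := fun t h1 h2 => by
    have := Real.log_le_log ha h1
    have := Real.log_le_log (ha.trans_le h1) h2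
    rw [abs_le]
    constructor <;>
      linarith [neg_abs_le (Real.log a), le_abs_self (Real.log b), abs_nonneg (Real.log a),
        abs_nonneg (Real.log b)]
  have int : ∀ u : ℝ × ℝ → ℝ, Continuous u → (∀ z, a ≤ u z) → (∀ z, u z ≤ b) →
      Integrable fun z => φ z * Real.log (u z) * g2 z := by
    intro u hu au bu
    refine integrable_g2.bdd_mul (c := b * (|Real.log a| + |Real.log b|))
      (hφ.mul (hu.log fun z => (ha.trans_le (au z)).ne')).aestronglyMeasurable
      (Eventually.of_forall fun z => ?_)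
    rw [Real.norm_eq_abs, abs_mul, abs_of_pos (pφ z)]
    exact mul_le_mul (bφ z) (bnd _ (au z) (bu z)) (abs_nonneg _) hb0
  have c0 : Continuous fun z => f0 (l0 r z) := h0.comp (by unfold l0; fun_prop)
  have c1 : Continuous fun z => f1 (l1 r z) := h1.comp (by unfold l1; fun_prop)
  have cd : Continuous fun z : ℝ × ℝ => fd z.2 := hd.comp continuous_snd
  have I0 := int _ c0 (fun z => a0 _) (fun z => b0 _)
  have I1 := int _ c1 (fun z => a1 _) (fun z => b1 _)
  have Id := int _ cd (fun z => ad _) (fun z => bd _)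
  have Iφ := int φ hφ aφ bφ
  have hBL := lintegral_logProd_le hr0 hr1 h0 h1 hd (pos a0) (pos a1) (pos ad) b0 b1 bd i0 i1 id'
  set L := logProd r f0 f1 fd
  have hLc : Continuous L := continuous_logProd h0 h1 hd (pos a0) (pos a1) (pos ad)
  have hEint : Integrable fun z => exp (L z) * g2 z := by
    refine ⟨(hLc.rexp.mul continuous_g2).aestronglyMeasurable, ?_⟩
    rw [hasFiniteIntegral_iff_ofReal (Eventually.of_forall fun z => by
      have := g2_pos z; positivity)]
    exact hBL.trans_lt ENNReal.one_lt_top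
  have hE : ∫ z, exp (L z) * g2 z ≤ 1 := by
    rw [← ofReal_integral_eq_lintegral_ofReal hEint (Eventually.of_forall fun z => by
      have := g2_pos z; positivity)] at hBL
    exact ENNReal.ofReal_le_one.mp hBL
  have hφg : Integrable fun z => φ z * g2 z :=
    integrable_g2.bdd_mul (c := b) hφ.aestronglyMeasurable
      (Eventually.of_forall fun z => by rw [Real.norm_eq_abs, abs_of_pos (pφ z)]; exact bφ z)
  have hsum : (fun z => φ z * L z * g2 z) = fun z =>
      1 / (1 + r) * (φ z * Real.log (f0 (l0 r z)) * g2 z) +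
      1 / (1 + r) * (φ z * Real.log (f1 (l1 r z)) * g2 z) +
      2 * r / (1 + r) * (φ z * Real.log (fd z.2) * g2 z) := funext fun z => by
    simp only [L, logProd]; ring
  have key : ∀ z, φ z * L z * g2 z ≤
      φ z * Real.log (φ z) * g2 z + (exp (L z) * g2 z - φ z * g2 z) := by
    intro z
    have h := Real.add_one_le_exp (L z - Real.log (φ z))
    rw [exp_sub, exp_log (pφ z), le_div_iff₀ (pφ z)] at h
    have := mul_le_mul_of_nonneg_right h (g2_pos z).le
    nlinarith
  have hdiff : Integrable fun z => exp (L z) * g2 z - φ z * g2 z := Integrable.sub hEint hφg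
  calc 1 / (1 + r) * (∫ z, φ z * Real.log (f0 (l0 r z)) * g2 z) +
        1 / (1 + r) * (∫ z, φ z * Real.log (f1 (l1 r z)) * g2 z) +
        2 * r / (1 + r) * (∫ z, φ z * Real.log (fd z.2) * g2 z)
      = ∫ z, φ z * L z * g2 z := by
        rw [hsum, integral_add ((I0.const_mul _).fun_add (I1.const_mul _)) (Id.const_mul _),
          integral_add (I0.const_mul _) (I1.const_mul _), integral_const_mul, integral_const_mul,
          integral_const_mul]
    _ ≤ ∫ z, (φ z * Real.log (φ z) * g2 z + (exp (L z) * g2 z - φ z * g2 z)) :=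
        integral_mono (hsum ▸ ((I0.const_mul _).fun_add (I1.const_mul _)).fun_add (Id.const_mul _))
          (Iφ.fun_add hdiff) key
    _ ≤ _ := by
        rw [integral_add Iφ hdiff, integral_sub hEint hφg, iφ]
        linarith

end Main

end Vale.Agent.P047.Disproof.BL
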