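import Vale.Agent.P047.Disproof.Entropy

/-!
Entropy of measures with continuous positive densities on a compact group, and the data
processing inequality for additive noise.
-/

namespace Vale.Agent.P047.Disproof.Loc

open MeasureTheory InformationTheory
open Real (log log_mul log_div log_le_sub_one_of_pos)
open scoped MeasureTheory ENNReal

/-- Convolution with a measure having a density. -/
lemma conv_withDensity {H : Type*} [AddCommGroup H] [MeasurableSpace H] [MeasurableAdd₂ H]
    [MeasurableNeg H] (m : Measure H) [SFinite m] [m.IsAddLeftInvariant] (ν : Measure H)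
    [SFinite ν] {f : H → ℝ≥0∞} (hf : Measurable f) :
    ν ∗ m.withDensity f = m.withDensity fun y => ∫⁻ z, f (y - z) ∂ν := by
  have hsub : Measurable fun q : H × H => f (q.1 - q.2) := by
    simp_rw [sub_eq_add_neg]; fun_prop
  refine Measure.ext_of_lintegral _ fun φ hφ => ?_
  rw [Measure.lintegral_conv hφ,
    lintegral_withDensity_eq_lintegral_mul _ hsub.lintegral_prod_right' hφ]
  calc ∫⁻ z, ∫⁻ y, φ (z + y) ∂m.withDensity f ∂ν
      = ∫⁻ z, ∫⁻ y, f (y - z) * φ y ∂m ∂ν := lintegral_congr fun z => by
        rw [lintegral_withDensity_eq_lintegral_mul _ hf (by fun_prop),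
          ← lintegral_add_left_eq_self (fun y => f (y - z) * φ y) z]
        simp
    _ = ∫⁻ y, ∫⁻ z, f (y - z) * φ y ∂ν ∂m := lintegral_lintegral_swap (by
        exact ((hsub.comp measurable_swap).mul (hφ.comp measurable_snd)).aemeasurable)
    _ = _ := lintegral_congr fun y => by
        rw [Pi.mul_apply, lintegral_mul_const]
        exact hsub.comp measurable_prodMk_left

section Basic

variable {G : Type*} [MeasureSpace G]

/-- Differential entropy relative to the reference measure. -/
noncomputable def ent (μ : Measure G) : ℝ := -(klDiv μ volume).toReal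

/-- A continuous positive density. -/
structure HasDens [TopologicalSpace G] (μ : Measure G) (p : G → ℝ) : Prop where
  cont : Continuous p
  pos : ∀ y, 0 < p y
  eq : μ = volume.withDensity fun y => ENNReal.ofReal (p y)

variable [TopologicalSpace G] [CompactSpace G] [BorelSpace G] [SecondCountableTopology G]

lemma integrable_cont {X : Type*} [TopologicalSpace X] [CompactSpace X] [MeasurableSpace X]
    [OpensMeasurableSpace X] (μ : Measure X) [IsFiniteMeasure μ] {f : X → ℝ} (hf : Continuous f) :
    Integrable f μ :=
  hf.integrable_of_hasCompactSupport (HasCompactSupport.of_compactSpace f)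

variable [IsProbabilityMeasure (volume : Measure G)]

omit [CompactSpace G] [SecondCountableTopology G] [IsProbabilityMeasure (volume : Measure G)] in
lemma HasDens.integral {μ : Measure G} {p : G → ℝ} (h : HasDens μ p) (f : G → ℝ) :
    ∫ y, f y ∂μ = ∫ y, p y * f y := by
  have hm : Measurable fun y => ENNReal.ofReal (p y) :=
    ENNReal.measurable_ofReal.comp h.cont.measurable
  rw [h.eq, integral_withDensity_eq_integral_toReal_smul hm
    (Filter.Eventually.of_forall fun _ => ENNReal.ofReal_lt_top)]
  simp [ENNReal.toReal_ofReal (h.pos _).le]

lemma HasDens.integral_one {μ : Measure G} [IsProbabilityMeasure μ] {p : G → ℝ}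
    (h : HasDens μ p) : ∫ y, p y = 1 := by
  simpa using (h.integral fun _ => (1 : ℝ)).symm

lemma HasDens.ent_eq {μ : Measure G} [IsProbabilityMeasure μ] {p : G → ℝ} (h : HasDens μ p) :
    ent μ = -∫ y, p y * log (p y) := by
  have hm : Measurable fun y => ENNReal.ofReal (p y) :=
    ENNReal.measurable_ofReal.comp h.cont.measurable
  have hac : μ ≪ volume := h.eq ▸ withDensity_absolutelyContinuous _ _
  rw [ent, toReal_klDiv_of_measure_eq hac (by simp), ← h.integral fun y => log (p y)]
  congr 1
  refine integral_congr_ae (hac.ae_le ?_)
  filter_upwards [h.eq ▸ Measure.rnDeriv_withDensity volume hm] with y hy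
  simp [llr, hy, ENNReal.toReal_ofReal (h.pos y).le]

omit [CompactSpace G] [SecondCountableTopology G] [IsProbabilityMeasure (volume : Measure G)] in
lemma HasDens.unique [(volume : Measure G).IsOpenPosMeasure] {μ : Measure G}
    [IsProbabilityMeasure μ] {p q : G → ℝ} (hp : HasDens μ p) (hq : HasDens μ q) : p = q := by
  have hne : ∫⁻ y, ENNReal.ofReal (p y) ≠ ⊤ := by
    rw [← setLIntegral_univ, ← withDensity_apply _ MeasurableSet.univ, ← hp.eq]; simp
  have hh := (withDensity_eq_iff (ENNReal.measurable_ofReal.comp hp.cont.measurable).aemeasurable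
    (ENNReal.measurable_ofReal.comp hq.cont.measurable).aemeasurable hne).1 (hp.eq.symm.trans hq.eq)
  refine (hp.cont.ae_eq_iff_eq volume hq.cont).1 ?_
  filter_upwards [hh] with y hy
  exact (ENNReal.ofReal_eq_ofReal_iff (hp.pos y).le (hq.pos y).le).1 hy

/-- Subadditivity of entropy along two maps forming a measure preserving pair. -/
lemma ent_le_add {A B : Type*} [MeasureSpace A] [TopologicalSpace A] [CompactSpace A]
    [BorelSpace A] [SecondCountableTopology A] [IsProbabilityMeasure (volume : Measure A)]
    [MeasureSpace B] [TopologicalSpace B] [CompactSpace B] [BorelSpace B]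
    [SecondCountableTopology B] [IsProbabilityMeasure (volume : Measure B)]
    {μ : Measure G} [IsProbabilityMeasure μ] {p : G → ℝ} (hp : HasDens μ p)
    {e : G → A} {e' : G → B} (he : Continuous e) (he' : Continuous e')
    (hee : MeasurePreserving (fun y => (e y, e' y)) (volume : Measure G)
      ((volume : Measure A).prod (volume : Measure B)))
    {pa : A → ℝ} {pb : B → ℝ} (ha : HasDens (μ.map e) pa) (hb : HasDens (μ.map e') pb) :
    ent μ ≤ ent (μ.map e) + ent (μ.map e') := by
  have : IsProbabilityMeasure (μ.map e) := Measure.isProbabilityMeasure_map he.aemeasurable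
  have : IsProbabilityMeasure (μ.map e') := Measure.isProbabilityMeasure_map he'.aemeasurable
  have e1 : ∫ a, pa a * log (pa a) = ∫ y, log (pa (e y)) ∂μ := by
    rw [← ha.integral fun a => log (pa a), integral_map he.aemeasurable]
    exact (ha.cont.log fun a => (ha.pos a).ne').aestronglyMeasurable
  have e2 : ∫ b, pb b * log (pb b) = ∫ y, log (pb (e' y)) ∂μ := by
    rw [← hb.integral fun a => log (pb a), integral_map he'.aemeasurable]
    exact (hb.cont.log fun a => (hb.pos a).ne').aestronglyMeasurable
  have hq : ∫ y, pa (e y) * pb (e' y) = 1 := by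
    have := integral_map (φ := fun y => (e y, e' y)) (μ := (volume : Measure G))
      (f := fun q : A × B => pa q.1 * pb q.2) hee.measurable.aemeasurable
      ((ha.cont.comp continuous_fst).mul (hb.cont.comp continuous_snd)).aestronglyMeasurable
    rw [hee.map_eq] at this
    rw [← this, integral_prod_mul, ha.integral_one, hb.integral_one, mul_one]
  rw [hp.ent_eq, ha.ent_eq, hb.ent_eq, e1, e2, hp.integral fun y => log (pa (e y)),
    hp.integral fun y => log (pb (e' y)), ← neg_add, neg_le_neg_iff]
  have hla : Continuous fun y => log (pa (e y)) :=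
    (ha.cont.comp he).log fun a => (ha.pos _).ne'
  have hlb : Continuous fun y => log (pb (e' y)) :=
    (hb.cont.comp he').log fun a => (hb.pos _).ne'
  have hlp : Continuous fun y => log (p y) := hp.cont.log fun a => (hp.pos a).ne'
  rw [← integral_add (f := fun y => p y * log (pa (e y))) (g := fun y => p y * log (pb (e' y)))
    (integrable_cont _ (hp.cont.mul hla)) (integrable_cont _ (hp.cont.mul hlb)), ← sub_nonneg,
    ← integral_sub (f := fun y => p y * log (p y))
      (g := fun y => p y * log (pa (e y)) + p y * log (pb (e' y)))
      (integrable_cont _ (hp.cont.mul hlp))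
      (integrable_cont _ ((hp.cont.mul hla).add (hp.cont.mul hlb)))]
  have h0 : ∫ y, (p y - pa (e y) * pb (e' y)) = 0 := by
    rw [integral_sub (f := fun y => p y) (g := fun y => pa (e y) * pb (e' y))
      (integrable_cont _ hp.cont)
      (integrable_cont _ ((ha.cont.comp he).mul (hb.cont.comp he'))), hp.integral_one, hq, sub_self]
  rw [← h0]
  refine integral_mono (integrable_cont _ (hp.cont.sub ((ha.cont.comp he).mul (hb.cont.comp he'))))
    (integrable_cont _ ((hp.cont.mul hlp).sub ((hp.cont.mul hla).add (hp.cont.mul hlb)))) fun y => ?_
  have h := log_le_sub_one_of_pos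
    (div_pos (mul_pos (ha.pos (e y)) (hb.pos (e' y))) (hp.pos y))
  rw [log_div (mul_pos (ha.pos _) (hb.pos _)).ne' (hp.pos y).ne',
    log_mul (ha.pos _).ne' (hb.pos _).ne'] at h
  have h' := mul_le_mul_of_nonneg_left h (hp.pos y).le
  rw [mul_sub (p y) (_ / _), mul_div_cancel₀ _ (hp.pos y).ne'] at h'
  dsimp
  linarith

end Basic

section Group

variable {G : Type*} [AddCommGroup G] [MeasureSpace G] [TopologicalSpace G] [IsTopologicalAddGroup G]
  [CompactSpace G] [BorelSpace G] [SecondCountableTopology G]
  [IsProbabilityMeasure (volume : Measure G)] [(volume : Measure G).IsAddLeftInvariant]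

/-- Density after adding an independent variable. -/
noncomputable def dens (σ : Measure G) (g : G → ℝ) (y : G) : ℝ := ∫ x, g (y - x) ∂σ

lemma HasDens.conv {ν : Measure G} {g : G → ℝ} (h : HasDens ν g) (σ : Measure G)
    [IsProbabilityMeasure σ] : HasDens (σ ∗ ν) (dens σ g) := by
  refine ⟨?_, fun y => ?_, ?_⟩
  · obtain ⟨C, hC⟩ := isCompact_univ.exists_bound_of_continuousOn h.cont.continuousOn
    exact continuous_of_dominated (fun y => (h.cont.comp (by fun_prop)).aestronglyMeasurable)
      (fun y => Filter.Eventually.of_forall fun x => hC _ (Set.mem_univ _)) (integrable_const C)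
      (Filter.Eventually.of_forall fun x => h.cont.comp (by fun_prop))
  · obtain ⟨z, -, hz⟩ := isCompact_univ.exists_isMinOn Set.univ_nonempty h.cont.continuousOn
    refine (h.pos z).trans_le ?_
    calc g z = ∫ _, g z ∂σ := by simp
      _ ≤ dens σ g y := integral_mono (integrable_const _)
          (integrable_cont _ (h.cont.comp (by fun_prop))) fun x => hz (Set.mem_univ _)
  · have hm : Measurable fun y => ENNReal.ofReal (g y) :=
      ENNReal.measurable_ofReal.comp h.cont.measurable
    rw [h.eq, conv_withDensity volume σ hm]
    congr 1
    funext y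
    exact (ofReal_integral_eq_lintegral_ofReal (f := fun x => g (y - x))
      (integrable_cont _ (h.cont.comp (by fun_prop)))
      (Filter.Eventually.of_forall fun x => (h.pos _).le)).symm

omit [AddCommGroup G] [IsTopologicalAddGroup G] [(volume : Measure G).IsAddLeftInvariant] in
lemma swap_integral {σ : Measure G} [IsProbabilityMeasure σ] {f : G × G → ℝ} (hf : Continuous f) :
    ∫ x, ∫ y, f (x, y) ∂(volume : Measure G) ∂σ = ∫ y, ∫ x, f (x, y) ∂σ ∂(volume : Measure G) :=
  integral_integral_swap (integrable_cont _ hf)

/-- Mutual information of a shift and its noisy observation. -/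
lemma ent_conv_sub {σ ν : Measure G} [IsProbabilityMeasure σ] [IsProbabilityMeasure ν] {g : G → ℝ}
    (h : HasDens ν g) : ent (σ ∗ ν) - ent ν
      = ∫ x, ∫ y, g (y - x) * (log (g (y - x)) - log (dens σ g y)) ∂(volume : Measure G) ∂σ := by
  have hp := h.conv σ
  have hl : Continuous fun y => log (g y) := h.cont.log fun y => (h.pos y).ne'
  have hlp : Continuous fun y => log (dens σ g y) := hp.cont.log fun y => (hp.pos y).ne'
  have i1 : ∀ x, Integrable (fun y => g (y - x) * log (g (y - x))) := fun x =>
    integrable_cont _ ((h.cont.mul hl).comp (by fun_prop : Continuous fun y => y - x))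
  have i2 : ∀ x, Integrable (fun y => g (y - x) * log (dens σ g y)) := fun x =>
    integrable_cont _ ((h.cont.comp (by fun_prop : Continuous fun y => y - x)).mul hlp)
  have c2 : Continuous fun q : G × G => g (q.2 - q.1) * log (dens σ g q.2) :=
    (h.cont.comp (by fun_prop)).mul (hlp.comp continuous_snd)
  simp only [mul_sub]
  rw [integral_congr_ae (Filter.Eventually.of_forall fun x => integral_sub (i1 x) (i2 x)),
    integral_sub (f := fun x => ∫ y, g (y - x) * log (g (y - x)))
      (g := fun x => ∫ y, g (y - x) * log (dens σ g y)),
    swap_integral (f := fun q : G × G => g (q.2 - q.1) * log (dens σ g q.2)) c2]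
  · simp only [integral_mul_const, integral_sub_right_eq_self fun y => g y * log (g y)]
    rw [hp.ent_eq, h.ent_eq]
    simp [dens]
    ring
  · exact (integrable_cont (σ.prod (volume : Measure G))
      ((h.cont.mul hl).comp (by fun_prop : Continuous fun q : G × G => q.2 - q.1))).integral_prod_left
  · exact (integrable_cont (σ.prod (volume : Measure G)) c2).integral_prod_left

/-- Adding noise raises entropy. -/
lemma ent_le_ent_conv {σ ν : Measure G} [IsProbabilityMeasure σ] [IsProbabilityMeasure ν]
    {g : G → ℝ} (h : HasDens ν g) : ent ν ≤ ent (σ ∗ ν) := by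
  rw [← sub_nonneg, ent_conv_sub h]
  refine integral_nonneg fun x => ?_
  have hp := h.conv σ
  have c1 : Continuous fun y => g (y - x) := h.cont.comp (by fun_prop)
  have h0 : (0 : ℝ) = ∫ y, (g (y - x) - dens σ g y) := by
    rw [integral_sub (integrable_cont _ c1) (integrable_cont _ hp.cont),
      integral_sub_right_eq_self g, h.integral_one, hp.integral_one, sub_self]
  rw [Pi.zero_apply, h0]
  refine integral_mono (integrable_cont _ (c1.sub hp.cont)) (integrable_cont _ (c1.mul
    ((c1.log fun y => (h.pos _).ne').sub (hp.cont.log fun y => (hp.pos y).ne')))) fun y => ?_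
  have ha := h.pos (y - x)
  have h1 := mul_le_mul_of_nonneg_left (log_le_sub_one_of_pos (div_pos (hp.pos y) ha)) ha.le
  rw [log_div (hp.pos y).ne' ha.ne', mul_sub (g (y - x)) (_ / _), mul_div_cancel₀ _ ha.ne'] at h1
  dsimp
  linarith

/-- Data processing: additional independent noise lowers the mutual information. -/
lemma ent_conv_conv_le [(volume : Measure G).IsOpenPosMeasure] {σ ν ρ : Measure G}
    [IsProbabilityMeasure σ] [IsProbabilityMeasure ν] [IsProbabilityMeasure ρ] {g : G → ℝ}
    (h : HasDens ν g) :
    ent (σ ∗ (ν ∗ ρ)) - ent (ν ∗ ρ) ≤ ent (σ ∗ ν) - ent ν := by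
  have hp := h.conv σ
  have hg' : HasDens (ν ∗ ρ) (dens ρ g) := Measure.conv_comm ρ ν ▸ h.conv ρ
  have hp1 := hp.conv ρ
  have hp2 := hg'.conv σ
  have hp' : dens σ (dens ρ g) = dens ρ (dens σ g) := by
    refine hp2.unique (?_ : HasDens _ _)
    rwa [← Measure.conv_assoc, Measure.conv_comm]
  rw [ent_conv_sub h, ent_conv_sub hg']
  refine integral_mono ?_ ?_ fun x => ?_
  · have c : Continuous fun q : G × G =>
        dens ρ g (q.2 - q.1) * (log (dens ρ g (q.2 - q.1)) - log (dens σ (dens ρ g) q.2)) := by
      have c1 : Continuous fun q : G × G => dens ρ g (q.2 - q.1) := hg'.cont.comp (by fun_prop)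
      exact c1.mul ((c1.log fun q => (hg'.pos _).ne').sub
        ((hp2.cont.comp continuous_snd).log fun q => (hp2.pos _).ne'))
    exact (integrable_cont (σ.prod (volume : Measure G)) c).integral_prod_left
  · have c : Continuous fun q : G × G =>
        g (q.2 - q.1) * (log (g (q.2 - q.1)) - log (dens σ g q.2)) := by
      have c1 : Continuous fun q : G × G => g (q.2 - q.1) := h.cont.comp (by fun_prop)
      exact c1.mul ((c1.log fun q => (h.pos _).ne').sub
        ((hp.cont.comp continuous_snd).log fun q => (hp.pos _).ne'))
    exact (integrable_cont (σ.prod (volume : Measure G)) c).integral_prod_left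
  have c1 : Continuous fun y => g (y - x) := h.cont.comp (by fun_prop)
  have hA : Continuous fun y => g (y - x) * (log (g (y - x)) - log (dens σ g y)) :=
    c1.mul ((c1.log fun y => (h.pos _).ne').sub (hp.cont.log fun y => (hp.pos y).ne'))
  have c2 : Continuous fun y => dens ρ g (y - x) := hg'.cont.comp (by fun_prop)
  calc ∫ y, dens ρ g (y - x) * (log (dens ρ g (y - x)) - log (dens σ (dens ρ g) y))
      ≤ ∫ y, ∫ z, g (y - z - x) * (log (g (y - z - x)) - log (dens σ g (y - z))) ∂ρ := by
        refine integral_mono (integrable_cont _ (c2.mul ((c2.log fun y => (hg'.pos _).ne').sub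
          (hp2.cont.log fun y => (hp2.pos y).ne'))))
          (integrable_cont ((volume : Measure G).prod ρ)
            (hA.comp (by fun_prop : Continuous fun q : G × G => q.1 - q.2))).integral_prod_left
          fun y => ?_
        simp only [hp']
        set U := dens ρ g (y - x) with hU
        set W := dens ρ (dens σ g) y with hW
        have hUp : 0 < U := hg'.pos _
        have hWp : 0 < W := hp1.pos _
        have cu : Continuous fun z => g (y - z - x) := h.cont.comp (by fun_prop)
        have cw : Continuous fun z => dens σ g (y - z) := hp.cont.comp (by fun_prop)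
        have iU : ∫ z, g (y - z - x) ∂ρ = U := by
          simp only [hU, dens]; exact integral_congr_ae (Filter.Eventually.of_forall fun z => by
            simp [sub_right_comm])
        have iW : ∫ z, dens σ g (y - z) ∂ρ = W := rfl
        calc U * (log U - log W)
            = ∫ z, (g (y - z - x) * (log U - log W) + g (y - z - x)
                - U / W * dens σ g (y - z)) ∂ρ := by
              rw [integral_sub
                  (f := fun z => g (y - z - x) * (log U - log W) + g (y - z - x))
                  (g := fun z => U / W * dens σ g (y - z))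
                  ((integrable_cont ρ (cu.mul continuous_const)).add
                  (integrable_cont ρ cu)) (integrable_cont ρ (continuous_const.mul cw)),
                integral_add (f := fun z => g (y - z - x) * (log U - log W))
                  (g := fun z => g (y - z - x))
                  (integrable_cont ρ (cu.mul continuous_const)) (integrable_cont ρ cu),
                integral_mul_const, integral_const_mul, iU, iW, div_mul_cancel₀ _ hWp.ne']
              ring
          _ ≤ _ := by
              refine integral_mono (integrable_cont _ (((cu.mul continuous_const).add cu).sub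
                (continuous_const.mul cw))) (integrable_cont _
                (hA.comp (by fun_prop : Continuous fun z => y - z))) fun z => ?_
              have hu := h.pos (y - z - x)
              have hw := hp.pos (y - z)
              have h1 := mul_le_mul_of_nonneg_left (log_le_sub_one_of_pos
                (div_pos (mul_pos (div_pos hUp hWp) hw) hu)) hu.le
              rw [log_div (by positivity) hu.ne', log_mul (by positivity) hw.ne',
                log_div hUp.ne' hWp.ne', mul_sub (g _) (_ / _),
                mul_div_cancel₀ _ hu.ne'] at h1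
              dsimp
              linarith
    _ = ∫ y, g (y - x) * (log (g (y - x)) - log (dens σ g y)) := by
        rw [← swap_integral (f := fun q : G × G => g (q.2 - q.1 - x) *
          (log (g (q.2 - q.1 - x)) - log (dens σ g (q.2 - q.1))))
          (hA.comp (by fun_prop : Continuous fun q : G × G => q.2 - q.1))]
        simp only [integral_sub_right_eq_self
          fun y => g (y - x) * (log (g (y - x)) - log (dens σ g y))]
        simp

end Group

end Vale.Agent.P047.Disproof.Loc
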