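import Vale.Agent.P047.Disproof.LocalEnt

/-!
Wrapped Gaussians: densities, semigroup and linear image identities, entropy estimates.
-/

namespace Vale.Agent.P047.Disproof.Loc

open MeasureTheory ProbabilityTheory InformationTheory
open Real (exp log sqrt log_mul log_inv)
open scoped MeasureTheory ENNReal NNReal

/-- The two dimensional torus. -/
abbrev T2 := Tor × Tor

instance instProbTor : IsProbabilityMeasure (volume : Measure Tor) :=
  ⟨UnitAddCircle.measure_univ⟩

instance instInvT2 : (volume : Measure T2).IsAddLeftInvariant :=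
  Measure.prod.instIsAddLeftInvariant

/-- Centred Gaussian on the line. -/
noncomputable abbrev gR (v : ℝ) : Measure ℝ := gaussianReal 0 v.toNNReal

/-- Its density. -/
noncomputable def gam (v x : ℝ) : ℝ := gaussianPDFReal 0 v.toNNReal x

lemma gam_eq {v : ℝ} (hv : 0 < v) (x : ℝ) :
    gam v x = (sqrt (2 * Real.pi * v))⁻¹ * exp (-x ^ 2 / (2 * v)) := by
  simp [gam, gaussianPDFReal, Real.coe_toNNReal v hv.le]

lemma gam_pos {v : ℝ} (hv : 0 < v) (x : ℝ) : 0 < gam v x :=
  gaussianPDFReal_pos _ _ _ (Real.toNNReal_pos.2 hv).ne'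

lemma gam_cont (v : ℝ) : Continuous (gam v) := by
  unfold gam gaussianPDFReal; fun_prop

lemma gam_integrable (v : ℝ) : Integrable (gam v) := integrable_gaussianPDFReal _ _

lemma log_gam {v : ℝ} (hv : 0 < v) (x : ℝ) :
    log (gam v x) = -(log (2 * Real.pi * v) / 2) - x ^ 2 / (2 * v) := by
  rw [gam_eq hv, log_mul (by positivity) (Real.exp_pos _).ne', log_inv,
    Real.log_sqrt (by positivity), Real.log_exp]
  ring

lemma integral_gR {v : ℝ} (hv : 0 < v) (f : ℝ → ℝ) :
    ∫ x, f x ∂gR v = ∫ x, gam v x * f x :=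
  (integral_gaussianReal_eq_integral_smul (Real.toNNReal_pos.2 hv).ne').trans (by rfl)

lemma gR_eq {v : ℝ} (hv : 0 < v) :
    gR v = volume.withDensity fun x => ENNReal.ofReal (gam v x) :=
  gaussianReal_of_var_ne_zero 0 (Real.toNNReal_pos.2 hv).ne'

lemma integrable_sq_gR (v : ℝ) : Integrable (fun x : ℝ => x ^ 2) (gR v) := by
  simpa using (memLp_id_gaussianReal (μ := 0) (v := v.toNNReal) 2).integrable_sq

lemma integral_sq_gR {v : ℝ} (hv : 0 ≤ v) : ∫ x, x ^ 2 ∂gR v = v := by
  have h := variance_fun_id_gaussianReal (μ := (0 : ℝ)) (v := v.toNNReal)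
  rw [variance_eq_integral measurable_id'.aemeasurable] at h
  simpa [integral_id_gaussianReal, Real.coe_toNNReal v hv] using h

lemma integral_log_gam {v : ℝ} (hv : 0 < v) : ∫ x, log (gam v x) ∂gR v = -gEnt v := by
  simp only [log_gam hv]
  rw [integral_sub (integrable_const _) ((integrable_sq_gR v).div_const _), integral_div,
    integral_sq_gR hv.le, integral_const]
  simp only [probReal_univ, one_smul]
  rw [gEnt, show 2 * Real.pi * Real.exp 1 * v = 2 * Real.pi * v * Real.exp 1 by ring,
    log_mul (by positivity) (Real.exp_pos _).ne', Real.log_exp]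
  field_simp
  ring

/-- Periodised Gaussian density. -/
noncomputable def gT (v : ℝ) (a : Tor) : ℝ :=
  HurwitzZeta.evenKernel a (1 / (2 * Real.pi * v)) / sqrt (2 * Real.pi * v)

lemma gT_hasSum {v : ℝ} (hv : 0 < v) (x : ℝ) :
    HasSum (fun n : ℤ => gam v (n + x)) (gT v x) := by
  have h := (HurwitzZeta.hasSum_int_evenKernel x
    (show 0 < 1 / (2 * Real.pi * v) by positivity)).div_const (sqrt (2 * Real.pi * v))
  refine h.congr_fun fun n => ?_
  rw [gam_eq hv, ← div_eq_inv_mul]
  congr 2
  field_simp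

lemma gam_le_gT {v : ℝ} (hv : 0 < v) (x : ℝ) : gam v x ≤ gT v x := by
  simpa using le_hasSum (gT_hasSum hv x) 0 fun n _ => (gam_pos hv _).le

lemma gT_pos {v : ℝ} (hv : 0 < v) (a : Tor) : 0 < gT v a := by
  induction a using QuotientAddGroup.induction_on with
  | H x => exact (gam_pos hv x).trans_le (gam_le_gT hv x)

lemma gT_cont {v : ℝ} (hv : 0 < v) : Continuous (gT v) := by
  unfold gT
  refine Continuous.div_const ?_ _
  set t := 1 / (2 * Real.pi * v)
  have ht : 0 < t := by positivity
  rw [QuotientAddGroup.isQuotientMap_mk _ |>.continuous_iff]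
  have h : ((fun a : Tor => HurwitzZeta.evenKernel a t) ∘ ((↑) : ℝ → Tor)) = fun x : ℝ =>
      (Complex.exp (-Real.pi * (x : ℂ) ^ 2 * t) *
        jacobiTheta₂ (x * Complex.I * t) (Complex.I * t)).re := by
    funext x
    simp only [Function.comp_apply]
    rw [← HurwitzZeta.evenKernel_def, Complex.ofReal_re]
  rw [h]
  have h2 : Continuous fun z : ℂ => jacobiTheta₂ z (Complex.I * t) :=
    continuous_iff_continuousAt.2 fun z =>
      (differentiableAt_jacobiTheta₂_fst z (by simpa using ht)).continuousAt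
  exact Complex.continuous_re.comp
    ((by fun_prop : Continuous fun x : ℝ => Complex.exp (-Real.pi * (x : ℂ) ^ 2 * t)).mul
      (h2.comp (by fun_prop)))

lemma measurable_coe : Measurable ((↑) : ℝ → Tor) := AddCircle.measurable_mk'

lemma noise1_dens {v : ℝ} (hv : 0 < v) : HasDens (noise1 v) (gT v) := by
  refine ⟨gT_cont hv, gT_pos hv, Measure.ext_of_lintegral _ fun φ hφ => ?_⟩
  have hg : Measurable fun x => ENNReal.ofReal (gam v x) :=
    ENNReal.measurable_ofReal.comp (gam_cont v).measurable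
  have hT : Measurable fun a => ENNReal.ofReal (gT v a) :=
    ENNReal.measurable_ofReal.comp (gT_cont hv).measurable
  have hc : Measurable fun x : ℝ => φ x := hφ.comp measurable_coe
  rw [noise1, lintegral_map hφ measurable_coe, ← gR, gR_eq hv,
    lintegral_withDensity_eq_lintegral_mul _ hg hc,
    lintegral_withDensity_eq_lintegral_mul _ hT hφ, ← setLIntegral_univ, ← iUnion_Ioc_intCast ℝ,
    lintegral_iUnion (fun n => measurableSet_Ioc) (Set.pairwise_disjoint_Ioc_intCast ℝ),
    ← UnitAddCircle.lintegral_preimage 0]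
  have hstep : ∀ n : ℤ, ∫⁻ x in Set.Ioc (n : ℝ) (n + 1), ENNReal.ofReal (gam v x) * φ x
      = ∫⁻ x in Set.Ioc (0 : ℝ) 1, ENNReal.ofReal (gam v (n + x)) * φ x := fun n => by
    rw [← (measurePreserving_add_left volume (n : ℝ)).setLIntegral_comp_preimage measurableSet_Ioc
      (f := fun x => ENNReal.ofReal (gam v x) * φ x) (hg.mul hc)]
    rw [show ((n : ℝ) + ·) ⁻¹' Set.Ioc (n : ℝ) (n + 1) = Set.Ioc 0 1 by
      ext x; simp [Set.mem_Ioc]]
    refine lintegral_congr fun x => ?_
    congr 2
    exact (QuotientAddGroup.eq_iff_sub_mem).2 ⟨n, by simp⟩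
  simp only [Pi.mul_apply, hstep, zero_add]
  rw [← lintegral_tsum (f := fun (n : ℤ) (x : ℝ) => ENNReal.ofReal (gam v (n + x)) * φ x)
    fun n => ((hg.comp (measurable_const_add (n : ℝ))).mul hc).aemeasurable]
  refine lintegral_congr fun x => ?_
  rw [ENNReal.tsum_mul_right, ← ENNReal.ofReal_tsum_of_nonneg (fun n => (gam_pos hv _).le)
    (gT_hasSum hv x).summable, (gT_hasSum hv x).tsum_eq]

instance (v : ℝ) : IsProbabilityMeasure (noise1 v) :=
  Measure.isProbabilityMeasure_map measurable_coe.aemeasurable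

/-- A linear form as a homomorphism. -/
noncomputable def linHom (α β : ℝ) : ℝ × ℝ →+ ℝ where
  toFun p := α * p.1 + β * p.2
  map_zero' := by simp
  map_add' p q := by simp; ring

@[simp] lemma linHom_apply (α β : ℝ) (p : ℝ × ℝ) : linHom α β p = α * p.1 + β * p.2 := rfl

lemma measurable_linHom (α β : ℝ) : Measurable (linHom α β) := by
  show Measurable fun p : ℝ × ℝ => α * p.1 + β * p.2
  fun_prop

lemma gR_conv {a b : ℝ} (ha : 0 ≤ a) (hb : 0 ≤ b) : gR a ∗ gR b = gR (a + b) := by
  rw [gR, gR, gR, gaussianReal_conv_gaussianReal, add_zero, ← Real.toNNReal_add ha hb]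

lemma gR_map_mul {a : ℝ} (ha : 0 ≤ a) (c : ℝ) : (gR a).map (c * ·) = gR (c ^ 2 * a) := by
  rw [gR, gaussianReal_map_const_mul, mul_zero, gR]
  congr 1
  ext
  simp [Real.coe_toNNReal _ ha, Real.coe_toNNReal _ (mul_nonneg (sq_nonneg c) ha)]

/-- A linear form of an independent Gaussian pair. -/
lemma prod_map_lin {a b : ℝ} (ha : 0 ≤ a) (hb : 0 ≤ b) (α β : ℝ) :
    ((gR a).prod (gR b)).map (linHom α β) = gR (α ^ 2 * a + β ^ 2 * b) := by
  rw [← gR_conv (by positivity) (by positivity), ← gR_map_mul ha α, ← gR_map_mul hb β, Measure.conv,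
    Measure.map_prod_map _ _ (measurable_const_mul α) (measurable_const_mul β),
    Measure.map_map (by fun_prop) (by fun_prop)]
  rfl

/-- Measures on the plane are determined by their linear images. -/
lemma ext_lin {μ ν : Measure (ℝ × ℝ)} [IsFiniteMeasure μ] [IsFiniteMeasure ν]
    (h : ∀ α β, μ.map (linHom α β) = ν.map (linHom α β)) : μ = ν := by
  refine Measure.ext_of_charFunDual (funext fun L => ?_)
  have hL : ⇑L = ⇑(linHom (L (1, 0)) (L (0, 1))) := by
    funext p
    have : p = p.1 • ((1, 0) : ℝ × ℝ) + p.2 • ((0, 1) : ℝ × ℝ) := by simp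
    conv_lhs => rw [this, map_add, map_smul, map_smul]
    simp [mul_comm]
  rw [charFunDual_eq_charFun_map_one, charFunDual_eq_charFun_map_one, hL, h]

/-- A linear map of the plane given by its entries, as a homomorphism. -/
noncomputable def mat (a b c d : ℝ) : ℝ × ℝ →+ ℝ × ℝ := (linHom a b).prod (linHom c d)

@[simp] lemma mat_apply (a b c d : ℝ) (p : ℝ × ℝ) :
    mat a b c d p = (a * p.1 + b * p.2, c * p.1 + d * p.2) := rfl

lemma measurable_mat (a b c d : ℝ) : Measurable (mat a b c d) :=
  (measurable_linHom a b).prodMk (measurable_linHom c d)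

lemma mat_map_lin (μ : Measure (ℝ × ℝ)) (a b c d α β : ℝ) :
    (μ.map (mat a b c d)).map (linHom α β) = μ.map (linHom (α * a + β * c) (α * b + β * d)) := by
  rw [Measure.map_map (measurable_linHom α β) (measurable_mat a b c d)]
  congr 1
  funext p
  simp
  ring

lemma conv_map_lin (μ ν : Measure (ℝ × ℝ)) [SFinite μ] [SFinite ν] (α β : ℝ) :
    (μ ∗ ν).map (linHom α β) = μ.map (linHom α β) ∗ ν.map (linHom α β) :=
  Measure.map_conv_addMonoidHom _ (measurable_linHom α β)

/-- Periodised Gaussian entropy is at most the Euclidean one. -/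
lemma ent_noise1_le {v : ℝ} (hv : 0 < v) : ent (noise1 v) ≤ gEnt v := by
  have h := noise1_dens hv
  rw [h.ent_eq, ← h.integral fun a => log (gT v a), noise1,
    integral_map measurable_coe.aemeasurable
      ((gT_cont hv).log fun a => (gT_pos hv a).ne').aestronglyMeasurable, neg_le,
    ← integral_log_gam hv]
  refine integral_mono ?_ ?_ fun x => Real.log_le_log (gam_pos hv x) (gam_le_gT hv x)
  · simp only [log_gam hv]
    exact (integrable_const _).sub ((integrable_sq_gR v).div_const _)
  · obtain ⟨C, hC⟩ := isCompact_univ.exists_bound_of_continuousOn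
      ((gT_cont hv).log fun a => (gT_pos hv a).ne').continuousOn
    exact (integrable_const C).mono' (((gT_cont hv).log fun a => (gT_pos hv a).ne').comp
      continuous_quotient_mk').aestronglyMeasurable
      (Filter.Eventually.of_forall fun x => hC _ (Set.mem_univ _))

lemma sum_le_geom {f : ℤ → ℝ} {s q : ℝ} (hq0 : 0 ≤ q) (hq : q ≤ 1 / 3)
    (hf : ∀ n : ℤ, f n ≤ q ^ n.natAbs) (hs : HasSum f s) : s ≤ 1 + 3 * q := by
  have h1 : q < 1 := by linarith
  have hg : HasSum (fun n : ℤ => q ^ n.natAbs) ((1 - q)⁻¹ + q * (1 - q)⁻¹) := by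
    refine HasSum.of_nat_of_neg_add_one ?_ ?_
    · simpa using hasSum_geometric_of_lt_one hq0 h1
    · refine ((hasSum_geometric_of_lt_one hq0 h1).mul_left q).congr_fun fun n => ?_
      rw [show (-((n : ℤ) + 1)).natAbs = n + 1 by omega, pow_succ']
  refine (hasSum_le hf hs hg).trans ?_
  rw [show (1 - q)⁻¹ + q * (1 - q)⁻¹ = (1 + q) / (1 - q) by ring, div_le_iff₀ (by linarith)]
  nlinarith

lemma pow_exp_le {w c : ℝ} {n : ℤ} {y : ℝ} (hw : 0 < w) (hy : c * n.natAbs ≤ y) :
    exp (-y / w) ≤ exp (-c / w) ^ n.natAbs := by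
  rw [← Real.exp_nat_mul, Real.exp_le_exp, ← sub_nonneg]
  have : 0 ≤ (y - c * n.natAbs) / w := div_nonneg (by linarith) hw.le
  linarith [show (n.natAbs : ℝ) * (-c / w) - -y / w = (y - c * n.natAbs) / w by ring]

lemma abs_int_le_sq (n : ℤ) : (n.natAbs : ℝ) ≤ (n : ℝ) ^ 2 := by
  calc (n.natAbs : ℝ) = ((n.natAbs : ℤ) : ℝ) := (Int.cast_natCast _).symm
    _ ≤ ((n ^ 2 : ℤ) : ℝ) := Int.cast_le.2 (Int.natAbs_le_self_sq n)
    _ = (n : ℝ) ^ 2 := Int.cast_pow n 2

lemma exp_neg_small {z : ℝ} (hz : 4 ≤ z) : exp (-z) ≤ 1 / 4 := by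
  rw [Real.exp_neg, inv_le_comm₀ (Real.exp_pos _) (by norm_num)]
  linarith [Real.add_one_le_exp z]

/-- The periodised density is at most twice the peak value. -/
lemma gT_le {w : ℝ} (hw : 0 < w) (hw' : w ≤ 1 / 32) (a : Tor) :
    gT w a ≤ 2 * (sqrt (2 * Real.pi * w))⁻¹ := by
  induction a using QuotientAddGroup.induction_on with
  | H x =>
    set y := x - round x with hy
    have hy' : |y| ≤ 1 / 2 := abs_sub_round x
    have hxy : (x : Tor) = (y : Tor) := by
      refine (QuotientAddGroup.eq_iff_sub_mem).2 ⟨round x, by simp [hy]⟩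
    rw [hxy]
    have hsum := (gT_hasSum hw y).mul_left (sqrt (2 * Real.pi * w))
    have key : sqrt (2 * Real.pi * w) * gT w y ≤ 1 + 3 * exp (-(1 / 8) / w) := by
      refine sum_le_geom (Real.exp_pos _).le ?_ (fun n => ?_) hsum
      · have : exp (-(1 / 8) / w) ≤ 1 / 4 := by
          rw [neg_div]
          exact exp_neg_small (by rw [le_div_iff₀ hw]; linarith)
        linarith
      · rw [gam_eq hw, ← mul_assoc, mul_inv_cancel₀ (by positivity), one_mul,
          show -((n : ℝ) + y) ^ 2 / (2 * w) = -(((n : ℝ) + y) ^ 2 / 2) / w by field_simp]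
        refine pow_exp_le hw ?_
        rcases eq_or_ne n 0 with rfl | hn
        · simp; positivity
        · have h1 : (1 : ℝ) ≤ (n.natAbs : ℝ) := by
            exact_mod_cast Int.natAbs_pos.2 hn
          have h2 : (n.natAbs : ℝ) = |(n : ℝ)| := by rw [← Int.cast_abs, Nat.cast_natAbs]
          have h3 : (n.natAbs : ℝ) / 2 ≤ |(n : ℝ) + y| := by
            have := abs_sub_abs_le_abs_sub (n : ℝ) (-y)
            rw [sub_neg_eq_add, abs_neg] at this
            linarith
          nlinarith [sq_abs ((n : ℝ) + y), mul_self_le_mul_self (by positivity) h3]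
    have h2 : exp (-(1 / 8) / w) ≤ 1 / 4 := by
      rw [neg_div]
      exact exp_neg_small (by rw [le_div_iff₀ hw]; linarith)
    rw [← div_eq_mul_inv, le_div_iff₀ (by positivity)]
    linarith

lemma integral_exp_eighth {w : ℝ} (hw : 0 < w) :
    ∫ x : ℝ, exp (-x ^ 2 / (8 * w)) = 2 * sqrt (2 * Real.pi * w) := by
  have h4 : 0 < 4 * w := by positivity
  have hs : sqrt (2 * Real.pi * (4 * w)) = 2 * sqrt (2 * Real.pi * w) := by
    rw [show 2 * Real.pi * (4 * w) = 2 ^ 2 * (2 * Real.pi * w) by ring,
      Real.sqrt_mul (by norm_num), Real.sqrt_sq (by norm_num)]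
  have h : (fun x : ℝ => exp (-x ^ 2 / (8 * w)))
      = fun x => 2 * sqrt (2 * Real.pi * w) * gam (4 * w) x := by
    funext x
    rw [gam_eq h4, hs, ← mul_assoc, mul_inv_cancel₀ (by positivity), one_mul]
    congr 1
    ring
  rw [h, integral_const_mul]
  simp only [gam]
  rw [integral_gaussianPDFReal_eq_one _ (Real.toNNReal_pos.2 h4).ne', mul_one]

/-- The wrapping costs an exponentially small amount of entropy. -/
lemma ent_noise1_ge {w : ℝ} (hw : 0 < w) (hw' : w ≤ 1 / 128) :
    gEnt w - 8 * exp (-(1 / (50 * w))) ≤ ent (noise1 w) := by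
  have h := noise1_dens hw
  have hl : Continuous fun x : ℝ => log (gT w x) :=
    ((gT_cont hw).log fun a => (gT_pos hw a).ne').comp continuous_quotient_mk'
  obtain ⟨C, hC⟩ := isCompact_univ.exists_bound_of_continuousOn
    ((gT_cont hw).log fun a => (gT_pos hw a).ne').continuousOn
  have i1 : Integrable (fun x : ℝ => log (gT w x)) (gR w) :=
    (integrable_const C).mono' hl.aestronglyMeasurable
      (Filter.Eventually.of_forall fun x => hC _ (Set.mem_univ _))
  have i2 : Integrable (fun x => log (gam w x)) (gR w) := by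
    simp only [log_gam hw]
    exact (integrable_const _).sub ((integrable_sq_gR w).div_const _)
  suffices hd : ∫ x, (log (gT w x) - log (gam w x)) ∂gR w ≤ 8 * exp (-(1 / (50 * w))) by
    rw [integral_sub i1 i2, integral_log_gam hw] at hd
    rw [h.ent_eq, ← h.integral fun a => log (gT w a), noise1,
      integral_map measurable_coe.aemeasurable
        ((gT_cont hw).log fun a => (gT_pos hw a).ne').aestronglyMeasurable]
    linarith
  have hb : ∀ x : ℝ, gam w x * (log (gT w x) - log (gam w x))
      ≤ 4 * (sqrt (2 * Real.pi * w))⁻¹ * exp (-(1 / (50 * w))) * exp (-x ^ 2 / (8 * w)) := by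
    intro x
    have hg := gam_eq hw x
    have hR : 0 < (sqrt (2 * Real.pi * w))⁻¹ := by positivity
    rcases le_or_gt |x| (2 / 5) with hx | hx
    · have hlog : log (gT w x) - log (gam w x) ≤ 3 * exp (-(1 / 10) / w) := by
        rw [← Real.log_div (gT_pos hw _).ne' (gam_pos hw x).ne']
        refine (Real.log_le_sub_one_of_pos (div_pos (gT_pos hw _) (gam_pos hw x))).trans ?_
        have := sum_le_geom (q := exp (-(1 / 10) / w)) (Real.exp_pos _).le ?_ (fun n => ?_)
          ((gT_hasSum hw x).div_const (gam w x))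
        · linarith
        · rw [neg_div]
          linarith [exp_neg_small (show 4 ≤ 1 / 10 / w by rw [le_div_iff₀ hw]; linarith)]
        · rw [gam_eq hw, hg, mul_div_mul_left _ _ hR.ne', ← Real.exp_sub,
            show -((n : ℝ) + x) ^ 2 / (2 * w) - -x ^ 2 / (2 * w)
              = -(((n : ℝ) ^ 2 + 2 * n * x) / 2) / w by field_simp; ring]
          refine pow_exp_le hw ?_
          have h2 : (n.natAbs : ℝ) = |(n : ℝ)| := by rw [← Int.cast_abs, Nat.cast_natAbs]
          have h3 : -(|(n : ℝ)| * (2 / 5)) ≤ n * x := by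
            have := neg_abs_le ((n : ℝ) * x)
            rw [abs_mul] at this
            nlinarith [abs_nonneg (n : ℝ)]
          nlinarith [abs_int_le_sq n]
      calc gam w x * (log (gT w x) - log (gam w x)) ≤ gam w x * (3 * exp (-(1 / 10) / w)) :=
            mul_le_mul_of_nonneg_left hlog (gam_pos hw x).le
        _ ≤ 4 * (sqrt (2 * Real.pi * w))⁻¹ * exp (-(1 / (50 * w))) * exp (-x ^ 2 / (8 * w)) := by
            rw [hg, show (sqrt (2 * Real.pi * w))⁻¹ * exp (-x ^ 2 / (2 * w)) *
                (3 * exp (-(1 / 10) / w)) = 3 * (sqrt (2 * Real.pi * w))⁻¹ *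
                  (exp (-x ^ 2 / (2 * w)) * exp (-(1 / 10) / w)) by ring, ← Real.exp_add,
              mul_assoc (4 * (sqrt (2 * Real.pi * w))⁻¹), ← Real.exp_add]
            refine mul_le_mul (by nlinarith) (Real.exp_le_exp.2 ?_) (Real.exp_pos _).le
              (by positivity)
            rw [← sub_nonneg, show -(1 / (50 * w)) + -x ^ 2 / (8 * w)
              - (-x ^ 2 / (2 * w) + -(1 / 10) / w) = (3 * x ^ 2 / 8 + 2 / 25) / w by
                field_simp; ring]
            positivity
    · have hlog : log (gT w x) - log (gam w x) ≤ 1 + x ^ 2 / (2 * w) := by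
        have h1 := Real.log_le_log (gT_pos hw _) (gT_le hw (by linarith) (x : Tor))
        rw [log_mul two_ne_zero hR.ne', log_inv, Real.log_sqrt (by positivity)] at h1
        rw [log_gam hw]
        linarith [Real.log_two_lt_d9]
      have hz : 1 + x ^ 2 / (2 * w) ≤ 4 * exp (x ^ 2 / (8 * w)) := by
        have := Real.add_one_le_exp (x ^ 2 / (8 * w))
        have h4 : x ^ 2 / (2 * w) = 4 * (x ^ 2 / (8 * w)) := by field_simp; ring
        rw [h4]
        linarith
      calc gam w x * (log (gT w x) - log (gam w x))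
            ≤ gam w x * (4 * exp (x ^ 2 / (8 * w))) :=
            mul_le_mul_of_nonneg_left (hlog.trans hz) (gam_pos hw x).le
        _ ≤ 4 * (sqrt (2 * Real.pi * w))⁻¹ * exp (-(1 / (50 * w))) * exp (-x ^ 2 / (8 * w)) := by
            rw [hg, show (sqrt (2 * Real.pi * w))⁻¹ * exp (-x ^ 2 / (2 * w)) *
                (4 * exp (x ^ 2 / (8 * w))) = 4 * (sqrt (2 * Real.pi * w))⁻¹ *
                  (exp (-x ^ 2 / (2 * w)) * exp (x ^ 2 / (8 * w))) by ring, ← Real.exp_add,
              mul_assoc (4 * (sqrt (2 * Real.pi * w))⁻¹), ← Real.exp_add]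
            refine mul_le_mul_of_nonneg_left (Real.exp_le_exp.2 ?_) (by positivity)
            rw [← sub_nonneg, show -(1 / (50 * w)) + -x ^ 2 / (8 * w)
              - (-x ^ 2 / (2 * w) + x ^ 2 / (8 * w)) = (x ^ 2 / 4 - 1 / 50) / w by
                field_simp; ring]
            refine div_nonneg ?_ hw.le
            nlinarith [sq_abs x, abs_nonneg x]
  rw [integral_gR hw]
  have i3 : Integrable fun x : ℝ => exp (-x ^ 2 / (8 * w)) := by
    by_contra hi
    have := integral_exp_eighth hw
    rw [integral_undef hi] at this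
    have : 0 < 2 * sqrt (2 * Real.pi * w) := by positivity
    linarith
  calc ∫ x, gam w x * (log (gT w x) - log (gam w x))
      ≤ ∫ x : ℝ, 4 * (sqrt (2 * Real.pi * w))⁻¹ * exp (-(1 / (50 * w))) *
          exp (-x ^ 2 / (8 * w)) := by
        refine integral_mono_of_nonneg (Filter.Eventually.of_forall fun x => ?_)
          (i3.const_mul _) (Filter.Eventually.of_forall hb)
        exact mul_nonneg (gam_pos hw x).le
          (sub_nonneg.2 (Real.log_le_log (gam_pos hw x) (gam_le_gT hw x)))
    _ = 8 * exp (-(1 / (50 * w))) := by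
        rw [integral_const_mul, integral_exp_eighth hw]
        field_simp
        ring

end Vale.Agent.P047.Disproof.Loc
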