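import Vale.Agent.P047.Disproof.LocalPair
import Vale.Agent.P047.Disproof.LocalBL

/-!
The loss is monotone in the scale: data processing and the Gaussian Brascamp-Lieb inequality.
-/

namespace Vale.Agent.P047.Disproof.Loc

open MeasureTheory ProbabilityTheory
open Real (log sqrt)
open scoped MeasureTheory ENNReal NNReal

/-- The extra noise as an image of a standard Gaussian pair. -/
noncomputable def zeta (t r : ℝ) (z : ℝ × ℝ) : T2 :=
  pi2 (sqrt t * BL.l0 r z, sqrt t * BL.l1 r z)

lemma continuous_coe_tor : Continuous ((↑) : ℝ → Tor) := continuous_quotient_mk'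

lemma continuous_zeta (t r : ℝ) : Continuous (zeta t r) := by
  have : zeta t r = fun z => (((sqrt t * BL.l0 r z : ℝ) : Tor), ((sqrt t * BL.l1 r z : ℝ) : Tor)) :=
    funext fun z => pi2_apply _
  rw [this]
  unfold BL.l0 BL.l1
  exact (continuous_coe_tor.comp (by fun_prop)).prodMk (continuous_coe_tor.comp (by fun_prop))

lemma std_eq : (volume.withDensity fun z : ℝ × ℝ => ENNReal.ofReal (BL.g2 z)) =
    (gR 1).prod (gR 1) := by
  have hm : Measurable fun x => ENNReal.ofReal (gam 1 x) :=
    ENNReal.measurable_ofReal.comp (gam_cont 1).measurable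
  rw [gR_eq one_pos, prod_withDensity hm hm, Measure.volume_eq_prod]
  congr 1
  funext z
  rw [BL.g2, ENNReal.ofReal_mul (BL.g_pos _).le, BL.g_eq, gam, gam, Real.toNNReal_one]

lemma noise2_eq_zeta {t r : ℝ} (ht : 0 < t) (hr0 : 0 ≤ r) (hr1 : r < 1) :
    noise2 t r = ((gR 1).prod (gR 1)).map (zeta t r) := by
  set a := sqrt (t * (1 + r) / 2) with ha
  set b := sqrt (2 * t * (1 - r)) with hb
  have e1 : gR (t * (1 + r) / 2) = (gR 1).map (a * ·) := by
    rw [gR_map_mul zero_le_one, mul_one, ha, Real.sq_sqrt (by positivity)]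
  have e2 : gR (2 * t * (1 - r)) = (gR 1).map (b * ·) := by
    rw [gR_map_mul zero_le_one, mul_one, hb, Real.sq_sqrt (mul_nonneg (by linarith) (by linarith))]
  have hm : Measurable (pi2 ∘ udHom) := measurable_pi2.comp (measurable_mat _ _ _ _)
  rw [noise2_eq, gUD, e1, e2, Measure.map_prod_map _ _ (measurable_const_mul a)
    (measurable_const_mul b), Measure.map_map hm
    ((measurable_const_mul a).prodMap (measurable_const_mul b))]
  congr 1
  funext z
  have ha' : a = sqrt t * BL.al r := by
    rw [ha, BL.al, ← Real.sqrt_mul ht.le]; ring_nf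
  have hb' : b = 2 * (sqrt t * BL.be r) := by
    rw [hb, BL.be, ← Real.sqrt_mul ht.le,
      show 2 * t * (1 - r) = 2 ^ 2 * (t * ((1 - r) / 2)) by ring,
      Real.sqrt_mul (by norm_num), Real.sqrt_sq (by norm_num)]
  simp only [Function.comp_apply, zeta, udHom, mat_apply, Prod.map, ha', hb', BL.l0, BL.l1]
  congr 1
  ext <;> ring

lemma integral_noise2 {t r : ℝ} (ht : 0 < t) (hr0 : 0 ≤ r) (hr1 : r < 1) {f : T2 → ℝ}
    (hf : Continuous f) : ∫ x, f x ∂noise2 t r = ∫ z, f (zeta t r z) * BL.g2 z := by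
  rw [noise2_eq_zeta ht hr0 hr1, integral_map (continuous_zeta t r).measurable.aemeasurable
    hf.aestronglyMeasurable, ← std_eq, integral_withDensity_eq_integral_toReal_smul
    (show Measurable fun z => ENNReal.ofReal (BL.g2 z) from
      ENNReal.measurable_ofReal.comp BL.continuous_g2.measurable)
    (Filter.Eventually.of_forall fun _ => ENNReal.ofReal_lt_top)]
  exact integral_congr_ae (Filter.Eventually.of_forall fun z => by
    simp [ENNReal.toReal_ofReal (BL.g2_pos z).le, mul_comm])

lemma integral_noise1 {τ : ℝ} (hτ : 0 < τ) {f : Tor → ℝ} (hf : Continuous f) :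
    ∫ x, f x ∂noise1 τ = ∫ s, f ((sqrt τ * s : ℝ) : Tor) * BL.g s := by
  have e : gR τ = (gR 1).map (sqrt τ * ·) := by
    rw [gR_map_mul zero_le_one, mul_one, Real.sq_sqrt hτ.le]
  rw [noise1, ← gR, e, Measure.map_map measurable_coe (measurable_const_mul _), integral_map
    (measurable_coe.comp (measurable_const_mul _)).aemeasurable hf.aestronglyMeasurable,
    integral_gR one_pos]
  simp [BL.g_eq, gam, mul_comm]

/-- Integrating a relative information against the reference measure. -/
lemma shift_identity (N : Measure T2) [IsProbabilityMeasure N] {p L M : T2 → ℝ} (hp : Continuous p)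
    (hL : Continuous L) (hM : Continuous M) :
    ∫ y, ∫ x, p (y - x) * (L (y - x) - M y) ∂N =
      (∫ y, p y * L y) - ∫ y, dens N p y * M y := by
  have c1 : Continuous fun q : T2 × T2 => p (q.2 - q.1) * L (q.2 - q.1) :=
    (hp.mul hL).comp (by fun_prop : Continuous fun q : T2 × T2 => q.2 - q.1)
  have c2 : Continuous fun q : T2 × T2 => p (q.2 - q.1) * M q.2 :=
    (hp.comp (by fun_prop)).mul (hM.comp continuous_snd)
  have i1 : ∀ y, Integrable (fun x => p (y - x) * L (y - x)) N := fun y =>
    integrable_cont _ (c1.comp (by fun_prop : Continuous fun x : T2 => (x, y)))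
  have i2 : ∀ y, Integrable (fun x => p (y - x) * M y) N := fun y =>
    integrable_cont _ (c2.comp (by fun_prop : Continuous fun x : T2 => (x, y)))
  have j1 : Integrable fun y => ∫ x, p (y - x) * L (y - x) ∂N :=
    (integrable_cont (N.prod (volume : Measure T2)) c1).integral_prod_right
  have j2 : Integrable fun y => ∫ x, p (y - x) * M y ∂N :=
    (integrable_cont (N.prod (volume : Measure T2)) c2).integral_prod_right
  simp only [mul_sub]
  rw [integral_congr_ae (Filter.Eventually.of_forall fun y => integral_sub (i1 y) (i2 y)),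
    integral_sub j1 j2,
    ← swap_integral (f := fun q : T2 × T2 => p (q.2 - q.1) * L (q.2 - q.1)) c1]
  simp only [integral_sub_right_eq_self fun y => p y * L y, integral_mul_const]
  simp [dens]

lemma ent_map_eq {P : Measure T2} [IsProbabilityMeasure P] {p : T2 → ℝ} (hp : HasDens P p)
    {e : T2 → Tor} (he : Continuous e) {q : Tor → ℝ} (hq : HasDens (P.map e) q) :
    ent (P.map e) = -∫ y, p y * log (q (e y)) := by
  have : IsProbabilityMeasure (P.map e) := Measure.isProbabilityMeasure_map he.aemeasurable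
  rw [hq.ent_eq, ← hq.integral fun a => log (q a), integral_map he.aemeasurable
    (hq.cont.log fun a => (hq.pos a).ne').aestronglyMeasurable, hp.integral]

lemma exists_bounds {X : Type*} [TopologicalSpace X] [CompactSpace X] [Nonempty X] {f : X → ℝ}
    (hf : Continuous f) (hp : ∀ x, 0 < f x) : ∃ a b, 0 < a ∧ ∀ x, a ≤ f x ∧ f x ≤ b := by
  obtain ⟨u, -, hu⟩ := isCompact_univ.exists_isMinOn Set.univ_nonempty hf.continuousOn
  obtain ⟨w, -, hw⟩ := isCompact_univ.exists_isMaxOn Set.univ_nonempty hf.continuousOn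
  exact ⟨f u, f w, hp u, fun x => ⟨hu (Set.mem_univ x), hw (Set.mem_univ x)⟩⟩

/-- The pointwise inequality: relative information of the posterior against that of its three
one dimensional shadows. -/
lemma posterior_bl {t r : ℝ} (ht : 0 < t) (hr0 : 0 ≤ r) (hr1 : r < 1) {p : T2 → ℝ}
    (hp : Continuous p) (pp : ∀ y, 0 < p y) {q0 q1 qd : Tor → ℝ} (c0 : Continuous q0)
    (c1 : Continuous q1) (cd : Continuous qd) (p0 : ∀ y, 0 < q0 y) (p1 : ∀ y, 0 < q1 y)
    (pd : ∀ y, 0 < qd y) (y : T2) :
    ∫ x, p (y - x) * (log (q0 (y - x).1) - log (dens (noise1 t) q0 y.1)) ∂noise2 t r +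
      ∫ x, p (y - x) * (log (q1 (y - x).2) - log (dens (noise1 t) q1 y.2)) ∂noise2 t r +
      2 * r * ∫ x, p (y - x) *
        (log (qd (dHom (y - x))) - log (dens (noise1 (2 * t * (1 - r))) qd (dHom y))) ∂noise2 t r ≤
      (1 + r) * ∫ x, p (y - x) * (log (p (y - x)) - log (dens (noise2 t r) p y)) ∂noise2 t r := by
  set τ := 2 * t * (1 - r) with hτ'
  have hτ : 0 < τ := mul_pos (by linarith) (by linarith)
  set N := noise2 t r
  set P := dens N p y with hP
  set Q0 := dens (noise1 t) q0 y.1 with hQ0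
  set Q1 := dens (noise1 t) q1 y.2 with hQ1
  set Qd := dens (noise1 τ) qd (dHom y) with hQd
  obtain ⟨a, b, ha, hab⟩ := exists_bounds hp pp
  obtain ⟨a0, b0, ha0, hab0⟩ := exists_bounds c0 p0
  obtain ⟨a1, b1, ha1, hab1⟩ := exists_bounds c1 p1
  obtain ⟨ad, bd, had, habd⟩ := exists_bounds cd pd
  have hP0 : 0 < P := ha.trans_le (by
    have := integral_mono (μ := N) (integrable_const a)
      (integrable_cont _ (hp.comp (continuous_const.sub continuous_id))) fun x => (hab (y - x)).1
    simpa [hP, dens] using this)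
  have posQ : ∀ (ν : Measure Tor) [IsProbabilityMeasure ν] (q : Tor → ℝ) (lo hi : ℝ),
      Continuous q → 0 < lo → (∀ x, lo ≤ q x ∧ q x ≤ hi) → ∀ u, 0 < dens ν q u := by
    intro ν _ q lo hi hq hlo hb u
    refine hlo.trans_le ?_
    have := integral_mono (μ := ν) (integrable_const lo)
      (integrable_cont _ (hq.comp (continuous_const.sub continuous_id))) fun x => (hb (u - x)).1
    simpa [dens] using this
  have hQ0p : 0 < Q0 := posQ _ q0 a0 b0 c0 ha0 hab0 _
  have hQ1p : 0 < Q1 := posQ _ q1 a1 b1 c1 ha1 hab1 _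
  have hQdp : 0 < Qd := posQ _ qd ad bd cd had habd _
  set φ : ℝ × ℝ → ℝ := fun z => p (y - zeta t r z) / P
  set f0 : ℝ → ℝ := fun s => q0 (y.1 - ((sqrt t * s : ℝ) : Tor)) / Q0
  set f1 : ℝ → ℝ := fun s => q1 (y.2 - ((sqrt t * s : ℝ) : Tor)) / Q1
  set fd : ℝ → ℝ := fun s => qd (dHom y - ((sqrt τ * s : ℝ) : Tor)) / Qd
  have hline : ∀ σ : ℝ, Continuous fun s : ℝ => ((σ * s : ℝ) : Tor) := fun σ =>
    continuous_coe_tor.comp (by fun_prop)
  have mean1 : ∀ (τ' : ℝ) (q : Tor → ℝ) (u : Tor), 0 < τ' → Continuous q →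
      0 < dens (noise1 τ') q u →
      ∫ s, q (u - ((sqrt τ' * s : ℝ) : Tor)) / dens (noise1 τ') q u * BL.g s = 1 := by
    intro τ' q u h hq hpos
    simp only [div_mul_eq_mul_div, integral_div]
    rw [← integral_noise1 h (f := fun x => q (u - x)) (hq.comp (continuous_const.sub continuous_id))]
    exact div_self hpos.ne'
  have iφ : ∫ z, φ z * BL.g2 z = 1 := by
    simp only [φ, div_mul_eq_mul_div, integral_div]
    rw [← integral_noise2 ht hr0 hr1 (f := fun x => p (y - x))
      (hp.comp (continuous_const.sub continuous_id))]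
    exact div_self hP0.ne'
  set A := min (min (a / P) (a0 / Q0)) (min (a1 / Q1) (ad / Qd))
  set B := max (max (b / P) (b0 / Q0)) (max (b1 / Q1) (bd / Qd))
  have hA : 0 < A := lt_min (lt_min (div_pos ha hP0) (div_pos ha0 hQ0p))
    (lt_min (div_pos ha1 hQ1p) (div_pos had hQdp))
  have bl := BL.entropy_bl hr0 hr1 (f0 := f0) (f1 := f1) (fd := fd)
    ((c0.comp (continuous_const.sub (hline _))).div_const _)
    ((c1.comp (continuous_const.sub (hline _))).div_const _)
    ((cd.comp (continuous_const.sub (hline _))).div_const _) hA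
    (fun s => ((min_le_left _ _).trans (min_le_right _ _)).trans
      (div_le_div_of_nonneg_right (hab0 _).1 hQ0p.le))
    (fun s => ((min_le_right _ _).trans (min_le_left _ _)).trans
      (div_le_div_of_nonneg_right (hab1 _).1 hQ1p.le))
    (fun s => ((min_le_right _ _).trans (min_le_right _ _)).trans
      (div_le_div_of_nonneg_right (habd _).1 hQdp.le))
    (b := B)
    (fun s => (div_le_div_of_nonneg_right (hab0 _).2 hQ0p.le).trans
      ((le_max_right _ _).trans (le_max_left _ _)))
    (fun s => (div_le_div_of_nonneg_right (hab1 _).2 hQ1p.le).trans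
      ((le_max_left _ _).trans (le_max_right _ _)))
    (fun s => (div_le_div_of_nonneg_right (habd _).2 hQdp.le).trans
      ((le_max_right _ _).trans (le_max_right _ _)))
    (mean1 t q0 y.1 ht c0 hQ0p) (mean1 t q1 y.2 ht c1 hQ1p) (mean1 τ qd (dHom y) hτ cd hQdp)
    (φ := φ) ((hp.comp (continuous_const.sub (continuous_zeta t r))).div_const _)
    (fun z => ((min_le_left _ _).trans (min_le_left _ _)).trans
      (div_le_div_of_nonneg_right (hab _).1 hP0.le))
    (fun z => (div_le_div_of_nonneg_right (hab _).2 hP0.le).trans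
      ((le_max_left _ _).trans (le_max_left _ _))) iφ
  have term : ∀ (q : T2 → ℝ) (Q : ℝ), Continuous q → (∀ x, 0 < q x) → 0 < Q →
      ∫ x, p (y - x) * (log (q (y - x)) - log Q) ∂N =
        P * ∫ z, φ z * log (q (y - zeta t r z) / Q) * BL.g2 z := by
    intro q Q hq hq0 hQ
    rw [integral_noise2 ht hr0 hr1 (f := fun x => p (y - x) * (log (q (y - x)) - log Q))
      ((hp.comp (continuous_const.sub continuous_id)).mul
        (((hq.comp (continuous_const.sub continuous_id)).log fun x => (hq0 _).ne').sub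
          continuous_const)), ← integral_const_mul]
    refine integral_congr_ae (Filter.Eventually.of_forall fun z => ?_)
    simp only [φ]
    rw [Real.log_div (hq0 _).ne' hQ.ne', ← mul_assoc, ← mul_assoc, mul_div_cancel₀ _ hP0.ne']
  have e0 : ∀ z, (y - zeta t r z).1 = y.1 - ((sqrt t * BL.l0 r z : ℝ) : Tor) := fun z => by
    simp [zeta]
  have e1 : ∀ z, (y - zeta t r z).2 = y.2 - ((sqrt t * BL.l1 r z : ℝ) : Tor) := fun z => by
    simp [zeta]
  have ed : ∀ z : ℝ × ℝ, dHom (y - zeta t r z) = dHom y - ((sqrt τ * z.2 : ℝ) : Tor) := fun z => by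
    rw [map_sub]
    congr 1
    simp only [dHom_apply, zeta, pi2_apply, ← AddCircle.coe_sub]
    congr 1
    have : sqrt τ = 2 * (sqrt t * BL.be r) := by
      rw [BL.be, ← Real.sqrt_mul ht.le, hτ',
        show (2 : ℝ) * t * (1 - r) = 2 ^ 2 * (t * ((1 - r) / 2)) by ring,
        Real.sqrt_mul (by norm_num), Real.sqrt_sq (by norm_num)]
    rw [this, BL.l0, BL.l1]
    ring
  rw [term (fun x => q0 x.1) Q0 (c0.comp continuous_fst) (fun x => p0 _) hQ0p,
    term (fun x => q1 x.2) Q1 (c1.comp continuous_snd) (fun x => p1 _) hQ1p,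
    term (fun x => qd (dHom x)) Qd (cd.comp continuous_dHom) (fun x => pd _) hQdp,
    term p P hp pp hP0]
  simp only [e0, e1, ed]
  have alg : ∀ a b c d : ℝ, 1 / (1 + r) * a + 1 / (1 + r) * b + 2 * r / (1 + r) * c ≤ d →
      P * a + P * b + 2 * r * (P * c) ≤ (1 + r) * (P * d) := by
    intro a b c d h
    have h' := mul_le_mul_of_nonneg_left h (mul_nonneg hP0.le (by linarith : (0 : ℝ) ≤ 1 + r))
    refine le_of_eq_of_le ?_ (h'.trans_eq (by ring))
    have : (1 : ℝ) + r ≠ 0 := by linarith
    field_simp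
  exact alg _ _ _ _ bl

theorem loss_mono (μ : Measure T2) [IsProbabilityMeasure μ] {v w r : ℝ} (hv : 0 < v) (hvw : v < w)
    (hr0 : 0 ≤ r) (hr1 : r < 1) : loss μ v r ≤ loss μ w r := by
  obtain ⟨t, ht, rfl⟩ : ∃ t, 0 < t ∧ w = v + t := ⟨w - v, by linarith, by ring⟩
  obtain ⟨g, hg, -⟩ := noise2_dens hv hr0 hr1
  have hp : HasDens (μ ∗ noise2 v r) (dens μ g) := hg.conv μ
  set P := μ ∗ noise2 v r with hP
  set N := noise2 t r
  set p := dens μ g
  have hP' : μ ∗ noise2 (v + t) r = N ∗ P := by
    rw [← noise2_conv hv.le ht.le hr0 hr1, ← Measure.conv_assoc, Measure.conv_comm]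
  have hp' : HasDens (N ∗ P) (dens N p) := hp.conv N
  have hPprob : IsProbabilityMeasure P := by rw [hP]; infer_instance
  have hNP : IsProbabilityMeasure (N ∗ P) := by infer_instance
  have hmap : ∀ (e : T2 →+ Tor) (σ τ : ℝ), Continuous e → 0 < σ →
      (noise2 v r).map e = noise1 σ → N.map e = noise1 τ →
      ∃ q : Tor → ℝ, HasDens (P.map e) q ∧ HasDens ((N ∗ P).map e) (dens (noise1 τ) q) ∧
        P.map e = μ.map e ∗ noise1 σ := by
    intro e σ τ he hσ e1 e2
    have : IsProbabilityMeasure (μ.map e) := Measure.isProbabilityMeasure_map he.aemeasurable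
    have k1 : P.map e = μ.map e ∗ noise1 σ := by
      rw [hP, Measure.map_conv_addMonoidHom e he.measurable, e1]
    have hq := (noise1_dens hσ).conv (μ.map e)
    refine ⟨_, k1 ▸ hq, ?_, k1⟩
    rw [Measure.map_conv_addMonoidHom e he.measurable, e2, k1]
    exact hq.conv _
  have hd : (0 : ℝ) < 1 - r := by linarith
  have hvd : 0 < 2 * v * (1 - r) := by positivity
  obtain ⟨q0, h0, h0', k0⟩ := hmap (AddMonoidHom.fst Tor Tor) v t continuous_fst hv
    (noise2_map_fst hv.le hr0 hr1) (noise2_map_fst ht.le hr0 hr1)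
  obtain ⟨q1, h1, h1', k1⟩ := hmap (AddMonoidHom.snd Tor Tor) v t continuous_snd hv
    (noise2_map_snd hv.le hr0 hr1) (noise2_map_snd ht.le hr0 hr1)
  obtain ⟨qd, h2, h2', k2⟩ := hmap dHom (2 * v * (1 - r)) (2 * t * (1 - r)) continuous_dHom hvd
    (noise2_map_dHom hv.le hr0 hr1) (noise2_map_dHom ht.le hr0 hr1)
  have k' : ∀ (e : T2 →+ Tor) (τ : ℝ), Continuous e → (noise2 (v + t) r).map e = noise1 τ →
      (N ∗ P).map e = μ.map e ∗ noise1 τ := by
    intro e τ he e1
    rw [← hP', Measure.map_conv_addMonoidHom e he.measurable, e1]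
  have hw : 0 ≤ v + t := by linarith
  have k0' := k' (AddMonoidHom.fst Tor Tor) _ continuous_fst (noise2_map_fst hw hr0 hr1)
  have k1' := k' (AddMonoidHom.snd Tor Tor) _ continuous_snd (noise2_map_snd hw hr0 hr1)
  have k2' := k' dHom _ continuous_dHom (noise2_map_dHom hw hr0 hr1)
  have key : (-ent (P.map Prod.fst) + ent ((N ∗ P).map Prod.fst)) +
      (-ent (P.map Prod.snd) + ent ((N ∗ P).map Prod.snd)) +
      2 * r * (-ent (P.map dHom) + ent ((N ∗ P).map dHom)) ≤
      (1 + r) * (-ent P + ent (N ∗ P)) := by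
    rw [hp.ent_eq, hp'.ent_eq, ent_map_eq hp continuous_fst h0, ent_map_eq hp' continuous_fst h0',
      ent_map_eq hp continuous_snd h1, ent_map_eq hp' continuous_snd h1',
      ent_map_eq hp continuous_dHom h2, ent_map_eq hp' continuous_dHom h2']
    simp only [neg_neg, ← sub_eq_add_neg]
    have cl : ∀ {X : Type} [TopologicalSpace X] {q : X → ℝ} {e : T2 → X}, Continuous q →
        (∀ x, 0 < q x) → Continuous e → Continuous fun y => log (q (e y)) :=
      fun hq hpos he => (hq.comp he).log fun x => (hpos _).ne'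
    rw [← shift_identity N hp.cont (cl h0.cont h0.pos continuous_fst)
        (cl h0'.cont h0'.pos continuous_fst),
      ← shift_identity N hp.cont (cl h1.cont h1.pos continuous_snd)
        (cl h1'.cont h1'.pos continuous_snd),
      ← shift_identity N hp.cont (cl h2.cont h2.pos continuous_dHom)
        (cl h2'.cont h2'.pos continuous_dHom),
      ← shift_identity N hp.cont (cl hp.cont hp.pos continuous_id')
        (cl hp'.cont hp'.pos continuous_id'), ← integral_const_mul, ← integral_const_mul]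
    have int : ∀ {L M : T2 → ℝ}, Continuous L → Continuous M →
        Integrable fun y => ∫ x, p (y - x) * (L (y - x) - M y) ∂N := fun {L M} hL hM =>
      (integrable_cont (N.prod (volume : Measure T2))
        (f := fun q : T2 × T2 => p (q.2 - q.1) * (L (q.2 - q.1) - M q.2))
        ((hp.cont.comp (by fun_prop)).mul
          ((hL.comp (by fun_prop)).sub (hM.comp continuous_snd)))).integral_prod_right
    have I0 := int (cl h0.cont h0.pos continuous_fst) (cl h0'.cont h0'.pos continuous_fst)
    have I1 := int (cl h1.cont h1.pos continuous_snd) (cl h1'.cont h1'.pos continuous_snd)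
    have I2 := int (cl h2.cont h2.pos continuous_dHom) (cl h2'.cont h2'.pos continuous_dHom)
    have I3 := int (cl hp.cont hp.pos continuous_id') (cl hp'.cont hp'.pos continuous_id')
    rw [← integral_add I0 I1, ← integral_add (I0.fun_add I1) (I2.const_mul _)]
    exact integral_mono ((I0.fun_add I1).fun_add (I2.const_mul _)) (I3.const_mul _) fun y =>
      posterior_bl ht hr0 hr1 hp.cont hp.pos h0.cont h1.cont h2.cont h0.pos h1.pos h2.pos y
  have gdiff : ∀ c : ℝ, 0 < c → gEnt (c * (v + t)) = gEnt (c * v) + log ((v + t) / v) / 2 := by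
    intro c hc
    unfold gEnt
    rw [Real.log_div (by positivity) hv.ne', ← mul_assoc _ c, ← mul_assoc _ c,
      Real.log_mul (by positivity) (by positivity : v + t ≠ 0),
      Real.log_mul (by positivity) hv.ne']
    ring
  have g1 := gdiff 1 one_pos
  have g2 := gdiff (2 * (1 - r)) (by positivity)
  have g3 := gdiff ((1 + r) / 2) (by positivity)
  rw [one_mul, one_mul] at g1
  rw [show 2 * (1 - r) * (v + t) = 2 * (v + t) * (1 - r) by ring,
    show 2 * (1 - r) * v = 2 * v * (1 - r) by ring] at g2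
  rw [show (1 + r) / 2 * (v + t) = (v + t) * (1 + r) / 2 by ring,
    show (1 + r) / 2 * v = v * (1 + r) / 2 by ring] at g3
  simp only [AddMonoidHom.coe_fst, AddMonoidHom.coe_snd] at k0 k1 k0' k1'
  simp only [loss, J2, Fd, F0, F1, g1, g2, g3, hP', ← k0, ← k1, ← k2, ← k0', ← k1', ← k2', ← hP]
  linarith

end Vale.Agent.P047.Disproof.Loc
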