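import Vale.Agent.P047.Disproof.LocalGauss

/-!
The correlated Gaussian pair on the torus: identities, density, and the entropy quantities of the
two point inequality.
-/

namespace Vale.Agent.P047.Disproof.Loc

open MeasureTheory ProbabilityTheory InformationTheory
open scoped MeasureTheory ENNReal NNReal

/-- From half sum and difference to the two coordinates. -/
noncomputable def udHom : ℝ × ℝ →+ ℝ × ℝ := mat 1 (-1 / 2) 1 (1 / 2)

/-- The covering map of the two dimensional torus. -/
noncomputable def pi2 : ℝ × ℝ →+ T2 :=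
  (QuotientAddGroup.mk' (AddSubgroup.zmultiples (1 : ℝ))).prodMap
    (QuotientAddGroup.mk' (AddSubgroup.zmultiples (1 : ℝ)))

@[simp] lemma pi2_apply (p : ℝ × ℝ) : pi2 p = ((p.1 : Tor), (p.2 : Tor)) := rfl

lemma measurable_pi2 : Measurable pi2 :=
  (measurable_coe.comp measurable_fst).prodMk (measurable_coe.comp measurable_snd)

/-- The law of half sum and difference. -/
noncomputable abbrev gUD (v r : ℝ) : Measure (ℝ × ℝ) :=
  (gR (v * (1 + r) / 2)).prod (gR (2 * v * (1 - r)))

/-- The difference of the two coordinates. -/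
def dHom : T2 →+ Tor := AddMonoidHom.snd Tor Tor - AddMonoidHom.fst Tor Tor

@[simp] lemma dHom_apply (p : T2) : dHom p = p.2 - p.1 := rfl

lemma continuous_dHom : Continuous dHom := continuous_snd.sub continuous_fst

lemma noise2_eq (v r : ℝ) : noise2 v r = (gUD v r).map (pi2 ∘ udHom) := by
  rw [noise2]
  congr 1
  funext p
  simp only [Function.comp_apply, udHom, mat_apply, pi2_apply, one_mul]
  ring_nf

instance (v r : ℝ) : IsProbabilityMeasure (noise2 v r) := by
  rw [noise2_eq]
  exact Measure.isProbabilityMeasure_map (measurable_pi2.comp (measurable_mat _ _ _ _)).aemeasurable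

/-- Information of one coordinate. -/
noncomputable def F0 (μ : Measure T2) (v : ℝ) : ℝ := ent (μ.map Prod.fst ∗ noise1 v) - gEnt v

/-- Information of the other coordinate. -/
noncomputable def F1 (μ : Measure T2) (v : ℝ) : ℝ := ent (μ.map Prod.snd ∗ noise1 v) - gEnt v

/-- Information of the difference. -/
noncomputable def Fd (μ : Measure T2) (v r : ℝ) : ℝ :=
  ent (μ.map dHom ∗ noise1 (2 * v * (1 - r))) - gEnt (2 * v * (1 - r))

/-- Information of the pair. -/
noncomputable def J2 (μ : Measure T2) (v r : ℝ) : ℝ :=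
  ent (μ ∗ noise2 v r) - gEnt (2 * v * (1 - r)) - gEnt (v * (1 + r) / 2)

/-- The loss of the two point inequality. -/
noncomputable def loss (μ : Measure T2) (v r : ℝ) : ℝ :=
  (1 + r) * J2 μ v r - 2 * r * Fd μ v r - F0 μ v - F1 μ v

variable {v r : ℝ}

lemma HasDens.prod {A B : Type*} [MeasureSpace A] [TopologicalSpace A] [BorelSpace A]
    [MeasureSpace B] [TopologicalSpace B] [BorelSpace B] [SFinite (volume : Measure A)]
    [SFinite (volume : Measure B)] {μ : Measure A} {ν : Measure B} {p : A → ℝ} {q : B → ℝ}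
    (hp : HasDens μ p) (hq : HasDens ν q) :
    HasDens (μ.prod ν) (fun y : A × B => p y.1 * q y.2) := by
  refine ⟨(hp.cont.comp continuous_fst).mul (hq.cont.comp continuous_snd),
    fun y => mul_pos (hp.pos _) (hq.pos _), ?_⟩
  have hm : Measurable fun y => ENNReal.ofReal (p y) :=
    ENNReal.measurable_ofReal.comp hp.cont.measurable
  have hn : Measurable fun y => ENNReal.ofReal (q y) :=
    ENNReal.measurable_ofReal.comp hq.cont.measurable
  have : SFinite (volume.withDensity fun y => ENNReal.ofReal (q y)) := inferInstance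
  rw [hp.eq, hq.eq, prod_withDensity hm hn]
  congr 1
  funext y
  exact (ENNReal.ofReal_mul (hp.pos _).le).symm

lemma measurable_pud : Measurable (pi2 ∘ udHom) :=
  measurable_pi2.comp (measurable_mat _ _ _ _)

lemma noise2_map_lin (hv : 0 ≤ v) (hr0 : 0 ≤ r) (hr1 : r < 1) {f : T2 → Tor} (hf : Measurable f)
    (α β : ℝ) (h : ∀ p, f (pi2 (udHom p)) = ((linHom α β p : ℝ) : Tor)) :
    (noise2 v r).map f = noise1 (α ^ 2 * (v * (1 + r) / 2) + β ^ 2 * (2 * v * (1 - r))) := by
  rw [noise2_eq, noise1, ← gR, ← prod_map_lin (by positivity)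
    (mul_nonneg (by positivity) (by linarith)) α β, Measure.map_map hf measurable_pud,
    Measure.map_map measurable_coe (measurable_linHom α β)]
  congr 1
  funext p
  exact h p

lemma noise2_map_fst (hv : 0 ≤ v) (hr0 : 0 ≤ r) (hr1 : r < 1) :
    (noise2 v r).map Prod.fst = noise1 v := by
  rw [noise2_map_lin hv hr0 hr1 measurable_fst 1 (-1 / 2) fun p => by
    simp only [pi2_apply, udHom, mat_apply, linHom_apply]]
  congr 1
  ring

lemma noise2_map_snd (hv : 0 ≤ v) (hr0 : 0 ≤ r) (hr1 : r < 1) :
    (noise2 v r).map Prod.snd = noise1 v := by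
  rw [noise2_map_lin hv hr0 hr1 measurable_snd 1 (1 / 2) fun p => by
    simp only [pi2_apply, udHom, mat_apply, linHom_apply]]
  congr 1
  ring

lemma noise2_map_dHom (hv : 0 ≤ v) (hr0 : 0 ≤ r) (hr1 : r < 1) :
    (noise2 v r).map dHom = noise1 (2 * v * (1 - r)) := by
  rw [noise2_map_lin hv hr0 hr1 continuous_dHom.measurable 0 1 fun p => by
    simp only [pi2_apply, udHom, mat_apply, linHom_apply, dHom_apply, ← AddCircle.coe_sub]
    congr 1
    ring]
  congr 1
  ring

lemma gUD_conv {a b c d : ℝ} (ha : 0 ≤ a) (hb : 0 ≤ b) (hc : 0 ≤ c) (hd : 0 ≤ d) :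
    ((gR a).prod (gR b)) ∗ ((gR c).prod (gR d)) = (gR (a + c)).prod (gR (b + d)) := by
  refine ext_lin fun α β => ?_
  rw [conv_map_lin, prod_map_lin ha hb, prod_map_lin hc hd,
    prod_map_lin (by positivity) (by positivity), gR_conv (by positivity) (by positivity)]
  congr 1
  ring

lemma noise2_conv {w : ℝ} (hv : 0 ≤ v) (hw : 0 ≤ w) (hr0 : 0 ≤ r) (hr1 : r < 1) :
    noise2 v r ∗ noise2 w r = noise2 (v + w) r := by
  rw [noise2_eq, noise2_eq, noise2_eq, ← AddMonoidHom.coe_comp,
    ← Measure.map_conv_addMonoidHom _ (by exact measurable_pud),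
    gUD_conv (by positivity) (mul_nonneg (by positivity) (by linarith)) (by positivity)
      (mul_nonneg (by positivity) (by linarith))]
  congr 4 <;> ring

lemma noise1_conv {a b : ℝ} (ha : 0 ≤ a) (hb : 0 ≤ b) : noise1 a ∗ noise1 b = noise1 (a + b) := by
  rw [noise1, noise1, noise1, ← gR, ← gR, ← gR, ← gR_conv ha hb]
  exact (Measure.map_conv_addMonoidHom (QuotientAddGroup.mk' _) measurable_coe).symm

/-- A linear image of a Gaussian pair, pushed to the torus. -/
lemma map_pi2_mat {a b : ℝ} : ((gR a).prod (gR b)).map pi2 = (noise1 a).prod (noise1 b) := by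
  rw [noise1, noise1, Measure.map_prod_map _ _ measurable_coe measurable_coe]
  rfl

/-- The pair has a continuous positive density above the Euclidean one at every lift. -/
lemma noise2_dens (hv : 0 < v) (hr0 : 0 ≤ r) (hr1 : r < 1) :
    ∃ g, HasDens (noise2 v r) g ∧ ∀ᵐ p : ℝ × ℝ,
      gam (v * (1 + r) / 2) p.1 * gam (2 * v * (1 - r)) p.2 ≤ g (pi2 (udHom p)) := by
  set b := v * (1 - r) with hbdef
  have hb : 0 < b := mul_pos hv (by linarith)
  have hU : 0 < v * (1 + r) / 2 := by positivity
  have hD : 0 < 2 * v * (1 - r) := by linarith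
  set ν0 := (gR (v * r)).prod (gR 0) with hν0
  set ρ := ν0.map (pi2 ∘ udHom) with hR
  have : IsProbabilityMeasure ρ := Measure.isProbabilityMeasure_map measurable_pud.aemeasurable
  have hsplit : gUD v r = ν0 ∗ ((gR (b / 2)).prod (gR (2 * b))) := by
    rw [hν0, gUD_conv (by positivity) le_rfl (by positivity) (by positivity)]
    show (gR (v * (1 + r) / 2)).prod (gR (2 * v * (1 - r))) = _
    congr 2 <;> (rw [hbdef]; ring)
  have hiso : ((gR (b / 2)).prod (gR (2 * b))).map udHom = (gR b).prod (gR b) := by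
    refine ext_lin fun α β => ?_
    rw [udHom, mat_map_lin, prod_map_lin (by positivity) (by positivity),
      prod_map_lin hb.le hb.le]
    congr 1
    ring
  have hdn := ((noise1_dens hb).prod (noise1_dens hb)).conv ρ
  have heq : noise2 v r = ρ ∗ (noise1 b).prod (noise1 b) := by
    rw [noise2_eq, hsplit, ← AddMonoidHom.coe_comp,
      Measure.map_conv_addMonoidHom _ (by exact measurable_pud)]
    congr 1
    rw [← map_pi2_mat, ← hiso, Measure.map_map measurable_pi2 (by exact measurable_mat _ _ _ _)]
    rfl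
  refine ⟨_, heq ▸ hdn, ?_⟩
  set f := fun x : ℝ × ℝ => ENNReal.ofReal (gam (b / 2) x.1) * ENNReal.ofReal (gam (2 * b) x.2)
    with hf
  have hm : ∀ w, Measurable fun x => ENNReal.ofReal (gam w x) := fun w =>
    ENNReal.measurable_ofReal.comp (gam_cont w).measurable
  have hfm : Measurable f :=
    ((hm _).comp measurable_fst).mul ((hm _).comp measurable_snd)
  set h := fun x : ℝ × ℝ => ENNReal.ofReal (gam (v * (1 + r) / 2) x.1) *
    ENNReal.ofReal (gam (2 * v * (1 - r)) x.2) with hh
  have hhm : Measurable h := ((hm _).comp measurable_fst).mul ((hm _).comp measurable_snd)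
  have h1 : gUD v r = volume.withDensity h := by
    rw [gUD, gR_eq hU, gR_eq hD, prod_withDensity (hm _) (hm _), Measure.volume_eq_prod]
  have h2 : gUD v r = volume.withDensity fun y => ∫⁻ z, f (y - z) ∂ν0 := by
    rw [hsplit, gR_eq (by positivity : 0 < b / 2), gR_eq (by positivity : 0 < 2 * b),
      prod_withDensity (hm _) (hm _), ← Measure.volume_eq_prod, ← conv_withDensity volume ν0 hfm]
  have hfin : ∫⁻ y, h y ≠ ⊤ := by
    rw [← setLIntegral_univ, ← withDensity_apply _ MeasurableSet.univ, ← h1]
    simp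
  have hsub : Measurable fun q : (ℝ × ℝ) × (ℝ × ℝ) => f (q.1 - q.2) := hfm.comp (by fun_prop)
  have hae := (withDensity_eq_iff hhm.aemeasurable hsub.lintegral_prod_right'.aemeasurable
    hfin).1 (h1.symm.trans h2)
  filter_upwards [hae] with p hp
  have hg := gT_cont hb
  have hc : Continuous fun z : T2 => gT b (pi2 (udHom p) - z).1 * gT b (pi2 (udHom p) - z).2 :=
    (hg.comp (by fun_prop)).mul (hg.comp (by fun_prop))
  rw [← ENNReal.ofReal_le_ofReal_iff (hdn.pos _).le, ENNReal.ofReal_mul (gam_pos hU _).le]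
  calc ENNReal.ofReal (gam (v * (1 + r) / 2) p.1) * ENNReal.ofReal (gam (2 * v * (1 - r)) p.2)
      = ∫⁻ z, f (p - z) ∂ν0 := hp
    _ ≤ ∫⁻ z, ENNReal.ofReal ((fun z : T2 => gT b (pi2 (udHom p) - z).1 *
          gT b (pi2 (udHom p) - z).2) (pi2 (udHom z))) ∂ν0 := by
        refine lintegral_mono fun z => ?_
        simp only [hf]
        rw [← ENNReal.ofReal_mul (gam_pos (by positivity) _).le, ← map_sub pi2, ← map_sub udHom]
        refine ENNReal.ofReal_le_ofReal (le_trans (le_of_eq ?_)
          (mul_le_mul (gam_le_gT hb (udHom (p - z)).1) (gam_le_gT hb (udHom (p - z)).2)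
            (gam_pos hb _).le (gT_pos hb _).le))
        have key : ∀ a c e d : ℝ,
            a * Real.exp c * (e * Real.exp d) = a * e * Real.exp (c + d) := fun a c e d => by
          rw [Real.exp_add]; ring
        simp only [udHom, mat_apply, one_mul]
        rw [gam_eq (by positivity), gam_eq (by positivity), gam_eq hb, gam_eq hb,
          key, key,
          ← mul_inv, ← mul_inv, ← Real.sqrt_mul (by positivity), ← Real.sqrt_mul (by positivity)]
        congr 1
        · congr 2; ring
        · congr 1; field_simp; ring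
    _ = ENNReal.ofReal (∫ z, (fun z : T2 => gT b (pi2 (udHom p) - z).1 *
          gT b (pi2 (udHom p) - z).2) z ∂ρ) := by
        rw [ofReal_integral_eq_lintegral_ofReal (integrable_cont _ hc)
          (Filter.Eventually.of_forall fun z => (mul_pos (gT_pos hb _) (gT_pos hb _)).le), hR,
          lintegral_map (f := fun x : T2 => ENNReal.ofReal (gT b (pi2 (udHom p) - x).1 *
            gT b (pi2 (udHom p) - x).2)) (ENNReal.measurable_ofReal.comp hc.measurable) measurable_pud]
        rfl
    _ = _ := rfl

end Vale.Agent.P047.Disproof.Loc
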