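import Vale.Agent.P047.Disproof.LocalMono

/-!
The two point inequality for a single law: data processing, subadditivity and averaging over scales.
-/

namespace Vale.Agent.P047.Disproof.Loc

open MeasureTheory ProbabilityTheory
open scoped MeasureTheory ENNReal NNReal

lemma HasDens.map_equiv {ν : Measure T2} {g : T2 → ℝ} (hg : HasDens ν g) (φ ψ : T2 → T2)
    (hψc : Continuous ψ) (hψ : ∀ y, ψ (φ y) = y)
    (hmp : MeasurePreserving φ (volume : Measure T2) volume) :
    HasDens (ν.map φ) (g ∘ ψ) := by
  refine ⟨hg.cont.comp hψc, fun y => hg.pos _, Measure.ext_of_lintegral _ fun f hf => ?_⟩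
  have hm : Measurable fun y => ENNReal.ofReal (g y) :=
    ENNReal.measurable_ofReal.comp hg.cont.measurable
  have hm' : Measurable fun y => ENNReal.ofReal (g (ψ y)) := hm.comp hψc.measurable
  rw [lintegral_map hf hmp.measurable, hg.eq,
    lintegral_withDensity_eq_lintegral_mul _ hm (g := fun y => f (φ y)) (hf.comp hmp.measurable),
    show (volume.withDensity fun y => ENNReal.ofReal ((g ∘ ψ) y)) =
      volume.withDensity fun y => ENNReal.ofReal (g (ψ y)) from rfl,
    lintegral_withDensity_eq_lintegral_mul _ hm' hf, ← hmp.lintegral_comp (hm'.mul hf)]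
  simp [hψ]

lemma ent_map_equiv {ν : Measure T2} [IsProbabilityMeasure ν] {g : T2 → ℝ} (hg : HasDens ν g)
    (φ ψ : T2 → T2) (hψc : Continuous ψ) (hψ : ∀ y, ψ (φ y) = y)
    (hmp : MeasurePreserving φ (volume : Measure T2) volume) : ent (ν.map φ) = ent ν := by
  have h := hg.map_equiv φ ψ hψc hψ hmp
  have : IsProbabilityMeasure (ν.map φ) := Measure.isProbabilityMeasure_map hmp.measurable.aemeasurable
  rw [h.ent_eq, hg.ent_eq]
  congr 1
  have := integral_map (μ := (volume : Measure T2)) hmp.measurable.aemeasurable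
    (f := fun z => (g ∘ ψ) z * Real.log ((g ∘ ψ) z))
    ((h.cont.mul (h.cont.log fun z => (h.pos z).ne')).aestronglyMeasurable)
  rw [hmp.map_eq] at this
  rw [this]
  simp [hψ]

lemma ent_prod {A B : Measure Tor} [IsProbabilityMeasure A] [IsProbabilityMeasure B]
    {p q : Tor → ℝ} (hp : HasDens A p) (hq : HasDens B q) :
    ent (A.prod B) = ent A + ent B := by
  rw [(hp.prod hq).ent_eq, hp.ent_eq, hq.ent_eq, ← neg_add, neg_inj]
  have hl : ∀ {f : Tor → ℝ} {μ : Measure Tor}, HasDens μ f →
      Continuous fun y => f y * Real.log (f y) := fun h =>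
    h.cont.mul (h.cont.log fun y => (h.pos y).ne')
  calc ∫ y : T2, p y.1 * q y.2 * Real.log (p y.1 * q y.2)
      = ∫ y : T2, (p y.1 * Real.log (p y.1)) * q y.2 + p y.1 * (q y.2 * Real.log (q y.2)) :=
        integral_congr_ae (Filter.Eventually.of_forall fun y => by
          dsimp only
          rw [Real.log_mul (hp.pos _).ne' (hq.pos _).ne']
          ring)
    _ = _ := by
        rw [integral_add (f := fun y : T2 => (p y.1 * Real.log (p y.1)) * q y.2)
          (g := fun y : T2 => p y.1 * (q y.2 * Real.log (q y.2)))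
          (integrable_cont _ (((hl hp).comp continuous_fst).mul (hq.cont.comp continuous_snd)))
          (integrable_cont _ ((hp.cont.comp continuous_fst).mul ((hl hq).comp continuous_snd))),
          Measure.volume_eq_prod,
          integral_prod_mul (fun a => p a * Real.log (p a)) q,
          integral_prod_mul p (fun b => q b * Real.log (q b)), hp.integral_one, hq.integral_one,
          one_mul, mul_one]

/-- One dimensional monotonicity in the noise. -/
lemma mono1 (π₀ : Measure Tor) [IsProbabilityMeasure π₀] {a b : ℝ} (ha : 0 < a) (hab : a ≤ b) :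
    ent (π₀ ∗ noise1 b) - ent (noise1 b) ≤ ent (π₀ ∗ noise1 a) - ent (noise1 a) := by
  have h := ent_conv_conv_le (σ := π₀) (ρ := noise1 (b - a)) (noise1_dens ha)
  rwa [noise1_conv ha.le (sub_nonneg.2 hab), add_sub_cancel] at h

lemma ent_noise2_le {v r : ℝ} (hv : 0 < v) (hr0 : 0 ≤ r) (hr1 : r < 1) :
    ent (noise2 v r) ≤ gEnt (2 * v * (1 - r)) + gEnt (v * (1 + r) / 2) := by
  obtain ⟨g, hg, hge⟩ := noise2_dens hv hr0 hr1
  have hU : 0 < v * (1 + r) / 2 := by positivity
  have hD : 0 < 2 * v * (1 - r) := by have := sub_pos.2 hr1; positivity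
  set U := v * (1 + r) / 2
  set D := 2 * v * (1 - r)
  have hl : Continuous fun y => Real.log (g y) := hg.cont.log fun y => (hg.pos y).ne'
  have iu : Integrable (fun p : ℝ × ℝ => Real.log (gam U p.1)) ((gR U).prod (gR D)) := by
    simp only [log_gam hU]
    exact ((integrable_const _).sub (((integrable_sq_gR U).div_const _))).comp_fst _
  have id' : Integrable (fun p : ℝ × ℝ => Real.log (gam D p.2)) ((gR U).prod (gR D)) := by
    simp only [log_gam hD]
    exact ((integrable_const _).sub (((integrable_sq_gR D).div_const _))).comp_snd _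
  have key : ∫ p, (Real.log (gam U p.1) + Real.log (gam D p.2)) ∂(gR U).prod (gR D) ≤
      ∫ p, Real.log (g (pi2 (udHom p))) ∂(gR U).prod (gR D) := by
    refine integral_mono_ae (iu.add id') ?_ ?_
    · obtain ⟨C, hC⟩ := isCompact_univ.exists_bound_of_continuousOn hl.continuousOn
      exact (integrable_const C).mono' (hl.measurable.comp measurable_pud).aestronglyMeasurable
        (Filter.Eventually.of_forall fun x => hC _ (Set.mem_univ _))
    · have hac : (gR U).prod (gR D) ≪ volume := by
        rw [gR_eq hU, gR_eq hD, Measure.volume_eq_prod]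
        exact (withDensity_absolutelyContinuous _ _).prod (withDensity_absolutelyContinuous _ _)
      filter_upwards [hac.ae_le hge] with p hp
      rw [← Real.log_mul (gam_pos hU _).ne' (gam_pos hD _).ne']
      exact Real.log_le_log (mul_pos (gam_pos hU _) (gam_pos hD _)) hp
  rw [integral_add iu id', integral_fun_fst (fun x => Real.log (gam U x)),
    integral_fun_snd (fun x => Real.log (gam D x))] at key
  simp only [probReal_univ, one_smul, integral_log_gam hU, integral_log_gam hD] at key
  rw [hg.ent_eq, ← hg.integral fun y => Real.log (g y), noise2_eq,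
    integral_map measurable_pud.aemeasurable hl.aestronglyMeasurable]
  simp only [Function.comp_apply]
  linarith

/-- Subadditivity in a pair of coordinates given by a shear, with finer independent noise. -/
lemma pair_bound (μ : Measure T2) [IsProbabilityMeasure μ] {v r a b : ℝ} (ha : 0 < a) (hb : 0 < b)
    (hv : 0 < v) (hr0 : 0 ≤ r) (hr1 : r < 1) (φ ψ : T2 →+ T2) (hψc : Continuous ψ)
    (hψ : ∀ y, ψ (φ y) = y) (hmp : MeasurePreserving φ (volume : Measure T2) volume)
    (hψmp : MeasurePreserving ψ (volume : Measure T2) volume) (ρ : Measure T2)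
    [IsProbabilityMeasure ρ] (hdec : noise2 v r = ((noise1 a).prod (noise1 b)).map φ ∗ ρ) :
    J2 μ v r ≤ (ent (μ.map (fun y => (ψ y).1) ∗ noise1 a) - ent (noise1 a)) +
      (ent (μ.map (fun y => (ψ y).2) ∗ noise1 b) - ent (noise1 b)) := by
  set ν := ((noise1 a).prod (noise1 b)).map φ with hν
  have hd := (noise1_dens ha).prod (noise1_dens hb)
  have hg := hd.map_equiv φ ψ hψc hψ hmp
  have : IsProbabilityMeasure ν := Measure.isProbabilityMeasure_map hmp.measurable.aemeasurable
  have h1 := ent_conv_conv_le (σ := μ) (ρ := ρ) hg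
  rw [← hdec] at h1
  have hent : ent ν = ent (noise1 a) + ent (noise1 b) := by
    rw [hν, ent_map_equiv hd φ ψ hψc hψ hmp, ent_prod (noise1_dens ha) (noise1_dens hb)]
  have hp := hg.conv μ
  have m1 : Measurable fun y => (ψ y).1 := measurable_fst.comp hψc.measurable
  have m2 : Measurable fun y => (ψ y).2 := measurable_snd.comp hψc.measurable
  have e1 : (μ ∗ ν).map (fun y => (ψ y).1) = μ.map (fun y => (ψ y).1) ∗ noise1 a := by
    refine (Measure.map_conv_addMonoidHom ((AddMonoidHom.fst Tor Tor).comp ψ) m1).trans ?_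
    show μ.map (fun y => (ψ y).1) ∗ ν.map (fun y => (ψ y).1) = _
    rw [hν, Measure.map_map m1 hmp.measurable,
      show ((fun y => (ψ y).1) ∘ φ) = Prod.fst from funext fun y => by simp [hψ],
      measurePreserving_fst.map_eq]
  have e2 : (μ ∗ ν).map (fun y => (ψ y).2) = μ.map (fun y => (ψ y).2) ∗ noise1 b := by
    refine (Measure.map_conv_addMonoidHom ((AddMonoidHom.snd Tor Tor).comp ψ) m2).trans ?_
    show μ.map (fun y => (ψ y).2) ∗ ν.map (fun y => (ψ y).2) = _
    rw [hν, Measure.map_map m2 hmp.measurable,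
      show ((fun y => (ψ y).2) ∘ φ) = Prod.snd from funext fun y => by simp [hψ],
      measurePreserving_snd.map_eq]
  have : IsProbabilityMeasure (μ.map (fun y => (ψ y).1)) :=
    Measure.isProbabilityMeasure_map m1.aemeasurable
  have : IsProbabilityMeasure (μ.map (fun y => (ψ y).2)) :=
    Measure.isProbabilityMeasure_map m2.aemeasurable
  have d1 : HasDens ((μ ∗ ν).map (fun y => (ψ y).1)) _ := e1 ▸ (noise1_dens ha).conv _
  have d2 : HasDens ((μ ∗ ν).map (fun y => (ψ y).2)) _ := e2 ▸ (noise1_dens hb).conv _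
  have h2 := ent_le_add hp (continuous_fst.comp hψc) (continuous_snd.comp hψc)
    (by rw [← Measure.volume_eq_prod]; exact hψmp) d1 d2
  rw [Function.comp_def, Function.comp_def, e1, e2] at h2
  have := ent_noise2_le hv hr0 hr1
  rw [J2]
  linarith

/-- Smearing the diagonal keeps only the difference. -/
lemma ent_conv_diag (ν : Measure T2) [IsProbabilityMeasure ν] {p : Tor → ℝ}
    (hp : HasDens (ν.map dHom) p) :
    ent (ν ∗ (volume : Measure Tor).map (fun t => (t, t))) = ent (ν.map dHom) := by
  have : IsProbabilityMeasure (ν.map dHom) :=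
    Measure.isProbabilityMeasure_map continuous_dHom.measurable.aemeasurable
  have hone : HasDens (volume : Measure Tor) (fun _ => (1 : ℝ)) :=
    ⟨continuous_const, fun _ => one_pos, by simp⟩
  have hmp : MeasurePreserving (fun z : T2 => (z.1, z.1 + z.2)) (volume : Measure T2) volume :=
    measurePreserving_prod_add (volume : Measure Tor) (volume : Measure Tor)
  have hdiag : Measurable fun t : Tor => (t, t) := measurable_id.prodMk measurable_id
  have heq : ν ∗ (volume : Measure Tor).map (fun t => (t, t)) =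
      ((volume : Measure Tor).prod (ν.map dHom)).map (fun z : T2 => (z.1, z.1 + z.2)) := by
    refine Measure.ext_of_lintegral _ fun f hf => ?_
    have hf' : Measurable fun z : T2 => f (z.1, z.1 + z.2) := hf.comp hmp.measurable
    rw [Measure.lintegral_conv hf, lintegral_map hf hmp.measurable,
      lintegral_prod_symm' _ hf', lintegral_map hf'.lintegral_prod_left' continuous_dHom.measurable]
    refine lintegral_congr fun y => ?_
    rw [lintegral_map (f := fun z => f (y + z)) (hf.comp (measurable_const_add y)) hdiag,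
      ← lintegral_add_left_eq_self (μ := (volume : Measure Tor))
        (fun u => f (u, u + dHom y)) y.1]
    refine lintegral_congr fun u => congrArg f (Prod.ext ?_ ?_) <;> simp <;> abel
  have hone' : ent (volume : Measure Tor) = 0 := by rw [hone.ent_eq]; simp
  rw [heq, ent_map_equiv (hone.prod hp) _ (fun z : T2 => (z.1, z.2 - z.1))
    (continuous_fst.prodMk (continuous_snd.sub continuous_fst)) (fun z => by simp) hmp,
    ent_prod hone hp, hone', zero_add]

/-- The difference is controlled by the two coordinates. -/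
lemma diff_bound (μ : Measure T2) [IsProbabilityMeasure μ] {a : ℝ} (ha : 0 < a) :
    ent (μ.map dHom ∗ noise1 (2 * a)) - ent (noise1 (2 * a)) ≤
      (ent (μ.map Prod.fst ∗ noise1 a) - ent (noise1 a)) +
      (ent (μ.map Prod.snd ∗ noise1 a) - ent (noise1 a)) := by
  set ν := (noise1 a).prod (noise1 a) with hν
  have hd : HasDens ν _ := (noise1_dens ha).prod (noise1_dens ha)
  set ρ := (volume : Measure Tor).map (fun t => (t, t)) with hρ
  have : IsProbabilityMeasure ρ :=
    Measure.isProbabilityMeasure_map (measurable_id.prodMk measurable_id).aemeasurable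
  have : IsProbabilityMeasure (μ.map dHom) :=
    Measure.isProbabilityMeasure_map continuous_dHom.measurable.aemeasurable
  have : IsProbabilityMeasure (μ.map Prod.fst) :=
    Measure.isProbabilityMeasure_map measurable_fst.aemeasurable
  have : IsProbabilityMeasure (μ.map Prod.snd) :=
    Measure.isProbabilityMeasure_map measurable_snd.aemeasurable
  have hνd : ν.map dHom = noise1 (2 * a) := by
    rw [hν, ← map_pi2_mat, Measure.map_map continuous_dHom.measurable measurable_pi2,
      show (dHom ∘ pi2) = ((↑) : ℝ → Tor) ∘ linHom (-1) 1 from funext fun p => by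
        simp only [Function.comp_apply, dHom_apply, pi2_apply, linHom_apply]
        rw [← AddCircle.coe_sub]
        congr 1
        ring,
      ← Measure.map_map measurable_coe (measurable_linHom _ _), prod_map_lin ha.le ha.le, noise1]
    norm_num [two_mul]
  have hμν : (μ ∗ ν).map dHom = μ.map dHom ∗ noise1 (2 * a) := by
    rw [Measure.map_conv_addMonoidHom _ continuous_dHom.measurable, hνd]
  have h1 := ent_conv_conv_le (σ := μ) (ρ := ρ) hd
  rw [← Measure.conv_assoc, hρ,
    ent_conv_diag (μ ∗ ν) (hμν ▸ (noise1_dens (mul_pos two_pos ha)).conv _),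
    ent_conv_diag ν (hνd ▸ noise1_dens (mul_pos two_pos ha)), hμν, hνd] at h1
  have e1 : (μ ∗ ν).map Prod.fst = μ.map Prod.fst ∗ noise1 a := by
    refine (Measure.map_conv_addMonoidHom (AddMonoidHom.fst Tor Tor) measurable_fst).trans ?_
    show μ.map Prod.fst ∗ ν.map Prod.fst = _
    rw [hν, measurePreserving_fst.map_eq]
  have e2 : (μ ∗ ν).map Prod.snd = μ.map Prod.snd ∗ noise1 a := by
    refine (Measure.map_conv_addMonoidHom (AddMonoidHom.snd Tor Tor) measurable_snd).trans ?_
    show μ.map Prod.snd ∗ ν.map Prod.snd = _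
    rw [hν, measurePreserving_snd.map_eq]
  have h2 := ent_le_add (hd.conv μ) continuous_fst continuous_snd
    (by rw [← Measure.volume_eq_prod]; exact MeasurePreserving.id _)
    (e1 ▸ (noise1_dens ha).conv _) (e2 ▸ (noise1_dens ha).conv _)
  rw [e1, e2] at h2
  have h3 : ent ν = ent (noise1 a) + ent (noise1 a) := ent_prod (noise1_dens ha) (noise1_dens ha)
  linarith

/-- The shear `(x, d) ↦ (x, x + d)`. -/
def shear0 : T2 →+ T2 :=
  (AddMonoidHom.fst Tor Tor).prod (AddMonoidHom.fst Tor Tor + AddMonoidHom.snd Tor Tor)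

/-- Its inverse. -/
def unshear0 : T2 →+ T2 := (AddMonoidHom.fst Tor Tor).prod dHom

/-- The shear `(x, d) ↦ (x - d, x)`. -/
def shear1 : T2 →+ T2 :=
  (AddMonoidHom.fst Tor Tor - AddMonoidHom.snd Tor Tor).prod (AddMonoidHom.fst Tor Tor)

/-- Its inverse. -/
def unshear1 : T2 →+ T2 := (AddMonoidHom.snd Tor Tor).prod dHom

@[simp] lemma shear0_apply (z : T2) : shear0 z = (z.1, z.1 + z.2) := rfl
@[simp] lemma unshear0_apply (z : T2) : unshear0 z = (z.1, z.2 - z.1) := rfl
@[simp] lemma shear1_apply (z : T2) : shear1 z = (z.1 - z.2, z.1) := rfl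
@[simp] lemma unshear1_apply (z : T2) : unshear1 z = (z.2, z.2 - z.1) := rfl

lemma mp_shear0 : MeasurePreserving shear0 (volume : Measure T2) volume :=
  measurePreserving_prod_add (volume : Measure Tor) (volume : Measure Tor)

lemma mp_neg_snd : MeasurePreserving (fun z : T2 => (z.1, -z.2)) (volume : Measure T2) volume :=
  (MeasurePreserving.id (volume : Measure Tor)).prod (Measure.measurePreserving_neg _)

lemma mp_shear1 : MeasurePreserving shear1 (volume : Measure T2) volume := by
  have h := (Measure.measurePreserving_swap (μ := (volume : Measure Tor))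
    (ν := (volume : Measure Tor))).comp (mp_shear0.comp mp_neg_snd)
  rwa [show (⇑shear1) = Prod.swap ∘ ⇑shear0 ∘ fun z : T2 => (z.1, -z.2) from
    funext fun z => by simp [sub_eq_add_neg]]

lemma mp_unshear0 : MeasurePreserving unshear0 (volume : Measure T2) volume := by
  have h := mp_neg_snd.comp (mp_shear0.comp mp_neg_snd)
  rwa [show (⇑unshear0) = (fun z : T2 => (z.1, -z.2)) ∘ ⇑shear0 ∘ fun z : T2 => (z.1, -z.2) from
    funext fun z => by simp [sub_eq_add_neg, add_comm]]

lemma mp_unshear1 : MeasurePreserving unshear1 (volume : Measure T2) volume := by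
  have h := mp_shear0.comp (mp_neg_snd.comp (Measure.measurePreserving_swap
    (μ := (volume : Measure Tor)) (ν := (volume : Measure Tor))))
  rwa [show (⇑unshear1) = ⇑shear0 ∘ (fun z : T2 => (z.1, -z.2)) ∘ Prod.swap from
    funext fun z => by simp [sub_eq_add_neg]]

/-- A finer product noise in sheared coordinates. -/
lemma exists_dec {v a b A B r : ℝ} (φ : T2 →+ T2) (hφc : Continuous φ) (M N : ℝ × ℝ →+ ℝ × ℝ)
    (hM : Measurable M) (hN : Measurable N) (ha : 0 ≤ a) (hb : 0 ≤ b) (hA : 0 ≤ A) (hB : 0 ≤ B)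
    (hφ : ∀ p, φ (pi2 p) = pi2 (M p))
    (h : ((gR a).prod (gR b)).map M ∗ ((gR A).prod (gR B)).map N = (gUD v r).map udHom) :
    noise2 v r = ((noise1 a).prod (noise1 b)).map φ ∗ (((gR A).prod (gR B)).map N).map pi2 := by
  rw [noise2_eq, ← Measure.map_map measurable_pi2 (by exact measurable_mat _ _ _ _), ← h,
    Measure.map_conv_addMonoidHom _ measurable_pi2, ← map_pi2_mat,
    Measure.map_map measurable_pi2 hM, Measure.map_map hφc.measurable measurable_pi2]
  congr 2
  funext p
  exact (hφ p).symm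

/-- Linear combination of the two pair bounds. -/
lemma sub_pair (μ : Measure T2) [IsProbabilityMeasure μ] {v K r T : ℝ} (hv : 0 < v) (hK : 0 < K)
    (hK' : K ≤ 1 / 16) (hr0 : 0 ≤ r) (hKr : K ≤ 1 - r)
    (hT : ∀ w, 0 < w → w ≤ 2 * (K * v) → gEnt w - T ≤ ent (noise1 w)) :
    (1 + r) * J2 μ v r ≤
      F0 μ (K * v) + F1 μ (K * v) + 2 * r * Fd μ (K * v) r + 4 * T := by
  have hr1 : r < 1 := by linarith
  have ha : 0 < K * v := mul_pos hK hv
  have hbd : 0 < 2 * (K * v) * (1 - r) := mul_pos (by positivity) (by linarith)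
  have hU : 0 ≤ v * (1 + r) / 2 := by positivity
  have hD : 0 ≤ 2 * v * (1 - r) := mul_nonneg (by positivity) (by linarith)
  have T1 := hT (K * v) ha (by linarith)
  have T2' := hT (2 * (K * v) * (1 - r)) hbd (by nlinarith)
  have hT0 : 0 ≤ T := by linarith [ent_noise1_le ha]
  -- the pair of the two coordinates
  have h01 : J2 μ v r ≤ F0 μ (K * v) + F1 μ (K * v) + 2 * T := by
    set A := v * (1 + r) / 2 - K * v / 2 with hA
    set B := 2 * v * (1 - r) - 2 * (K * v) with hB
    have hA0 : 0 ≤ A := by nlinarith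
    have hB0 : 0 ≤ B := by nlinarith
    have hid : Measurable (AddMonoidHom.id (ℝ × ℝ)) := measurable_id
    have hdec := exists_dec (v := v) (r := r) (a := K * v) (b := K * v) (AddMonoidHom.id T2)
      continuous_id (AddMonoidHom.id _) udHom hid (measurable_mat _ _ _ _) ha.le ha.le hA0 hB0
      (fun p => rfl) (ext_lin fun α β => by
        rw [conv_map_lin, show (⇑(AddMonoidHom.id (ℝ × ℝ))) = id from rfl, Measure.map_id, udHom,
          mat_map_lin, mat_map_lin, prod_map_lin ha.le ha.le, prod_map_lin hA0 hB0,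
          prod_map_lin hU hD, gR_conv (by positivity) (by positivity)]
        congr 1
        rw [hA, hB]; ring)
    have : IsProbabilityMeasure ((((gR A).prod (gR B)).map udHom).map pi2) := by
      have : IsProbabilityMeasure (((gR A).prod (gR B)).map udHom) :=
        Measure.isProbabilityMeasure_map (measurable_mat _ _ _ _).aemeasurable
      exact Measure.isProbabilityMeasure_map measurable_pi2.aemeasurable
    have := pair_bound μ ha ha hv hr0 hr1 (AddMonoidHom.id T2) (AddMonoidHom.id T2) continuous_id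
      (fun y => rfl) (MeasurePreserving.id _) (MeasurePreserving.id _) _ hdec
    simp only [AddMonoidHom.id_apply] at this
    rw [F0, F1]
    linarith
  -- parameters for the pairs with the difference
  set A := v - K * v with hA
  have hA0 : 0 < A := by nlinarith
  set t := v * (1 - r) / A with ht
  set B := 2 * v * (1 - r) - 2 * (K * v) * (1 - r) - t ^ 2 * A with hB
  have htA : t * A = v * (1 - r) := div_mul_cancel₀ _ hA0.ne'
  have ht0 : 0 ≤ t := div_nonneg (mul_nonneg hv.le (by linarith)) hA0.le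
  have ht1 : t ≤ 16 / 15 := by
    rw [ht, div_le_iff₀ hA0, hA]
    nlinarith
  have hB0 : 0 ≤ B := by
    rw [hB, show t ^ 2 * A = t * (t * A) by ring, htA]
    have : 0 ≤ v * (1 - r) := mul_nonneg hv.le (by linarith)
    nlinarith
  have mA : ∀ a b c d : ℝ,
      IsProbabilityMeasure ((((gR A).prod (gR B)).map (mat a b c d)).map pi2) := fun a b c d => by
    have : IsProbabilityMeasure (((gR A).prod (gR B)).map (mat a b c d)) :=
      Measure.isProbabilityMeasure_map (measurable_mat _ _ _ _).aemeasurable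
    exact Measure.isProbabilityMeasure_map measurable_pi2.aemeasurable
  have h0d : J2 μ v r ≤ F0 μ (K * v) + Fd μ (K * v) r + 2 * T := by
    have hdec := exists_dec (v := v) (r := r) (a := K * v) (b := 2 * (K * v) * (1 - r)) shear0
      (continuous_fst.prodMk (continuous_fst.add continuous_snd))
      (mat 1 0 1 1) (mat 1 0 (1 - t) 1) (measurable_mat _ _ _ _) (measurable_mat _ _ _ _)
      ha.le hbd.le hA0.le hB0
      (fun p => by simp) (ext_lin fun α β => by
        rw [conv_map_lin, udHom, mat_map_lin, mat_map_lin, mat_map_lin, prod_map_lin ha.le hbd.le,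
          prod_map_lin hA0.le hB0, prod_map_lin hU hD, gR_conv (by positivity) (by positivity)]
        congr 1
        linear_combination (-2 * β * (α + β)) * htA + β ^ 2 * hB + (α + β) ^ 2 * hA)
    have := mA 1 0 (1 - t) 1
    have := pair_bound μ ha hbd hv hr0 hr1 shear0 unshear0
      (continuous_fst.prodMk (continuous_snd.sub continuous_fst)) (fun y => by simp)
      mp_shear0 mp_unshear0 _ hdec
    simp only [unshear0_apply] at this
    rw [F0, Fd, show (μ.map dHom) = μ.map (fun y : T2 => y.2 - y.1) from rfl]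
    linarith
  have h1d : J2 μ v r ≤ F1 μ (K * v) + Fd μ (K * v) r + 2 * T := by
    have hdec := exists_dec (v := v) (r := r) (a := K * v) (b := 2 * (K * v) * (1 - r)) shear1
      ((continuous_fst.sub continuous_snd).prodMk continuous_fst)
      (mat 1 (-1) 1 0) (mat (1 - t) (-1) 1 0) (measurable_mat _ _ _ _) (measurable_mat _ _ _ _)
      ha.le hbd.le hA0.le hB0
      (fun p => by simp [← AddCircle.coe_sub, sub_eq_add_neg]) (ext_lin fun α β => by
        rw [conv_map_lin, udHom, mat_map_lin, mat_map_lin, mat_map_lin, prod_map_lin ha.le hbd.le,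
          prod_map_lin hA0.le hB0, prod_map_lin hU hD, gR_conv (by positivity) (by positivity)]
        congr 1
        linear_combination (-2 * α * (α + β)) * htA + α ^ 2 * hB + (α + β) ^ 2 * hA)
    have := mA (1 - t) (-1) 1 0
    have := pair_bound μ ha hbd hv hr0 hr1 shear1 unshear1
      (continuous_snd.prodMk (continuous_snd.sub continuous_fst)) (fun y => by simp)
      mp_shear1 mp_unshear1 _ hdec
    simp only [unshear1_apply] at this
    rw [F1, Fd, show (μ.map dHom) = μ.map (fun y : T2 => y.2 - y.1) from rfl]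
    linarith
  have := mul_le_mul_of_nonneg_left h01 (sub_nonneg.2 hr1.le)
  have := mul_le_mul_of_nonneg_left h0d hr0
  have := mul_le_mul_of_nonneg_left h1d hr0
  nlinarith

/-- The arithmetic at the end of the averaging. -/
lemma final_arith {L J x E a b c a' b' c' r : ℝ} (hL : 1 ≤ L) (hE : 0 ≤ E)
    (hsum : L * (J - x) ≤ a + b + 2 * r * c - (a' + b' + 2 * r * c') + L * (4 * (8 * E)))
    (hab : a + b ≤ x + 2 * (8 * E)) (hc : r * c ≤ x + 4 * (8 * E)) (ha' : -(8 * E) ≤ a')
    (hb' : -(8 * E) ≤ b') (hc' : -(2 * (8 * E)) ≤ 2 * r * c') (hx : -(E / 2) ≤ x) :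
    L * J ≤ (L + 1000) * x + L * (1000 * E) := by
  have h1 : 0 ≤ E * (L - 1) := mul_nonneg hE (by linarith)
  nlinarith

/-- At a scale far below `σ` the information is almost nonnegative. -/
lemma info_low (π₀ : Measure Tor) [IsProbabilityMeasure π₀] {u σ : ℝ} (hu : 0 < u) (hσ : 0 < σ)
    (hσ' : σ ≤ 1 / 16) (h : u ≤ σ ^ 2 / 256) :
    -(Real.exp (-(1 / (100 * σ ^ 2))) / 4) ≤ ent (π₀ ∗ noise1 u) - gEnt u := by
  have hσ2 : σ ^ 2 ≤ 1 / 256 := by nlinarith
  have hd : 4 / σ ^ 2 ≤ 1 / (50 * u) - 1 / (100 * σ ^ 2) := by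
    rw [← sub_nonneg, show 1 / (50 * u) - 1 / (100 * σ ^ 2) - 4 / σ ^ 2 =
      (2 * σ ^ 2 - 401 * u) / (100 * σ ^ 2 * u) by field_simp; ring]
    exact div_nonneg (by linarith) (by positivity)
  have h4 : 1024 ≤ 4 / σ ^ 2 := by rw [le_div_iff₀ (by positivity)]; linarith
  have he : Real.exp (-(1 / (50 * u))) ≤
      Real.exp (-(1 / (100 * σ ^ 2))) * Real.exp (-1024) := by
    rw [← Real.exp_add]
    exact Real.exp_le_exp.2 (by linarith)
  have h32 : 32 * Real.exp (-1024) ≤ 1 := by
    rw [Real.exp_neg, ← div_eq_mul_inv, div_le_one (Real.exp_pos _)]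
    linarith [Real.add_one_le_exp (1024 : ℝ)]
  have h0 := ent_le_ent_conv (σ := π₀) (noise1_dens hu)
  have h2 := ent_noise1_ge hu (by linarith)
  have := mul_le_mul_of_nonneg_left h32 (Real.exp_pos (-(1 / (100 * σ ^ 2)))).le
  linarith

theorem point_ineq : ∃ C : ℝ, 0 < C ∧ ∀ (μ : Measure T2) [IsProbabilityMeasure μ]
    (s σ κ r : ℝ) (L : ℕ), 0 < s → 0 < κ → κ ≤ 1 / 4 → 0 ≤ r → κ ^ 2 ≤ 1 - r → 1 ≤ L →
    s ≤ σ * κ ^ (L + 1) → σ ≤ 1 / 16 →
    (1 + r) * J2 μ (s ^ 2) r - 2 * r * Fd μ (s ^ 2) r ≤
      (1 + C / L) * (F0 μ (s ^ 2) + F1 μ (s ^ 2)) + C * Real.exp (-(1 / (100 * σ ^ 2))) := by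
  refine ⟨1000, by norm_num, fun μ _ s σ κ r L hs hκ hκ4 hr0 hκr hL hsσ hσ => ?_⟩
  set T := 8 * Real.exp (-(1 / (100 * σ ^ 2))) with hTdef
  have hσ0 : 0 < σ := by
    have : 0 < σ * κ ^ (L + 1) := hs.trans_le hsσ
    exact pos_of_mul_pos_left this (by positivity)
  set K := κ ^ 2 with hKdef
  have hK : 0 < K := by positivity
  have hK' : K ≤ 1 / 16 := by nlinarith
  have hr1 : r < 1 := by linarith
  have hT : ∀ w, 0 < w → w ≤ 2 * σ ^ 2 → gEnt w - T ≤ ent (noise1 w) := fun w hw hw' => by
    have h1 : Real.exp (-(1 / (50 * w))) ≤ Real.exp (-(1 / (100 * σ ^ 2))) := by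
      apply Real.exp_le_exp.2
      rw [neg_le_neg_iff]
      exact one_div_le_one_div_of_le (by positivity) (by linarith)
    linarith [ent_noise1_ge hw (by nlinarith)]
  set v : ℕ → ℝ := fun j => s ^ 2 / K ^ j with hvdef
  have hvpos : ∀ j, 0 < v j := fun j => by positivity
  have hv0 : v 0 = s ^ 2 := by simp [hvdef]
  have hvstep : ∀ j, K * v (j + 1) = v j := fun j => by
    simp only [hvdef, pow_succ]; field_simp
  have hvlt : ∀ j, v j < v (j + 1) := fun j => by
    have := hvpos (j + 1); have := hvstep j; nlinarith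
  have hvmono : StrictMono v := strictMono_nat_of_lt_succ hvlt
  have hvtop : ∀ j, j ≤ L + 1 → v j ≤ σ ^ 2 := fun j hj => by
    refine (hvmono.monotone hj).trans ?_
    show s ^ 2 / K ^ (L + 1) ≤ σ ^ 2
    rw [div_le_iff₀ (by positivity), hKdef, ← pow_mul, mul_comm 2, pow_mul, ← mul_pow]
    exact pow_le_pow_left₀ hs.le hsσ 2
  have P0 : IsProbabilityMeasure (μ.map Prod.fst) :=
    Measure.isProbabilityMeasure_map measurable_fst.aemeasurable
  have P1 : IsProbabilityMeasure (μ.map Prod.snd) :=
    Measure.isProbabilityMeasure_map measurable_snd.aemeasurable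
  have Pd : IsProbabilityMeasure (μ.map dHom) :=
    Measure.isProbabilityMeasure_map continuous_dHom.measurable.aemeasurable
  have hs2 : v 0 ≤ σ ^ 2 := hvtop 0 (Nat.zero_le _)
  have hbase := hT (v 0) (hvpos 0) (by nlinarith)
  have hT0 : 0 ≤ T := by positivity
  -- lower bounds
  have low0 : ∀ j, j ≤ L + 1 → -T ≤ F0 μ (v j) := fun j hj => by
    have := ent_le_ent_conv (σ := μ.map Prod.fst) (noise1_dens (hvpos j))
    have := hT (v j) (hvpos j) (by have := hvtop j hj; nlinarith)
    rw [F0]; linarith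
  have low1 : ∀ j, j ≤ L + 1 → -T ≤ F1 μ (v j) := fun j hj => by
    have := ent_le_ent_conv (σ := μ.map Prod.snd) (noise1_dens (hvpos j))
    have := hT (v j) (hvpos j) (by have := hvtop j hj; nlinarith)
    rw [F1]; linarith
  have lowd : ∀ j, j ≤ L + 1 → -T ≤ Fd μ (v j) r := fun j hj => by
    have hp : 0 < 2 * v j * (1 - r) := mul_pos (by linarith [hvpos j]) (by linarith)
    have := ent_le_ent_conv (σ := μ.map dHom) (noise1_dens hp)
    have := hT _ hp (by have := hvtop j hj; have := hvpos j; nlinarith)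
    rw [Fd]; linarith
  -- the first scale
  have up0 : F0 μ (v 1) ≤ F0 μ (v 0) + T := by
    have := mono1 (μ.map Prod.fst) (hvpos 0) (hvlt 0).le
    have := ent_noise1_le (hvpos 1)
    rw [F0, F0]; linarith
  have up1 : F1 μ (v 1) ≤ F1 μ (v 0) + T := by
    have := mono1 (μ.map Prod.snd) (hvpos 0) (hvlt 0).le
    have := ent_noise1_le (hvpos 1)
    rw [F1, F1]; linarith
  have upd : Fd μ (v 1) r ≤ F0 μ (v 0) + F1 μ (v 0) + 2 * T := by
    have hp : 0 < 2 * v 1 * (1 - r) := mul_pos (by linarith [hvpos 1]) (by linarith)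
    have hle : 2 * v 0 ≤ 2 * v 1 * (1 - r) := by
      have := hvstep 0; have := hvpos 1; nlinarith
    have := mono1 (μ.map dHom) (mul_pos two_pos (hvpos 0)) hle
    have := diff_bound μ (hvpos 0)
    have := ent_noise1_le hp
    rw [F0, F1, Fd]; linarith
  -- the telescoping average
  set Φ : ℕ → ℝ := fun i => F0 μ (v (i + 1)) + F1 μ (v (i + 1)) + 2 * r * Fd μ (v (i + 1)) r
    with hΦ
  have step : ∀ i < L, loss μ (v 0) r ≤ Φ i - Φ (i + 1) + 4 * T := fun i hi => by
    have h1 := loss_mono μ (hvpos 0) (hvmono (by omega : 0 < i + 2)) hr0 hr1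
    have h2 := sub_pair μ (v := v (i + 2)) (K := K) (T := T) (hvpos _) hK hK' hr0 hκr
      fun w hw hw' => hT w hw (by
        rw [hvstep] at hw'
        have := hvtop (i + 1) (by omega)
        linarith)
    rw [hvstep] at h2
    simp only [loss] at h1 ⊢
    simp only [hΦ, show i + 1 + 1 = i + 2 from rfl]
    linarith
  have hsum := Finset.sum_le_sum (s := Finset.range L) fun i hi => step i (Finset.mem_range.1 hi)
  rw [Finset.sum_const, Finset.card_range, Finset.sum_add_distrib, Finset.sum_range_sub',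
    Finset.sum_const, Finset.card_range, nsmul_eq_mul, nsmul_eq_mul] at hsum
  simp only [hΦ, loss, zero_add] at hsum
  have hlast0 := low0 (L + 1) le_rfl
  have hlast1 := low1 (L + 1) le_rfl
  have hlastd := lowd (L + 1) le_rfl
  have hz0 := low0 0 (Nat.zero_le _)
  have hz1 := low1 0 (Nat.zero_le _)
  rw [hv0] at hsum up0 up1 upd hz0 hz1
  set x := F0 μ (s ^ 2) + F1 μ (s ^ 2) with hx
  set E := Real.exp (-(1 / (100 * σ ^ 2))) with hE
  have hE0 : 0 < E := Real.exp_pos _
  have hv256 : s ^ 2 ≤ σ ^ 2 / 256 := by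
    have : κ ^ (L + 1) ≤ κ ^ 2 := pow_le_pow_of_le_one hκ.le (by linarith) (by omega)
    have : s ≤ σ * (1 / 16) :=
      hsσ.trans (mul_le_mul_of_nonneg_left (by linarith) hσ0.le)
    calc s ^ 2 ≤ (σ * (1 / 16)) ^ 2 := pow_le_pow_left₀ hs.le this 2
      _ = σ ^ 2 / 256 := by ring
  have hu : 0 < s ^ 2 := pow_pos hs 2
  have hi0 := info_low (μ.map Prod.fst) hu hσ0 hσ hv256
  have hi1 := info_low (μ.map Prod.snd) hu hσ0 hσ hv256
  rw [← hE] at hi0 hi1
  have hxlow : -(E / 2) ≤ x := by rw [hx, F0, F1]; linarith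
  have hT8 : T = 8 * E := rfl
  rw [hT8] at hsum hlast0 hlast1 hlastd up0 up1 upd hT0
  have hr2 : r * Fd μ (v 1) r ≤ x + 4 * (8 * E) := by
    refine (mul_le_mul_of_nonneg_left upd hr0).trans ?_
    have h16 : 0 ≤ (1 - r) * (x + 2 * (8 * E)) := mul_nonneg (by linarith) (by linarith)
    linarith
  have hlast : -(2 * (8 * E)) ≤ 2 * r * Fd μ (v (L + 1)) r := by
    have := mul_le_mul_of_nonneg_left hlastd hr0
    have : 0 ≤ (1 - r) * (8 * E) := mul_nonneg (by linarith) hT0
    linarith
  have hL0 : (1 : ℝ) ≤ L := by exact_mod_cast hL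
  have key := final_arith (J := (1 + r) * J2 μ (s ^ 2) r - 2 * r * Fd μ (s ^ 2) r) (x := x)
    (a := F0 μ (v 1)) (b := F1 μ (v 1))
    hL0 hE0.le (by rw [hx]; linarith) (by linarith) hr2 hlast0 hlast1 hlast hxlow
  rw [show (1 + 1000 / (L : ℝ)) * x + 1000 * E = ((L + 1000) * x + L * (1000 * E)) / L by
    field_simp, le_div_iff₀ (by linarith)]
  linarith

end Vale.Agent.P047.Disproof.Loc
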