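import Vale.Agent.P047.Disproof.Compose

/-!
The power gain at every large degree, not only along a sequence.
-/

namespace Vale.Agent.P047.Disproof

open Filter

theorem power_gain_all {n D : ℕ} (f : Cube n → ℝ) (hb : IsBool f) (hd : DegLE f D)
    (hs : Real.sqrt (D + 1) < levelOne f) :
    ∃ c : ℝ, 0 < c ∧ ∀ᶠ d : ℕ in atTop, ∃ (m : ℕ) (g : Cube m → ℝ),
      IsBool g ∧ DegLE g d ∧ (d : ℝ) ^ ((1 : ℝ) / 2 + c) ≤ levelOne g := by
  obtain ⟨g, hg, hl⟩ := balance f hb hd
  set M := mass g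
  have hM : Real.sqrt (D + 1) < M := lt_of_lt_of_le hs hl
  have hM1 : 1 < M := lt_of_le_of_lt (Real.one_le_sqrt.2 (by simp)) hM
  have hM0 : 0 < M := zero_lt_one.trans hM1
  rcases Nat.eq_zero_or_pos D with rfl | hD
  · refine ⟨1 / 2, by norm_num, ?_⟩
    filter_upwards [eventually_ge_atTop 1] with d hd1
    obtain ⟨k, hk⟩ := pow_unbounded_of_one_lt (d : ℝ) hM1
    obtain ⟨m, F, hF, hlF⟩ := iterate_good hg k
    refine ⟨m, F, hF.1, fun S hS => ?_, ?_⟩
    · rw [coef_eq_cf]
      refine hF.2.2 S ?_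
      simp only [zero_add, one_pow]
      omega
    · rw [levelOne_eq_lev, hlF, show (1 : ℝ) / 2 + 1 / 2 = 1 by norm_num, Real.rpow_one]
      exact hk.le.trans (pow_le_pow_right₀ hM1.le (Nat.le_succ k))
  · set b := D + 1
    have hb1 : (1 : ℝ) < (b : ℝ) := by
      exact_mod_cast Nat.lt_add_of_pos_left hD
    set e := Real.logb (b : ℝ) M
    have he : 1 / 2 < e := by
      have h2 : Real.logb (b : ℝ) (Real.sqrt (b : ℝ)) = 1 / 2 := by
        rw [Real.sqrt_eq_rpow, Real.logb_rpow (by positivity) hb1.ne']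
      rw [← h2]
      exact Real.logb_lt_logb hb1 (Real.sqrt_pos.2 (by positivity)) (by simpa [b] using hM)
    have hbe : (b : ℝ) ^ e = M := Real.rpow_logb (by positivity) hb1.ne' hM0
    set c := (e - 1 / 2) / 2 with hc
    have hc0 : 0 < c := by rw [hc]; linarith
    refine ⟨c, hc0, ?_⟩
    filter_upwards [eventually_ge_atTop b,
      ((tendsto_rpow_atTop hc0).comp tendsto_natCast_atTop_atTop).eventually_ge_atTop M] with
      d hdb hdM
    have hb2 : 1 < b := Nat.succ_le_succ hD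
    obtain ⟨j, hj⟩ : ∃ j, Nat.log b d = j + 1 :=
      ⟨Nat.log b d - 1, (Nat.succ_pred_eq_of_pos (Nat.log_pos hb2 hdb)).symm⟩
    obtain ⟨m, F, hF, hlF⟩ := iterate_good hg j
    have hlo : b ^ (j + 1) ≤ d := hj ▸ Nat.pow_log_le_self b (by omega)
    have hhi : (d : ℝ) ≤ (b : ℝ) ^ (j + 1 + 1) := by
      have := Nat.lt_pow_succ_log_self hb2 d
      rw [hj] at this
      exact_mod_cast this.le
    refine ⟨m, F, hF.1, fun S hS => ?_, ?_⟩
    · rw [coef_eq_cf]
      exact hF.2.2 S (lt_of_le_of_lt hlo hS)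
    · rw [levelOne_eq_lev, hlF]
      refine le_of_mul_le_mul_right ?_ hM0
      calc (d : ℝ) ^ ((1 : ℝ) / 2 + c) * M ≤ (d : ℝ) ^ ((1 : ℝ) / 2 + c) * (d : ℝ) ^ c :=
            mul_le_mul_of_nonneg_left hdM (by positivity)
        _ = (d : ℝ) ^ e := by
            rw [← Real.rpow_add' (Nat.cast_nonneg d) (by linarith)]
            congr 1
            rw [hc]; ring
        _ ≤ ((b : ℝ) ^ (j + 1 + 1)) ^ e := Real.rpow_le_rpow (Nat.cast_nonneg d) hhi (by linarith)
        _ = M ^ (j + 1 + 1) := by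
            rw [← Real.rpow_natCast, ← Real.rpow_mul (by positivity), mul_comm,
              Real.rpow_mul (by positivity), hbe, Real.rpow_natCast]
        _ = _ := pow_succ M (j + 1)

end Vale.Agent.P047.Disproof
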