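import Mathlib

/-!
Truncated discrete Gaussians as trigonometric polynomials near a log-concave kernel.
-/

namespace Vale.Agent.P047.Disproof.Rounding

open Real

/-- Huber's function with threshold `1/50`. -/
noncomputable def hub (y : ℝ) : ℝ :=
  if |y| ≤ 1 / 50 then y ^ 2 else |y| / 25 - 1 / 2500

theorem le_hub {t : ℝ} (ht : |t| ≤ 1 / 50) (y : ℝ) : 2 * t * y - t ^ 2 ≤ hub y := by
  unfold hub
  split_ifs with h
  · nlinarith [sq_nonneg (y - t)]
  · have h1 : 2 * t * y ≤ 2 * |t| * |y| := by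
      rw [mul_assoc, mul_assoc, ← abs_mul]
      linarith [le_abs_self (t * y)]
    have h2 : |y| > 1 / 50 := lt_of_not_ge h
    nlinarith [sq_abs t, abs_nonneg t]

theorem hub_attained (y : ℝ) : ∃ t : ℝ, |t| ≤ 1 / 50 ∧ hub y = 2 * t * y - t ^ 2 := by
  unfold hub
  split_ifs with h
  · exact ⟨y, h, by ring⟩
  · rcases le_total 0 y with hy | hy
    · refine ⟨1 / 50, by rw [abs_of_pos (by norm_num)], ?_⟩
      rw [abs_of_nonneg hy]; ring
    · refine ⟨-(1 / 50), by rw [abs_neg, abs_of_pos (by norm_num)], ?_⟩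
      rw [abs_of_nonpos hy]; ring

theorem hub_mid (p q : ℝ) : 2 * hub ((p + q) / 2) ≤ hub p + hub q := by
  obtain ⟨t, ht, e⟩ := hub_attained ((p + q) / 2)
  have h1 := le_hub ht p
  have h2 := le_hub ht q
  rw [e]; linarith

/-- Strongly convex, equal to `y^2` on `|y| ≤ 1/50`. -/
noncomputable def kfun (y : ℝ) : ℝ := y ^ 2 / 100 + 99 / 100 * hub y

theorem kfun_mid (p q : ℝ) :
    2 * kfun ((p + q) / 2) + ((p - q) / 2) ^ 2 / 50 ≤ kfun p + kfun q := by
  have h := hub_mid p q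
  unfold kfun
  nlinarith

theorem kfun_neg (y : ℝ) : kfun (-y) = kfun y := by simp [kfun, hub]

theorem kfun_small {y : ℝ} (h : |y| ≤ 1 / 50) : kfun y = y ^ 2 := by
  simp only [kfun, hub, if_pos h]; ring

theorem kfun_le_sq (y : ℝ) : kfun y ≤ y ^ 2 := by
  have : hub y ≤ y ^ 2 := by
    unfold hub; split_ifs
    · rfl
    · nlinarith [sq_abs y, sq_nonneg (|y| - 1 / 50)]
  unfold kfun; linarith

theorem kfun_le {y : ℝ} (h : |y| ≤ 13 / 25) : kfun y ≤ 3 / 100 := by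
  have : hub y ≤ 3 / 125 := by
    unfold hub; split_ifs with hb
    · nlinarith [sq_abs y, abs_nonneg y]
    · linarith
  unfold kfun
  nlinarith [sq_abs y, abs_nonneg y]

theorem continuous_kfun : Continuous kfun := by
  have : hub = fun y => if |y| ≤ 1 / 50 then y ^ 2 else |y| / 25 - 1 / 2500 := rfl
  have hh : Continuous hub := by
    rw [this]
    refine Continuous.if_le (by fun_prop) (by fun_prop) (by fun_prop) (by fun_prop) ?_
    intro y hy
    rw [← sq_abs, hy]; norm_num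
  unfold kfun
  fun_prop

/-- The kernel `exp(-2π² n² kfun)`. -/
noncomputable def ker (n : ℕ) (y : ℝ) : ℝ := exp (-(2 * π ^ 2 * (n : ℝ) ^ 2 * kfun y))

theorem ker_pos (n : ℕ) (y : ℝ) : 0 < ker n y := exp_pos _

theorem ker_neg (n : ℕ) (y : ℝ) : ker n (-y) = ker n y := by simp [ker, kfun_neg]

theorem continuous_ker (n : ℕ) : Continuous (ker n) := by
  have := continuous_kfun
  unfold ker
  fun_prop

theorem ker_lc (n : ℕ) (p q : ℝ) : ker n p * ker n q ≤ ker n ((p + q) / 2) ^ 2 := by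
  simp only [ker, ← exp_add, sq, exp_le_exp]
  have := mul_le_mul_of_nonneg_left (kfun_mid p q) (by positivity : 0 ≤ 2 * π ^ 2 * (n : ℝ) * n)
  nlinarith [mul_nonneg (by positivity : 0 ≤ 2 * π ^ 2 * (n : ℝ) * n) (sq_nonneg (p - q))]

theorem ker_slc {n : ℕ} (hn : 4 ≤ n) (p q : ℝ) :
    ker n p * ker n q * exp (2 * ((p - q) / 2) ^ 2) ≤ ker n ((p + q) / 2) ^ 2 := by
  simp only [ker, ← exp_add, sq, exp_le_exp]
  have hn' : (4 : ℝ) ≤ n := by exact_mod_cast hn
  have := mul_le_mul_of_nonneg_left (kfun_mid p q) (by positivity : 0 ≤ 2 * π ^ 2 * (n : ℝ) * n)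
  have h100 : 100 ≤ 2 * π ^ 2 * (n : ℝ) * n := by
    nlinarith [pi_gt_three, mul_le_mul hn' hn' (by norm_num) (by linarith)]
  nlinarith [mul_le_mul_of_nonneg_right h100 (sq_nonneg ((p - q) / 2))]

theorem hasSum_half_pow_natAbs : HasSum (fun m : ℤ => ((1 : ℝ) / 2) ^ m.natAbs) 3 := by
  have h1 : HasSum (fun k : ℕ => ((1 : ℝ) / 2) ^ (k : ℤ).natAbs) 2 := by
    simpa using hasSum_geometric_two
  have h2 : HasSum (fun k : ℕ => ((1 : ℝ) / 2) ^ (-((k : ℤ) + 1)).natAbs) 1 := by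
    have h := hasSum_geometric_two.mul_left ((1 : ℝ) / 2)
    have e : ∀ k : ℕ, ((1 : ℝ) / 2) ^ (-((k : ℤ) + 1)).natAbs = 1 / 2 * (1 / 2) ^ k := by
      intro k
      rw [Int.natAbs_neg, show ((k : ℤ) + 1).natAbs = k + 1 by omega, pow_succ']
    simp only [e]
    simpa using h
  have h := HasSum.of_nat_of_neg_add_one (f := fun m : ℤ => ((1 : ℝ) / 2) ^ m.natAbs) h1 h2
  rwa [show (2 : ℝ) + 1 = 3 by norm_num] at h

/-- Unnormalised Gaussian weight. -/
noncomputable def gw (n : ℕ) (u : ℝ) (k : ℤ) : ℝ :=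
  exp (-(((k : ℝ) - u) ^ 2 / (2 * (n : ℝ) ^ 2))) / (n * √(2 * π))

/-- Poisson summation for the discrete Gaussian. -/
theorem tsum_gw (n : ℕ) (hn : 0 < n) (u y : ℝ) :
    (∑' k : ℤ, (gw n u k : ℂ) * Complex.exp (2 * π * Complex.I * (((k : ℝ) * y : ℝ) : ℂ))) =
      ∑' m : ℤ, (exp (-(2 * π ^ 2 * (n : ℝ) ^ 2 * (y - m) ^ 2)) : ℂ) *
        Complex.exp (2 * π * Complex.I * ((u * (y - m) : ℝ) : ℂ)) := by
  set s : ℝ := (n : ℝ) with hs
  have hs0 : 0 < s := by rw [hs]; exact_mod_cast hn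
  set a : ℝ := 1 / (2 * π * s ^ 2) with ha
  have ha0 : 0 < a := by positivity
  set b : ℂ := ((u / (2 * π * s ^ 2) : ℝ) : ℂ) + Complex.I * (y : ℂ) with hb
  have key := Complex.tsum_exp_neg_quadratic (a := (a : ℂ)) (by rwa [Complex.ofReal_re]) b
  have hπ : (π : ℂ) ≠ 0 := by exact_mod_cast pi_ne_zero
  have hsC : (s : ℂ) ≠ 0 := by exact_mod_cast hs0.ne'
  have hz : (1 / (s * √(2 * π)) : ℝ) = √a := by
    rw [ha, Real.sqrt_div zero_le_one, Real.sqrt_one,
      Real.sqrt_mul' (2 * π) (sq_nonneg s), Real.sqrt_sq hs0.le, mul_comm]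
  have hcpow : ((a : ℂ)) ^ (1 / 2 : ℂ) = ((√a : ℝ) : ℂ) := by
    rw [Real.sqrt_eq_rpow, Complex.ofReal_cpow ha0.le]; norm_num
  have e1 : ∀ k : ℤ, (gw n u k : ℂ) * Complex.exp (2 * π * Complex.I * (((k : ℝ) * y : ℝ) : ℂ)) =
      ((√a : ℝ) : ℂ) * Complex.exp ((-(u ^ 2 / (2 * s ^ 2)) : ℝ) : ℂ) *
        Complex.exp (-π * a * (k : ℂ) ^ 2 + 2 * π * b * k) := by
    intro k
    have hg : gw n u k = √a * exp (-(((k : ℝ) - u) ^ 2 / (2 * s ^ 2))) := by
      rw [gw, ← hs, ← hz]; ring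
    rw [hg, Complex.ofReal_mul, Complex.ofReal_exp, mul_assoc ((√a : ℝ) : ℂ),
      mul_assoc ((√a : ℝ) : ℂ), ← Complex.exp_add, ← Complex.exp_add]
    congr 2
    rw [hb, ha]; push_cast; field_simp; ring
  simp only [e1]
  rw [tsum_mul_left, key, hcpow, ← mul_assoc, mul_comm ((√a : ℝ) : ℂ), mul_assoc _ _ (1 / _),
    mul_one_div_cancel (by exact_mod_cast (Real.sqrt_pos.2 ha0).ne'), mul_one, ← tsum_mul_left]
  refine tsum_congr fun m => ?_
  rw [← Complex.exp_add, Complex.ofReal_exp, ← Complex.exp_add]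
  congr 1
  rw [hb, ha]; push_cast
  field_simp
  ring_nf
  simp only [Complex.I_sq, Complex.I_pow_three, Complex.I_pow_four]
  ring

/-- The truncation range. -/
noncomputable def supp (n : ℕ) (u : ℝ) : Finset ℤ :=
  Finset.Icc ⌈u - (n : ℝ) ^ 8⌉ ⌊u + (n : ℝ) ^ 8⌋

theorem mem_supp {n : ℕ} {u : ℝ} {k : ℤ} : k ∈ supp n u ↔ |(k : ℝ) - u| ≤ (n : ℝ) ^ 8 := by
  rw [supp, Finset.mem_Icc, Int.ceil_le, Int.le_floor, abs_le]
  constructor <;> rintro ⟨h1, h2⟩ <;> constructor <;> linarith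

/-- The truncated factor. -/
noncomputable def gfac (n : ℕ) (u y : ℝ) : ℂ :=
  ∑ k ∈ supp n u, (gw n u k : ℂ) * Complex.exp (2 * π * Complex.I * (((k : ℝ) * y : ℝ) : ℂ))

theorem norm_cexp_phase (t : ℝ) : ‖Complex.exp (2 * π * Complex.I * (t : ℂ))‖ = 1 := by
  rw [Complex.norm_exp]; simp

theorem half_pow_ge_exp (j : ℕ) : exp (-(j : ℝ)) ≤ ((1 : ℝ) / 2) ^ j := by
  rw [show -(j : ℝ) = (j : ℝ) * (-1) by ring, exp_nat_mul]
  refine pow_le_pow_left₀ (exp_pos _).le ?_ j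
  rw [exp_neg, one_div]
  exact inv_anti₀ (by norm_num) (by linarith [add_one_le_exp (1 : ℝ)])

theorem gfac_approx {n : ℕ} (hn : 4 ≤ n) (u : ℝ) {y : ℝ} (hy : |y| ≤ 13 / 25) :
    ‖gfac n u y - ((exp (-(2 * π ^ 2 * (n : ℝ) ^ 2 * y ^ 2)) : ℝ) : ℂ) *
        Complex.exp (2 * π * Complex.I * ((u * y : ℝ) : ℂ))‖ ≤
      ker n y / (8 * 2 ^ n) := by
  have hnR : (4 : ℝ) ≤ n := by exact_mod_cast hn
  have hA : 0 ≤ 2 * π ^ 2 * (n : ℝ) ^ 2 := by positivity
  set A := 2 * π ^ 2 * (n : ℝ) ^ 2 with hAdef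
  have hA18 : 18 * (n : ℝ) ^ 2 ≤ A :=
    mul_le_mul_of_nonneg_right (by nlinarith [pi_gt_three]) (sq_nonneg _)
  -- the dual terms
  set D : ℤ → ℂ := fun m => ((exp (-(A * (y - m) ^ 2)) : ℝ) : ℂ) *
      Complex.exp (2 * π * Complex.I * ((u * (y - m) : ℝ) : ℂ)) with hD
  set B : ℤ → ℝ := fun m => 2 * exp (-(23 / 100 * A)) * ((1 : ℝ) / 2) ^ m.natAbs with hB
  have hBs : HasSum B (2 * exp (-(23 / 100 * A)) * 3) := hasSum_half_pow_natAbs.mul_left _
  have hDb : ∀ m : ℤ, m ≠ 0 → ‖D m‖ ≤ B m := by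
    intro m hm
    rw [hD, hB]
    simp only [norm_mul, norm_cexp_phase, mul_one, Complex.norm_real, Real.norm_eq_abs, abs_exp]
    obtain ⟨i, hi⟩ : ∃ i : ℕ, m.natAbs = i + 1 := ⟨m.natAbs - 1, by
      have := Int.natAbs_pos.2 hm; omega⟩
    have hM : |(m : ℝ)| = (i : ℝ) + 1 := by
      rw [← Int.cast_abs, Int.abs_eq_natAbs, hi]; push_cast; rfl
    have hge : (i : ℝ) + 12 / 25 ≤ |y - m| := by
      have := abs_sub_abs_le_abs_sub (m : ℝ) y
      rw [abs_sub_comm y]; linarith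
    have hsq : 23 / 100 * ((i : ℝ) + 1) ≤ (y - m) ^ 2 := by
      rw [← sq_abs]
      refine le_trans ?_ (pow_le_pow_left₀ (by positivity) hge 2)
      nlinarith [(Nat.cast_nonneg i : (0:ℝ) ≤ i)]
    have e : ((1 : ℝ) / 2) ^ (i + 1) * 2 = (1 / 2) ^ i := by rw [pow_succ]; ring
    calc exp (-(A * (y - m) ^ 2))
        ≤ exp (-(23 / 100 * A)) * exp (-(i : ℝ)) := by
          rw [← exp_add, exp_le_exp]
          have h1 := mul_le_mul_of_nonneg_left hsq hA
          have h2 : 1 ≤ 23 / 100 * A := by nlinarith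
          nlinarith [mul_le_mul_of_nonneg_right h2 (Nat.cast_nonneg i : (0:ℝ) ≤ i)]
      _ ≤ exp (-(23 / 100 * A)) * (1 / 2) ^ i :=
          mul_le_mul_of_nonneg_left (half_pow_ge_exp i) (exp_pos _).le
      _ = 2 * exp (-(23 / 100 * A)) * (1 / 2) ^ m.natAbs := by rw [hi, ← e]; ring
  have hDsum : Summable D := by
    refine Summable.of_norm_bounded (g := fun m => B m + if m = 0 then ‖D 0‖ else 0)
      (hBs.summable.add (hasSum_ite_eq 0 _).summable) fun m => ?_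
    rcases eq_or_ne m 0 with rfl | hm
    · rw [if_pos rfl]
      have : 0 ≤ B 0 := by rw [hB]; positivity
      linarith
    · rw [if_neg hm, add_zero]; exact hDb m hm
  have hdual : ‖(∑' m, D m) - D 0‖ ≤ 6 * exp (-(23 / 100 * A)) := by
    have h := hDsum.hasSum.update 0 0
    rw [zero_sub, ← sub_eq_neg_add] at h
    rw [← h.tsum_eq]
    refine le_trans (tsum_of_norm_bounded hBs fun m => ?_) (le_of_eq (by ring))
    rcases eq_or_ne m 0 with rfl | hm
    · rw [Function.update_self, norm_zero, hB]; positivity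
    · rw [Function.update_of_ne hm]; exact hDb m hm
  -- the truncation
  set P : ℤ → ℂ := fun k =>
    (gw n u k : ℂ) * Complex.exp (2 * π * Complex.I * (((k : ℝ) * y : ℝ) : ℂ)) with hP
  set T := (n : ℝ) ^ 8 with hT
  set Q : ℤ → ℝ := fun k => 2 * exp (-(23 / 100 * A)) * ((1 : ℝ) / 2) ^ (k - round u).natAbs
    with hQ
  have hQs : HasSum Q (2 * exp (-(23 / 100 * A)) * 3) := by
    refine HasSum.mul_left _ ?_
    exact (Equiv.hasSum_iff (Equiv.subRight (round u))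
      (f := fun m : ℤ => ((1 : ℝ) / 2) ^ m.natAbs)).2 hasSum_half_pow_natAbs
  have hPb : ∀ k : ℤ, k ∉ supp n u → ‖P k‖ ≤ Q k := by
    intro k hk
    rw [mem_supp, not_le, ← hT] at hk
    rw [hP, hQ]
    simp only [norm_mul, norm_cexp_phase, mul_one, Complex.norm_real, Real.norm_eq_abs]
    rw [abs_of_nonneg (by unfold gw; positivity)]
    set r := |(k : ℝ) - u| with hr
    have hT8 : 8 * (n : ℝ) ^ 4 ≤ T := by
      have h4 : (8 : ℝ) ≤ (n : ℝ) ^ 4 :=
        le_trans (by norm_num) (pow_le_pow_left₀ (by norm_num) hnR 4)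
      rw [hT, show (n : ℝ) ^ 8 = (n : ℝ) ^ 4 * (n : ℝ) ^ 4 by ring]
      exact mul_le_mul_of_nonneg_right h4 (by positivity)
    have hj : ((k - round u).natAbs : ℝ) ≤ r + 1 / 2 := by
      rw [Nat.cast_natAbs, Int.cast_abs, Int.cast_sub]
      calc |(k : ℝ) - (round u : ℤ)| ≤ |(k : ℝ) - u| + |u - (round u : ℤ)| := abs_sub_le _ _ _
        _ ≤ r + 1 / 2 := by linarith [abs_sub_round u]
    have hz : 1 ≤ (n : ℝ) * √(2 * π) := by
      nlinarith [Real.one_le_sqrt.2 (by linarith [pi_gt_three] : (1:ℝ) ≤ 2 * π)]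
    have e2 : exp (1 / 2 : ℝ) ≤ 2 := by
      have h := exp_bound_div_one_sub_of_interval (x := 1 / 2) (by norm_num) (by norm_num)
      linarith
    calc gw n u k ≤ exp (-(r ^ 2 / (2 * (n : ℝ) ^ 2))) := by
          rw [gw, hr, sq_abs]; exact div_le_self (exp_pos _).le hz
      _ ≤ exp (-(23 / 100 * A)) * exp (1 / 2) * exp (-((k - round u).natAbs : ℝ)) := by
          rw [← exp_add, ← exp_add, exp_le_exp]
          have h1 : 4 * (n : ℝ) ^ 2 * r ≤ r ^ 2 / (2 * (n : ℝ) ^ 2) := by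
            rw [le_div_iff₀ (by positivity)]
            nlinarith [mul_le_mul_of_nonneg_right (hT8.trans hk.le) (abs_nonneg ((k : ℝ) - u))]
          have h2 : 8 * (n : ℝ) ^ 4 ≤ r := hT8.trans hk.le
          have h3 : A ≤ 32 * (n : ℝ) ^ 2 :=
            mul_le_mul_of_nonneg_right (by nlinarith [pi_lt_four, pi_pos]) (sq_nonneg _)
          have h4 : (16 : ℝ) ≤ (n : ℝ) ^ 2 := by nlinarith
          nlinarith [mul_le_mul_of_nonneg_left h2 (sq_nonneg (n : ℝ))]
      _ ≤ exp (-(23 / 100 * A)) * 2 * (1 / 2) ^ (k - round u).natAbs := by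
          gcongr
          exact half_pow_ge_exp _
      _ = _ := by ring
  have hPsum : Summable P := by
    refine Summable.of_norm_bounded
      (g := fun k => Q k + if k ∈ supp n u then ‖P k‖ else 0)
      (hQs.summable.add (hasSum_sum_of_ne_finset_zero (s := supp n u)
        fun k hk => if_neg hk).summable) fun k => ?_
    split_ifs with hk
    · have : 0 ≤ Q k := by rw [hQ]; positivity
      linarith
    · rw [add_zero]; exact hPb k hk
  have htail : ‖(∑' k, P k) - ∑ k ∈ supp n u, P k‖ ≤ 6 * exp (-(23 / 100 * A)) := by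
    have hfin : HasSum (fun k => if k ∈ supp n u then P k else 0) (∑ k ∈ supp n u, P k) := by
      have h := hasSum_sum_of_ne_finset_zero (L := .unconditional ℤ) (s := supp n u)
        (f := fun k => if k ∈ supp n u then P k else 0) fun k hk => if_neg hk
      rwa [Finset.sum_congr rfl fun k hk => if_pos hk] at h
    rw [← (hPsum.hasSum.sub hfin).tsum_eq]
    refine le_trans (tsum_of_norm_bounded hQs fun k => ?_) (le_of_eq (by ring))
    split_ifs with hk
    · rw [sub_self, norm_zero, hQ]; positivity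
    · rw [sub_zero]; exact hPb k hk
  have hpois : (∑' k, P k) = ∑' m, D m := tsum_gw n (by omega) u y
  have hD0 : D 0 = ((exp (-(A * y ^ 2)) : ℝ) : ℂ) *
      Complex.exp (2 * π * Complex.I * ((u * y : ℝ) : ℂ)) := by
    simp [hD]
  rw [show gfac n u y = ∑ k ∈ supp n u, P k from rfl, ← hD0]
  calc ‖(∑ k ∈ supp n u, P k) - D 0‖
      = ‖((∑ k ∈ supp n u, P k) - ∑' k, P k) + ((∑' m, D m) - D 0)‖ := by rw [hpois]; ring_nf
    _ ≤ 6 * exp (-(23 / 100 * A)) + 6 * exp (-(23 / 100 * A)) := by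
        refine (norm_add_le _ _).trans (add_le_add ?_ hdual)
        rw [norm_sub_rev]; exact htail
    _ ≤ ker n y / (8 * 2 ^ n) := by
        rw [le_div_iff₀ (by positivity)]
        have h2 : (2 : ℝ) ^ n ≤ exp (n : ℝ) := by
          rw [← mul_one (n : ℝ), exp_nat_mul]
          exact pow_le_pow_left₀ (by norm_num) (by linarith [add_one_le_exp (1 : ℝ)]) n
        have h96 : (96 : ℝ) ≤ exp 5 := by
          have := sum_le_exp_of_nonneg (by norm_num : (0:ℝ) ≤ 5) 8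
          simp [Finset.sum_range_succ, Nat.factorial] at this
          linarith
        have hk := kfun_le hy
        calc (6 * exp (-(23 / 100 * A)) + 6 * exp (-(23 / 100 * A))) * (8 * 2 ^ n)
            = 96 * 2 ^ n * exp (-(23 / 100 * A)) := by ring
          _ ≤ exp 5 * exp (n : ℝ) * exp (-(23 / 100 * A)) := by gcongr
          _ ≤ ker n y := by
              rw [ker, ← hAdef, ← exp_add, ← exp_add, exp_le_exp]
              nlinarith [mul_le_mul_of_nonneg_left hk hA,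
                mul_le_mul_of_nonneg_left hnR (by linarith : (0:ℝ) ≤ n)]

theorem gfac_near {n : ℕ} (hn : 4 ≤ n) (u : ℝ) {y : ℝ} (hy : |y| ≤ 1 / 50) :
    ‖gfac n u y - Complex.exp (2 * π * Complex.I * ((u * y : ℝ) : ℂ)) * (ker n y : ℂ)‖ ≤
      ker n y / (8 * 2 ^ n) := by
  have h := gfac_approx hn u (hy.trans (by norm_num))
  rw [mul_comm (Complex.exp _)]
  convert h using 3
  simp only [ker, kfun_small hy]

theorem gfac_le {n : ℕ} (hn : 4 ≤ n) (u : ℝ) {y : ℝ} (hy : |y| ≤ 13 / 25) :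
    ‖gfac n u y‖ ≤ (1 + 1 / (8 * 2 ^ n)) * ker n y := by
  have h := gfac_approx hn u hy
  have hle : exp (-(2 * π ^ 2 * (n : ℝ) ^ 2 * y ^ 2)) ≤ ker n y := by
    rw [ker, exp_le_exp, neg_le_neg_iff]
    exact mul_le_mul_of_nonneg_left (kfun_le_sq y) (by positivity)
  refine (norm_le_norm_add_norm_sub' _
    (((exp (-(2 * π ^ 2 * (n : ℝ) ^ 2 * y ^ 2)) : ℝ) : ℂ) *
      Complex.exp (2 * π * Complex.I * ((u * y : ℝ) : ℂ)))).trans ?_
  rw [norm_mul, norm_cexp_phase, mul_one, Complex.norm_real, Real.norm_eq_abs, abs_exp]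
  rw [show (1 + 1 / (8 * 2 ^ n)) * ker n y = ker n y + ker n y / (8 * 2 ^ n) by ring]
  exact add_le_add hle h

theorem gfac_periodic (n : ℕ) (u y : ℝ) (j : ℤ) : gfac n u (y + j) = gfac n u y := by
  refine Finset.sum_congr rfl fun k _ => ?_
  congr 1
  rw [show (2 * π * Complex.I * (((k : ℝ) * (y + j) : ℝ) : ℂ)) =
      2 * π * Complex.I * (((k : ℝ) * y : ℝ) : ℂ) + ((k * j : ℤ) : ℂ) * (2 * π * Complex.I) by
    push_cast; ring, Complex.exp_add, Complex.exp_int_mul_two_pi_mul_I, mul_one]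

theorem continuous_gfac (n : ℕ) (u : ℝ) : Continuous (gfac n u) := by
  unfold gfac
  fun_prop

end Vale.Agent.P047.Disproof.Rounding
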