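import Vale.Agent.P047.Disproof.FourierSolve
import Vale.Agent.P047.Disproof.RoundingKernel

/-!
Rounding a low degree real function to integers, exactly on a set of points.
-/

namespace Vale.Agent.P047.Disproof

open Finset Filter

theorem rounding : ∀ᶠ n : ℕ in atTop, ∀ (C : Cover n) (U R : Finset (Cube n)) (θ : ℝ)
    (v : Cube n → ℝ), (1 : ℝ) / n ≤ θ → Good C U θ → Disjoint U R →
    DegLE v (n - tdeg n - 1) → (∀ x ∈ R, ∃ k : ℤ, v x = k) →
    ∃ F : Cube n → ℤ, DegLE (fun x => (F x : ℝ)) (n - tdeg n - 1) ∧
      (∀ x ∈ R, (F x : ℝ) = v x) ∧ ∀ x, |(F x : ℝ) - v x| ≤ (n : ℝ) ^ 8 := by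
  classical
  filter_upwards [exists_low_degree_of_factors, eventually_ge_atTop 4]
    with n hsolve hn C U R θ v hθ hG hUR hv hint
  -- twisted target
  set u : Cube n → ℝ := fun x => parity x * v x with hu
  choose! z hz using hint
  set k0 : Cube n → ℤ := fun x => parZ x * z x with hk0
  have huz : ∀ x ∈ R, u x = (k0 x : ℝ) := by
    intro x hx
    simp only [hu, hk0]
    push_cast
    rw [parZ_cast, hz x hx]
  set K : Cube n → Finset ℤ := fun x =>
    if x ∈ R then {k0 x} else Rounding.supp n (u x) with hK
  set c : Cube n → ℤ → ℂ := fun x k =>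
    if x ∈ R then 1 else (Rounding.gw n (u x) k : ℂ) with hc
  set φ : Cube n → ℝ → ℂ := fun x y => ∑ k ∈ K x, c x k *
      Complex.exp (2 * Real.pi * Complex.I * (((k : ℝ) * y : ℝ) : ℂ)) with hφ
  have hφR : ∀ x ∈ R, ∀ y, φ x y =
      Complex.exp (2 * Real.pi * Complex.I * ((u x * y : ℝ) : ℂ)) := by
    intro x hx y
    simp only [hφ, hK, hc, if_pos hx, sum_singleton, one_mul, huz x hx]
  have hφG : ∀ x, x ∉ R → ∀ y, φ x y = Rounding.gfac n (u x) y := by
    intro x hx y
    simp only [hφ, hK, hc, if_neg hx, Rounding.gfac]
  let F : Factors U :=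
    { φ := φ
      g := fun x y => if x ∈ R then 1 else Rounding.ker n y
      v := u
      φ_cont := fun x => by simp only [hφ]; fun_prop
      φ_per := fun x y j => by
        simp only [hφ]
        refine sum_congr rfl fun k _ => ?_
        congr 1
        rw [show (2 * Real.pi * Complex.I * (((k : ℝ) * (y + j) : ℝ) : ℂ)) =
            2 * Real.pi * Complex.I * (((k : ℝ) * y : ℝ) : ℂ) +
              ((k * j : ℤ) : ℂ) * (2 * Real.pi * Complex.I) by push_cast; ring,
          Complex.exp_add, Complex.exp_int_mul_two_pi_mul_I, mul_one]
      g_cont := fun x => by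
        split_ifs
        · exact continuous_const
        · exact Rounding.continuous_ker n
      g_pos := fun x y => by
        split_ifs
        · exact one_pos
        · exact Rounding.ker_pos n y
      g_even := fun x y => by rw [Rounding.ker_neg]
      g_lc := fun x p q => by
        split_ifs
        · simp
        · exact Rounding.ker_lc n p q
      g_slc := fun x hx p q => by
        simp only [if_neg (Finset.disjoint_left.1 hUR hx)]
        exact Rounding.ker_slc hn p q
      le_g := fun x y hy => by
        by_cases hx : x ∈ R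
        · rw [if_pos hx, hφR x hx, Rounding.norm_cexp_phase, mul_one]
          exact le_add_of_nonneg_right (by positivity)
        · rw [if_neg hx, hφG x hx]
          exact Rounding.gfac_le hn _ hy
      near := fun x y hy => by
        by_cases hx : x ∈ R
        · rw [if_pos hx, hφR x hx]
          simp
        · rw [if_neg hx, hφG x hx]
          exact Rounding.gfac_near hn _ hy
      v_orth := fun a => by
        have h := (degLE_iff_orth (t := tdeg n) (by have := tdeg_lt (n := n) (by omega); omega) v).1
          hv a
        simpa only [hu, mul_comm (parity _)] using h }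
  obtain ⟨G, hdeg, hmem⟩ := hsolve C U θ hθ hG F K c fun x y => rfl
  have hcast : ∀ x, ((parZ x * G x : ℤ) : ℝ) = parity x * G x := fun x => by
    rw [Int.cast_mul, parZ_cast]
  refine ⟨G, hdeg, fun x hx => ?_, fun x => ?_⟩
  · have h := hmem x
    simp only [hK, if_pos hx, mem_singleton] at h
    have h' : (parity x * G x : ℝ) = u x := by rw [← hcast, h, ← huz x hx]
    simp only [hu] at h'
    have := congrArg (parity x * ·) h'
    simpa [← mul_assoc, parity_mul_self] using this
  · have habs : |parity x| = 1 := by
      have h2 : |parity x| * |parity x| = 1 := by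
        rw [← abs_mul, parity_mul_self, abs_one]
      nlinarith [abs_nonneg (parity x)]
    have e : |(G x : ℝ) - v x| = |((parZ x * G x : ℤ) : ℝ) - u x| := by
      rw [hcast]
      simp only [hu]
      rw [← mul_sub, abs_mul, habs, one_mul]
    rw [e]
    have h := hmem x
    by_cases hx : x ∈ R
    · simp only [hK, if_pos hx, mem_singleton] at h
      rw [h, huz x hx, sub_self, abs_zero]
      positivity
    · simp only [hK, if_neg hx] at h
      exact Rounding.mem_supp.1 h

end Vale.Agent.P047.Disproof
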