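import Vale.Agent.P047.Disproof.Start
import Vale.Agent.P047.Disproof.Rounding
import Vale.Agent.P047.Disproof.CoverExists
import Vale.Agent.P047.Disproof.PowerAll

/-!
A Boolean function with more level-one mass than the square root of its degree, and the power gain.
-/

namespace Vale.Agent.P047.Disproof

open Finset Filter

theorem eventually_witness : ∀ᶠ n : ℕ in atTop, ∃ f : Cube n → ℝ,
    IsBool f ∧ DegLE f (n - tdeg n - 1) ∧
      Real.sqrt (((n - tdeg n - 1 : ℕ) : ℝ) + 1) < levelOne f := by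
  obtain ⟨η, hη, hη4, hmaj⟩ := exists_majority_target (3 / 10000) (by norm_num)
  filter_upwards [hmaj, exists_cover, exists_start hη hη4, rounding, stage, eventually_final,
    eventually_ge_atTop 1, (tendsto_natCast_atTop_atTop (R := ℝ)).eventually_ge_atTop (2 / η)] with
    n ⟨q, hq, hqdeg, hqlev⟩ ⟨C⟩ hstart hround hstage ⟨htn, hhalf, hfin⟩ hn1 hnη
  obtain ⟨L, θ, U, R, S, v, hθ, hn9, hUR, hU, hS, hv, hvR, hvU, hvS, hvlev⟩ :=
    hstart C q hq (degLE_mono hhalf hqdeg) htn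
  set D := n - tdeg n - 1
  have hL : (0 : ℝ) < 2 ^ L := by positivity
  obtain ⟨F, hF, hFR, hFv⟩ := hround C U R θ (fun x => 2 ^ L * v x) hθ hU hUR
    (degLE_mul_left _ hv) fun x hx => by
      obtain ⟨k, hk, -⟩ := hvR x hx
      exact ⟨k, hk⟩
  have hn0 : (1 : ℝ) ≤ n := Nat.one_le_cast.mpr hn1
  have hn8 : (n : ℝ) ^ 8 ≤ 2 ^ L * (η / 2) := by
    rw [div_le_iff₀ hη] at hnη
    nlinarith [mul_le_mul_of_nonneg_right hn9 (half_pos hη).le,
      mul_le_mul_of_nonneg_left hnη (pow_nonneg (Nat.cast_nonneg (α := ℝ) n) 8)]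
  have hbound : ∀ x, 0 ≤ F x ∧ F x ≤ 2 ^ L := fun x => by
    by_cases hx : x ∈ R
    · obtain ⟨k, hk, hk0, hk1⟩ := hvR x hx
      have : F x = k := by exact_mod_cast (hFR x hx).trans hk
      exact this ▸ ⟨hk0, hk1⟩
    · have h1 := abs_le.mp (hFv x)
      have h2 := mul_le_mul_of_nonneg_left (hvU x hx).1 hL.le
      have h3 := mul_le_mul_of_nonneg_left (hvU x hx).2 hL.le
      constructor
      · exact_mod_cast (show (0 : ℝ) ≤ (F x : ℝ) by linarith)
      · exact_mod_cast (show (F x : ℝ) ≤ (2 : ℝ) ^ L by linarith)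
  obtain ⟨G, hG, hG01, hle⟩ := descend (D := D) S (L := L)
    (fun F' i hi hF' hodd => hstage C F' (S i) θ hθ (hS i hi) hF' hodd) L le_rfl F hF hbound
    fun i hi x hx => by
      obtain ⟨hxR, hval⟩ := hvS i hi x hx
      exact_mod_cast (hFR x hxR).trans hval
  refine ⟨fun x => 2 * (G x : ℝ) + -1, fun x => ?_, degLE_add (degLE_mul_left _ hG)
    (degLE_const _ _), ?_⟩
  · rcases hG01 x with h | h <;> norm_num [h]
  · rw [levelOne_add, levelOne_mul_left, levelOne_const, add_zero]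
    have hdiff : |levelOne fun x => (F x : ℝ) + -1 * (2 ^ L * v x)| ≤ n * (n : ℝ) ^ 8 :=
      abs_levelOne_le _ fun x => by simpa [sub_eq_add_neg] using hFv x
    rw [levelOne_add, levelOne_mul_left, levelOne_mul_left] at hdiff
    have h9 : (n : ℝ) * (n : ℝ) ^ 8 ≤ 2 ^ L := le_of_eq_of_le (by ring) hn9
    have hkey : levelOne v - 1 ≤ levelOne fun x => (G x : ℝ) := by
      refine le_of_mul_le_mul_left ?_ hL
      linarith [abs_le.mp hdiff]
    linarith

/-- At every large degree, a power more level-one mass than the square root. -/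
theorem sqrt_bound_fails : ∃ c : ℝ, 0 < c ∧ ∀ᶠ d : ℕ in atTop, ∃ (m : ℕ) (g : Cube m → ℝ),
    IsBool g ∧ DegLE g d ∧ (d : ℝ) ^ ((1 : ℝ) / 2 + c) ≤ levelOne g := by
  obtain ⟨n, f, hb, hd, hs⟩ := eventually_witness.exists
  exact power_gain_all f hb hd hs

end Vale.Agent.P047.Disproof
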