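import Mathlib

/-!
Low-degree polynomial approximation of majority (module M6 of the P047 disproof).
-/

namespace Vale.Agent.P047.Disproof

open Polynomial Real Finset

/-- The squared, normalised `T_N(u)/(N u)` kernel. -/
noncomputable def kernelPoly (N : ℕ) : ℝ[X] :=
  (C ((N : ℝ)⁻¹) * (Chebyshev.T ℝ (N : ℤ)).divX) ^ 2

/-- An antiderivative. -/
noncomputable def antider (p : ℝ[X]) : ℝ[X] :=
  ∑ i ∈ range (p.natDegree + 1), C (p.coeff i / (i + 1)) * X ^ (i + 1)

theorem derivative_antider (p : ℝ[X]) : derivative (antider p) = p := by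
  unfold antider
  rw [derivative_sum]
  conv_rhs => rw [p.as_sum_range_C_mul_X_pow]
  refine sum_congr rfl fun i _ => ?_
  rw [derivative_C_mul_X_pow, Nat.cast_add_one, Nat.add_sub_cancel,
    div_mul_cancel₀ _ (by positivity)]

theorem natDegree_antider_le (p : ℝ[X]) : (antider p).natDegree ≤ p.natDegree + 1 := by
  refine natDegree_sum_le_of_forall_le _ _ fun i hi => ?_
  refine (natDegree_C_mul_X_pow_le _ _).trans ?_
  have := mem_range.1 hi
  omega

theorem eval_antider_zero (p : ℝ[X]) : (antider p).eval 0 = 0 := by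
  simp [antider, eval_finsetSum]

theorem natDegree_kernelPoly_le (j : ℕ) : (kernelPoly (2 * j + 1)).natDegree ≤ 4 * j := by
  unfold kernelPoly
  refine natDegree_pow_le.trans ?_
  have h1 := natDegree_C_mul_le (((2 * j + 1 : ℕ) : ℝ)⁻¹)
    (Chebyshev.T ℝ ((2 * j + 1 : ℕ) : ℤ)).divX
  rw [natDegree_divX_eq_natDegree_tsub_one, Chebyshev.natDegree_T, Int.natAbs_natCast] at h1
  omega

theorem kernelPoly_mul (j : ℕ) (u : ℝ) :
    (kernelPoly (2 * j + 1)).eval u * (((2 * j + 1 : ℕ) : ℝ) * u) ^ 2 =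
      ((Chebyshev.T ℝ ((2 * j + 1 : ℕ) : ℤ)).eval u) ^ 2 := by
  set T := Chebyshev.T ℝ ((2 * j + 1 : ℕ) : ℤ) with hT
  have h0 : T.coeff 0 = 0 := by
    rw [coeff_zero_eq_eval_zero, hT,
      Chebyshev.T_eval_zero_of_odd (R := ℝ)
      (show Odd ((2 * j + 1 : ℕ) : ℤ) from ⟨(j : ℤ), by push_cast; ring⟩)]
  have hd : T.eval u = u * T.divX.eval u := by
    conv_lhs => rw [← X_mul_divX_add T]
    rw [h0]; simp
  rw [hd]
  simp only [kernelPoly, ← hT, eval_pow, eval_mul, eval_C]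
  field_simp

theorem kernelPoly_nonneg (N : ℕ) (u : ℝ) : 0 ≤ (kernelPoly N).eval u := by
  simp only [kernelPoly, eval_pow]
  exact sq_nonneg _

theorem kernelPoly_le (j : ℕ) {u : ℝ} (h0 : 0 < u) (h1 : u ≤ 1) :
    (kernelPoly (2 * j + 1)).eval u ≤ ((((2 * j + 1 : ℕ) : ℝ) * u) ^ 2)⁻¹ := by
  have hb : ((Chebyshev.T ℝ ((2 * j + 1 : ℕ) : ℤ)).eval u) ^ 2 ≤ 1 := by
    rw [← cos_arccos (by linarith) h1, Chebyshev.T_real_cos]
    exact cos_sq_le_one _
  have hm := kernelPoly_mul j u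
  have hp : 0 < (((2 * j + 1 : ℕ) : ℝ) * u) ^ 2 := by positivity
  rw [← one_div, le_div_iff₀ hp, hm]
  exact hb

theorem le_kernelPoly (j : ℕ) {u : ℝ} (h0 : 0 < u)
    (h1 : 2 * ((2 * j + 1 : ℕ) : ℝ) * u ≤ 1) :
    4 / π ^ 2 ≤ (kernelPoly (2 * j + 1)).eval u := by
  set N : ℝ := ((2 * j + 1 : ℕ) : ℝ) with hN
  have hN1 : 1 ≤ N := by rw [hN]; exact_mod_cast (by omega : 1 ≤ 2 * j + 1)
  have hu1 : u ≤ 1 := by nlinarith
  set θ := arcsin u with hθ
  have hs : sin θ = u := sin_arcsin (by linarith) hu1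
  have hθ0 : 0 ≤ θ := arcsin_nonneg.2 h0.le
  have hθu : u ≤ θ := by
    conv_lhs => rw [← hs]
    exact sin_le hθ0
  have hθle : θ ≤ π / 2 * u := by
    rw [hθ, arcsin_le_iff_le_sin ⟨by linarith, hu1⟩
      ⟨by nlinarith [pi_pos], by nlinarith [pi_pos]⟩]
    exact le_sin_mul h0.le hu1
  have hNθ : N * θ ≤ π / 2 := by
    nlinarith [mul_le_mul_of_nonneg_left hθle (by linarith : (0:ℝ) ≤ N), pi_pos]
  have hsin : 2 / π * (N * θ) ≤ sin (N * θ) := mul_le_sin (by positivity) hNθ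
  have hT : ((Chebyshev.T ℝ ((2 * j + 1 : ℕ) : ℤ)).eval u) ^ 2 = sin (N * θ) ^ 2 := by
    have hu : u = cos (π / 2 - θ) := by rw [cos_pi_div_two_sub, hs]
    rw [hu, Chebyshev.T_real_cos]
    have e : (((2 * j + 1 : ℕ) : ℤ) : ℝ) * (π / 2 - θ) = (π / 2 - N * θ) + j * π := by
      rw [hN]; push_cast; ring
    rw [e, cos_add_nat_mul_pi, cos_pi_div_two_sub, mul_pow, ← pow_mul, mul_comm j 2, pow_mul]
    simp
  have hm := kernelPoly_mul j u
  rw [hT, ← hN] at hm
  have hNu : 0 < N * u := by positivity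
  have hlow : (2 / π * (N * u)) ^ 2 ≤ sin (N * θ) ^ 2 := by
    refine pow_le_pow_left₀ (by positivity) ?_ 2
    exact le_trans (mul_le_mul_of_nonneg_left
      (mul_le_mul_of_nonneg_left hθu (by linarith)) (by positivity)) hsin
  have h4 : (2 / π) ^ 2 = 4 / π ^ 2 := by ring
  rw [← hm, mul_pow, h4] at hlow
  exact le_of_mul_le_mul_right hlow (by positivity)

/-- The smoothed sign, before normalisation. -/
noncomputable def signH (j : ℕ) : ℝ[X] :=
  C (1 / 2) * (antider (kernelPoly (2 * j + 1)) -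
    (antider (kernelPoly (2 * j + 1))).comp (-X))

theorem signH_odd (j : ℕ) (u : ℝ) : (signH j).eval (-u) = -(signH j).eval u := by
  simp [signH]; ring

theorem kernelPoly_even (j : ℕ) (u : ℝ) :
    (kernelPoly (2 * j + 1)).eval (-u) = (kernelPoly (2 * j + 1)).eval u := by
  rcases eq_or_ne u 0 with rfl | hu
  · simp
  have h1 := kernelPoly_mul j u
  have h2 := kernelPoly_mul j (-u)
  have hs : ((Chebyshev.T ℝ ((2 * j + 1 : ℕ) : ℤ)).eval (-u)) ^ 2 =
      ((Chebyshev.T ℝ ((2 * j + 1 : ℕ) : ℤ)).eval u) ^ 2 := by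
    rw [Chebyshev.T_eval_neg, mul_pow]
    rcases Int.units_eq_one_or ((((2 * j + 1 : ℕ) : ℤ)).negOnePow) with h | h <;> rw [h] <;> simp
  rw [hs, ← h1, show (((2 * j + 1 : ℕ) : ℝ) * -u) ^ 2 = (((2 * j + 1 : ℕ) : ℝ) * u) ^ 2 by ring]
    at h2
  exact mul_right_cancel₀ (by positivity) h2

theorem hasDerivAt_signH (j : ℕ) (u : ℝ) :
    HasDerivAt (fun x => (signH j).eval x) ((kernelPoly (2 * j + 1)).eval u) u := by
  have h := (signH j).hasDerivAt u
  refine h.congr_deriv ?_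
  simp [signH, derivative_comp, derivative_antider, kernelPoly_even]
  ring

theorem natDegree_signH_le (j : ℕ) : (signH j).natDegree ≤ 4 * j + 1 := by
  have h1 := (natDegree_antider_le (kernelPoly (2 * j + 1))).trans
    (Nat.add_le_add_right (natDegree_kernelPoly_le j) 1)
  unfold signH
  refine (natDegree_C_mul_le _ _).trans ((natDegree_sub_le _ _).trans (max_le h1 ?_))
  refine natDegree_comp_le.trans ?_
  simpa using h1

theorem signH_monotone (j : ℕ) : Monotone fun x => (signH j).eval x :=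
  monotone_of_hasDerivAt_nonneg (hasDerivAt_signH j) fun u => kernelPoly_nonneg _ u

theorem signH_one_lower (j : ℕ) :
    2 / (π ^ 2 * ((2 * j + 1 : ℕ) : ℝ)) ≤ (signH j).eval 1 := by
  set N : ℝ := ((2 * j + 1 : ℕ) : ℝ) with hN
  have hN1 : 1 ≤ N := by rw [hN]; exact_mod_cast (by omega : 1 ≤ 2 * j + 1)
  have ha : 0 < 1 / (2 * N) := by positivity
  have h0 : (signH j).eval 0 = 0 := by
    simp [signH, eval_antider_zero]
  have hmv := Convex.mul_sub_le_image_sub_of_le_deriv (convex_Icc (0 : ℝ) (1 / (2 * N)))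
    (f := fun x => (signH j).eval x) (signH j).continuous.continuousOn
    (signH j).differentiable.differentiableOn (C := 4 / π ^ 2)
    (fun x hx => by
      rw [interior_Icc] at hx
      rw [(hasDerivAt_signH j x).deriv]
      refine le_kernelPoly j hx.1 ?_
      have := hx.2.le
      rw [le_div_iff₀ (by positivity)] at this
      rw [← hN]; linarith)
    0 (Set.left_mem_Icc.2 ha.le) (1 / (2 * N)) (Set.right_mem_Icc.2 ha.le) ha.le
  simp only [h0, sub_zero] at hmv
  calc 2 / (π ^ 2 * N) = 4 / π ^ 2 * (1 / (2 * N)) := by field_simp; ring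
    _ ≤ (signH j).eval (1 / (2 * N)) := hmv
    _ ≤ (signH j).eval 1 := signH_monotone j (by
        rw [div_le_iff₀ (by positivity)]; linarith)

theorem signH_tail (j : ℕ) {δ : ℝ} (h0 : 0 < δ) (h1 : δ ≤ 1) :
    (signH j).eval 1 - (signH j).eval δ ≤ 1 / (((2 * j + 1 : ℕ) : ℝ) ^ 2 * δ) := by
  set N : ℝ := ((2 * j + 1 : ℕ) : ℝ) with hN
  have hanti : AntitoneOn (fun x => (signH j).eval x + (N ^ 2)⁻¹ * x⁻¹) (Set.Icc δ 1) := by
    refine antitoneOn_of_hasDerivWithinAt_nonpos (convex_Icc δ 1)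
      (f' := fun x => (kernelPoly (2 * j + 1)).eval x + (N ^ 2)⁻¹ * (-(x ^ 2)⁻¹)) ?_
      (fun x hx => ?_) fun x hx => ?_
    · refine (signH j).continuous.continuousOn.add (continuousOn_const.mul ?_)
      exact continuousOn_id.inv₀ fun x hx => ne_of_gt (lt_of_lt_of_le h0 hx.1)
    · rw [interior_Icc] at hx
      exact ((hasDerivAt_signH j x).add
        ((hasDerivAt_inv (ne_of_gt (h0.trans hx.1))).const_mul _)).hasDerivWithinAt
    · rw [interior_Icc] at hx
      have := kernelPoly_le j (h0.trans hx.1) hx.2.le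
      rw [← hN, mul_pow, mul_inv] at this
      linarith
  have h := hanti (Set.left_mem_Icc.2 h1) (Set.right_mem_Icc.2 h1) h1
  have : (N ^ 2)⁻¹ * δ⁻¹ = 1 / (N ^ 2 * δ) := by rw [one_div, mul_inv]
  simp only [inv_one, mul_one] at h
  have : (0:ℝ) ≤ (N ^ 2)⁻¹ := by positivity
  linarith

theorem exists_smooth_sign (δ ε : ℝ) (h0 : 0 < δ) (h1 : δ ≤ 1) (hε : 0 < ε) :
    ∃ h : ℝ[X], (h.natDegree : ℝ) ≤ π ^ 2 / (ε * δ) + 5 ∧ (∀ u, h.eval (-u) = -h.eval u) ∧
      (∀ u ∈ Set.Icc (-1 : ℝ) 1, |h.eval u| ≤ 1) ∧ (∀ u, 0 ≤ h.eval u * u) ∧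
      ∀ u ∈ Set.Icc δ 1, 1 - ε ≤ h.eval u := by
  set j : ℕ := ⌈π ^ 2 / (4 * ε * δ)⌉₊ with hj
  set N : ℝ := ((2 * j + 1 : ℕ) : ℝ) with hN
  have hjge : π ^ 2 / (4 * ε * δ) ≤ j := Nat.le_ceil _
  have hjlt : (j : ℝ) < π ^ 2 / (4 * ε * δ) + 1 := Nat.ceil_lt_add_one (by positivity)
  have hA := signH_one_lower j
  set A := (signH j).eval 1 with hA'
  have hApos : 0 < A := lt_of_lt_of_le (by positivity) hA
  have hz : (signH j).eval 0 = 0 := by simp [signH, eval_antider_zero]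
  refine ⟨C A⁻¹ * signH j, ?_, fun u => ?_, fun u hu => ?_, fun u => ?_, fun u hu => ?_⟩
  · have hd : (C A⁻¹ * signH j).natDegree ≤ 4 * j + 1 :=
      (natDegree_C_mul_le _ _).trans (natDegree_signH_le j)
    have hd' : ((C A⁻¹ * signH j).natDegree : ℝ) ≤ 4 * (j : ℝ) + 1 := by exact_mod_cast hd
    have e : 4 * (π ^ 2 / (4 * ε * δ)) = π ^ 2 / (ε * δ) := by field_simp
    linarith
  · simp only [eval_mul, eval_C, signH_odd, mul_neg]
  · rw [eval_mul, eval_C, abs_mul, abs_inv, abs_of_pos hApos, inv_mul_le_iff₀ hApos, mul_one,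
      abs_le]
    refine ⟨?_, signH_monotone j hu.2⟩
    rw [hA', ← signH_odd]
    exact signH_monotone j hu.1
  · rw [eval_mul, eval_C, mul_assoc]
    refine mul_nonneg (by positivity) ?_
    rcases le_total 0 u with h | h
    · exact mul_nonneg (by simpa [hz] using signH_monotone j h) h
    · exact mul_nonneg_of_nonpos_of_nonpos (by simpa [hz] using signH_monotone j h) h
  · have ht := signH_tail j h0 h1
    have hm : (signH j).eval δ ≤ (signH j).eval u := signH_monotone j hu.1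
    have hN0 : 0 < N := by positivity
    have key : 1 / (N ^ 2 * δ) ≤ ε * A := by
      refine le_trans ?_ (mul_le_mul_of_nonneg_left hA hε.le)
      have hN' : π ^ 2 ≤ 2 * ε * δ * N := by
        rw [div_le_iff₀ (by positivity)] at hjge
        rw [hN]; push_cast; nlinarith [mul_pos hε h0]
      rw [← mul_div_assoc, div_le_div_iff₀ (by positivity) (by positivity)]
      nlinarith [mul_le_mul_of_nonneg_left hN' hN0.le]
    rw [eval_mul, eval_C, inv_mul_eq_div, le_div_iff₀ hApos]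
    nlinarith

theorem sum_choose_mul_sub (n k : ℕ) :
    ∑ w ∈ range (k + 1), (n.choose w : ℝ) * ((n : ℝ) - 2 * w) =
      ((k : ℝ) + 1) * n.choose (k + 1) := by
  induction k with
  | zero => simp
  | succ k ih =>
    rw [sum_range_succ, ih]
    rcases le_or_gt (k + 1) n with h | h
    · have e : ((n.choose (k + 1 + 1) : ℝ)) * ((k : ℝ) + 1 + 1) =
          n.choose (k + 1) * ((n : ℝ) - ((k : ℝ) + 1)) := by
        have := congrArg (Nat.cast (R := ℝ)) (Nat.choose_succ_right_eq n (k + 1))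
        push_cast [Nat.cast_sub h] at this
        exact this
      push_cast; linarith
    · rw [Nat.choose_eq_zero_of_lt h, Nat.choose_eq_zero_of_lt (by omega)]
      simp

/-- The mean absolute deviation of the binomial law. -/
theorem sum_choose_abs (m : ℕ) :
    ∑ w ∈ range (2 * m + 1), ((2 * m).choose w : ℝ) * |2 * (w : ℝ) - (2 * m : ℕ)| =
      2 * m * (2 * m).choose m := by
  rcases m with _ | m
  · simp
  set n := 2 * (m + 1) with hn
  have hall := sum_choose_mul_sub n n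
  rw [Nat.choose_eq_zero_of_lt (by omega : n < n + 1), Nat.cast_zero, mul_zero,
    ← sum_range_add_sum_Ico _ (by omega : m + 1 ≤ n + 1)] at hall
  have hlow := sum_choose_mul_sub n m
  have h1 : ∑ w ∈ range (m + 1), (n.choose w : ℝ) * |2 * (w : ℝ) - (n : ℕ)| =
      ∑ w ∈ range (m + 1), (n.choose w : ℝ) * ((n : ℝ) - 2 * w) := by
    refine sum_congr rfl fun w hw => ?_
    have : 2 * w ≤ n := by have := mem_range.1 hw; omega
    have : 2 * (w : ℝ) ≤ n := by exact_mod_cast this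
    rw [abs_of_nonpos (by linarith)]; ring
  have h2 : ∑ w ∈ Ico (m + 1) (n + 1), (n.choose w : ℝ) * |2 * (w : ℝ) - (n : ℕ)| =
      -∑ w ∈ Ico (m + 1) (n + 1), (n.choose w : ℝ) * ((n : ℝ) - 2 * w) := by
    rw [← sum_neg_distrib]
    refine sum_congr rfl fun w hw => ?_
    have : n ≤ 2 * w := by have := (mem_Ico.1 hw).1; omega
    have : (n : ℝ) ≤ 2 * (w : ℝ) := by exact_mod_cast this
    rw [abs_of_nonneg (by linarith)]; ring
  rw [← sum_range_add_sum_Ico _ (by omega : m + 1 ≤ n + 1), h1, h2, hlow]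
  push_cast
  linarith

/-- The mean absolute deviation, odd length. -/
theorem sum_choose_abs_odd (m : ℕ) :
    ∑ w ∈ range (2 * m + 2), ((2 * m + 1).choose w : ℝ) * |2 * (w : ℝ) - (2 * m + 1 : ℕ)| =
      2 * (2 * m + 1) * (2 * m).choose m := by
  set n := 2 * m + 1 with hn
  have hall := sum_choose_mul_sub n n
  rw [Nat.choose_eq_zero_of_lt (by omega : n < n + 1), Nat.cast_zero, mul_zero,
    ← sum_range_add_sum_Ico _ (by omega : m + 1 ≤ n + 1)] at hall
  have hlow := sum_choose_mul_sub n m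
  have h1 : ∑ w ∈ range (m + 1), (n.choose w : ℝ) * |2 * (w : ℝ) - (n : ℕ)| =
      ∑ w ∈ range (m + 1), (n.choose w : ℝ) * ((n : ℝ) - 2 * w) := by
    refine sum_congr rfl fun w hw => ?_
    have : 2 * w ≤ n := by have := mem_range.1 hw; omega
    have : 2 * (w : ℝ) ≤ n := by exact_mod_cast this
    rw [abs_of_nonpos (by linarith)]; ring
  have h2 : ∑ w ∈ Ico (m + 1) (n + 1), (n.choose w : ℝ) * |2 * (w : ℝ) - (n : ℕ)| =
      -∑ w ∈ Ico (m + 1) (n + 1), (n.choose w : ℝ) * ((n : ℝ) - 2 * w) := by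
    rw [← sum_neg_distrib]
    refine sum_congr rfl fun w hw => ?_
    have : n ≤ 2 * w := by have := (mem_Ico.1 hw).1; omega
    have : (n : ℝ) ≤ 2 * (w : ℝ) := by exact_mod_cast this
    rw [abs_of_nonneg (by linarith)]; ring
  have hc : ((m : ℝ) + 1) * n.choose (m + 1) = (2 * m + 1) * (2 * m).choose m := by
    have := congrArg (Nat.cast (R := ℝ)) (Nat.add_one_mul_choose_eq (2 * m) m)
    push_cast at this
    rw [hn, this]; ring
  show ∑ w ∈ range (n + 1), _ = _
  rw [← sum_range_add_sum_Ico _ (by omega : m + 1 ≤ n + 1), h1, h2]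
  linarith

theorem centralBinom_div_lower (m : ℕ) :
    √(2 / (π * (2 * m + 1))) ≤ ((2 * m).choose m : ℝ) / 4 ^ m := by
  have hW := Real.Wallis.W_le m
  rw [Real.Wallis.W_eq_factorial_ratio] at hW
  have hfac : (((2 * m).choose m : ℝ)) * (m.factorial : ℝ) * (m.factorial : ℝ) =
      ((2 * m).factorial : ℝ) := by
    have h := Nat.choose_mul_factorial_mul_factorial (show m ≤ 2 * m by omega)
    rw [show 2 * m - m = m by omega] at h
    exact_mod_cast h
  have hc : (0:ℝ) < (2 * m).choose m := by exact_mod_cast Nat.choose_pos (by omega)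
  rw [← hfac] at hW
  rw [Real.sqrt_le_iff]
  refine ⟨by positivity, ?_⟩
  rw [div_le_iff₀ (by positivity)] at hW
  rw [div_pow, div_le_div_iff₀ (by positivity) (by positivity)]
  have hf : (0:ℝ) < (m.factorial : ℝ) ^ 4 := by positivity
  refine le_of_mul_le_mul_right ?_ hf
  have e : (2:ℝ) ^ (4 * m) = ((4:ℝ) ^ m) ^ 2 := by
    rw [← pow_mul, show (4:ℝ) = 2 ^ 2 by norm_num, ← pow_mul]; ring_nf
  rw [e] at hW
  nlinarith

/-- Mean absolute deviation, even length, from below. -/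
theorem binomial_abs_lower_even (m : ℕ) (hm : 0 < m) :
    (1 - 1 / (2 * (m : ℝ))) * √(2 * (2 * m : ℕ) / π) ≤
      (∑ w ∈ range (2 * m + 1),
        ((2 * m).choose w : ℝ) * |2 * (w : ℝ) - (2 * m : ℕ)|) / 2 ^ (2 * m) := by
  rw [sum_choose_abs, pow_mul, show (2:ℝ) ^ 2 = 4 by norm_num]
  refine le_trans ?_ (le_trans (mul_le_mul_of_nonneg_left (centralBinom_div_lower m)
    (by positivity : (0:ℝ) ≤ 2 * m)) (le_of_eq (mul_div_assoc _ _ _).symm))
  have hm' : (1:ℝ) ≤ m := by exact_mod_cast hm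
  have ha : 0 ≤ 1 - 1 / (2 * (m : ℝ)) := by
    rw [sub_nonneg, div_le_one (by positivity)]; linarith
  refine (sq_le_sq₀ (mul_nonneg ha (Real.sqrt_nonneg _)) (by positivity)).1 ?_
  rw [mul_pow, mul_pow, Real.sq_sqrt (by positivity), Real.sq_sqrt (by positivity)]
  push_cast
  field_simp
  nlinarith [mul_nonneg (by linarith : (0:ℝ) ≤ m - 1) (by linarith : (0:ℝ) ≤ m)]

/-- Mean absolute deviation of a Rademacher sum, from below. -/
theorem binomial_abs_lower (n : ℕ) (hn : 0 < n) :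
    (1 - 1 / (n : ℝ)) * √(2 * n / π) ≤
      (∑ w ∈ range (n + 1), (n.choose w : ℝ) * |2 * (w : ℝ) - n|) / 2 ^ n := by
  obtain ⟨m, rfl | rfl⟩ := Nat.even_or_odd' n
  · have h := binomial_abs_lower_even m (by omega)
    have e : ((2 * m : ℕ) : ℝ) = 2 * (m : ℝ) := by push_cast; ring
    rw [e] at h ⊢
    exact h
  · have h := mul_le_mul_of_nonneg_left (centralBinom_div_lower m)
      (by positivity : (0:ℝ) ≤ 2 * m + 1)
    have hcast : ((2 * m + 1 : ℕ) : ℝ) = 2 * (m : ℝ) + 1 := by push_cast; ring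
    have h4 : (2:ℝ) ^ (2 * m + 1) = 2 * 4 ^ m := by
      rw [pow_succ, pow_mul]; norm_num; ring
    rw [show 2 * m + 1 + 1 = 2 * m + 2 from rfl, sum_choose_abs_odd, h4, hcast]
    refine le_trans (mul_le_of_le_one_left (Real.sqrt_nonneg _) ?_) (le_trans (le_of_eq ?_)
      (le_trans h (le_of_eq ?_)))
    · have : 0 ≤ 1 / (2 * (m : ℝ) + 1) := by positivity
      linarith
    · rw [← Real.sqrt_sq (by positivity : (0:ℝ) ≤ 2 * m + 1),
        ← Real.sqrt_mul (sq_nonneg _), Real.sqrt_sq (by positivity)]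
      congr 1; field_simp
    · field_simp

theorem correlation_pointwise {h : ℝ[X]} (hodd : ∀ u, h.eval (-u) = -h.eval u)
    (hsgn : ∀ u, 0 ≤ h.eval u * u) {δ e u : ℝ} (hδ : 0 ≤ δ) (he : e ≤ 1) (hu : |u| ≤ 1)
    (htail : ∀ v ∈ Set.Icc δ 1, 1 - e ≤ h.eval v) :
    (1 - e) * (|u| - δ) ≤ h.eval u * u := by
  rcases le_or_gt |u| δ with hc | hc
  · exact le_trans (mul_nonpos_of_nonneg_of_nonpos (by linarith) (by linarith)) (hsgn u)
  · have ht := htail |u| ⟨hc.le, hu⟩
    have e2 : h.eval u * u = h.eval |u| * |u| := by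
      rcases abs_choice u with h' | h' <;> rw [h']
      rw [hodd]; ring
    rw [e2]
    exact le_trans (mul_le_mul_of_nonneg_left (by linarith) (by linarith))
      (mul_le_mul_of_nonneg_right ht (abs_nonneg _))

theorem scale_bound {e lam R P S ε : ℝ} (he : 0 ≤ e) (he4 : e ≤ 1 / 4) (hε : 5 * e ≤ ε)
    (hl : 1 - e ≤ lam) (hR : 0 ≤ R) (hP : 0 ≤ P) (hS : (1 - e) * R * P ≤ S) :
    (1 - ε) * R * P ≤ lam * (1 - e) * (S - P * (e * R)) := by
  have h1 : (1 - e) * (1 - e) ≤ lam * (1 - e) := mul_le_mul_of_nonneg_right hl (by linarith)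
  have h2 : 1 - ε ≤ lam * (1 - e) * (1 - 2 * e) := by
    have h3 := mul_le_mul_of_nonneg_right h1 (by linarith : (0:ℝ) ≤ 1 - 2 * e)
    nlinarith [mul_nonneg (mul_nonneg he he) (by linarith : (0:ℝ) ≤ 1 / 4 - e)]
  calc (1 - ε) * R * P = (1 - ε) * (R * P) := by ring
    _ ≤ lam * (1 - e) * (1 - 2 * e) * (R * P) :=
        mul_le_mul_of_nonneg_right h2 (mul_nonneg hR hP)
    _ = lam * (1 - e) * ((1 - e) * R * P - P * (e * R)) := by ring
    _ ≤ lam * (1 - e) * (S - P * (e * R)) :=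
        mul_le_mul_of_nonneg_left (by linarith) (mul_nonneg (by linarith) (by linarith))

/-- **M6.** A polynomial of degree at most `ε n` in the Hamming weight, with values in
`[η, 1-η]` on `0..n`, odd about `n/2`, whose correlation with `2w-n` is asymptotically that of
majority. -/
theorem exists_majority_poly (ε : ℝ) (hε : 0 < ε) :
    ∃ η : ℝ, 0 < η ∧ η < 1 / 4 ∧ ∃ n₀ : ℕ, ∀ n ≥ n₀, ∃ q : ℝ[X],
      (q.natDegree : ℝ) ≤ ε * n ∧
      (∀ w ≤ n, η ≤ q.eval (w : ℝ) ∧ q.eval (w : ℝ) ≤ 1 - η) ∧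
      (∀ x : ℝ, q.eval ((n : ℝ) - x) = 1 - q.eval x) ∧
      (1 - ε) * √(2 * n / π) ≤
        (∑ w ∈ range (n + 1),
          (n.choose w : ℝ) * ((2 * q.eval (w : ℝ) - 1) * (2 * (w : ℝ) - n))) / 2 ^ n := by
  set e := min (ε / 5) (1 / 4) with he
  have he0 : 0 < e := lt_min (by linarith) (by norm_num)
  have he4 : e ≤ 1 / 4 := min_le_right _ _
  have he5 : 5 * e ≤ ε := by have := min_le_left (ε / 5) (1 / 4); linarith
  set κ := e * √(2 / π) with hκ
  have hκ0 : 0 < κ := by positivity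
  set K := π ^ 2 / (e * κ) with hK
  refine ⟨e / 2, by positivity, by linarith, ⌈max (max 2 (2 / e)) (max (κ ^ 2) ((2 * K / ε) ^ 2 + 10 / ε))⌉₊, fun n hn => ?_⟩
  have hn' : max (max 2 (2 / e)) (max (κ ^ 2) ((2 * K / ε) ^ 2 + 10 / ε)) ≤ (n : ℝ) :=
    (Nat.le_ceil _).trans (by exact_mod_cast hn)
  simp only [max_le_iff] at hn'
  obtain ⟨⟨hn2, hne⟩, hnκ, hnK⟩ := hn'
  have hnpos : (0:ℝ) < n := by linarith
  set s := √(n : ℝ) with hsdef
  have hs0 : 0 < s := Real.sqrt_pos.2 hnpos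
  have hs2 : s * s = n := Real.mul_self_sqrt hnpos.le
  have hκs : κ ≤ s := by
    rw [hsdef, ← Real.sqrt_sq hκ0.le]; exact Real.sqrt_le_sqrt hnκ
  set δ := κ / s with hδ
  have hδ0 : 0 < δ := by positivity
  have hδ1 : δ ≤ 1 := (div_le_one hs0).2 hκs
  obtain ⟨h, hdeg, hodd, hbd, hsgn, htail⟩ := exists_smooth_sign δ e hδ0 hδ1 he0
  set lam := 1 - e with hlam
  have hlam0 : 0 ≤ lam := by linarith
  set q : ℝ[X] := C (1 / 2) + C (lam / 2) * h.comp (C (2 / (n : ℝ)) * X - 1) with hq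
  have hqe : ∀ x : ℝ, q.eval x = 1 / 2 + lam / 2 * h.eval (2 / (n : ℝ) * x - 1) := by
    intro x; simp [hq]
  refine ⟨q, ?_, fun w hw => ?_, fun x => ?_, ?_⟩
  · have h1 : q.natDegree ≤ h.natDegree := by
      rw [hq, natDegree_C_add]
      refine (natDegree_C_mul_le _ _).trans (natDegree_comp_le.trans ?_)
      calc h.natDegree * (C (2 / (n : ℝ)) * X - 1).natDegree
          ≤ h.natDegree * 1 := Nat.mul_le_mul_left _
            ((natDegree_sub_le _ _).trans (max_le ((natDegree_C_mul_le _ _).trans natDegree_X_le) (by simp)))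
        _ = h.natDegree := mul_one _
    have h1' : (q.natDegree : ℝ) ≤ h.natDegree := by exact_mod_cast h1
    have h2 : π ^ 2 / (e * δ) = K * s := by rw [hK, hδ]; field_simp
    have hKs : 2 * K / ε ≤ s := by
      rw [hsdef, ← Real.sqrt_sq (by positivity : 0 ≤ 2 * K / ε)]
      exact Real.sqrt_le_sqrt (le_trans (le_add_of_nonneg_right (by positivity)) hnK)
    have h5 : 10 / ε ≤ (n : ℝ) := le_trans (le_add_of_nonneg_left (sq_nonneg _)) hnK
    rw [div_le_iff₀ hε] at hKs h5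
    nlinarith [mul_le_mul_of_nonneg_right hKs hs0.le]
  · have hmem : 2 / (n : ℝ) * (w : ℝ) - 1 ∈ Set.Icc (-1 : ℝ) 1 := by
      have hw' : (w : ℝ) ≤ n := by exact_mod_cast hw
      constructor
      · have : 0 ≤ 2 / (n : ℝ) * w := by positivity
        linarith
      · rw [div_mul_eq_mul_div, sub_le_iff_le_add, div_le_iff₀ hnpos]; linarith
    have hb := abs_le.1 (hbd _ hmem)
    have e1 : e / 2 = 1 / 2 - lam / 2 := by rw [hlam]; ring
    rw [hqe, e1]
    constructor <;> nlinarith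
  · rw [hqe, hqe, show 2 / (n : ℝ) * ((n : ℝ) - x) - 1 = -(2 / (n : ℝ) * x - 1) by
      field_simp; ring, hodd]
    ring
  · have key : ∀ w ∈ range (n + 1),
        lam * (1 - e) * ((n.choose w : ℝ) * |2 * (w : ℝ) - n| - (n.choose w : ℝ) * (κ * s)) ≤
          (n.choose w : ℝ) * ((2 * q.eval (w : ℝ) - 1) * (2 * (w : ℝ) - n)) := by
      intro w hw
      have hw' : (w : ℝ) ≤ n := by
        exact_mod_cast Nat.lt_succ_iff.1 (mem_range.1 hw)
      set u := 2 / (n : ℝ) * (w : ℝ) - 1 with hu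
      have hLu : 2 * (w : ℝ) - n = n * u := by rw [hu]; field_simp
      have hκs' : κ * s = n * δ := by rw [hδ, ← hs2]; field_simp
      have hu1 : |u| ≤ 1 := by
        rw [abs_le]; constructor
        · have : 0 ≤ 2 / (n : ℝ) * w := by positivity
          linarith [hu]
        · rw [hu, div_mul_eq_mul_div, sub_le_iff_le_add, div_le_iff₀ hnpos]; linarith
      have hhu : (1 - e) * (|u| - δ) ≤ h.eval u * u :=
        correlation_pointwise hodd hsgn hδ0.le (by linarith) hu1 htail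
      rw [hqe, hLu, abs_mul, abs_of_pos hnpos, hκs']
      have hcn : (0:ℝ) ≤ n.choose w * (lam * n) := by positivity
      calc _ = (n.choose w : ℝ) * (lam * n) * ((1 - e) * (|u| - δ)) := by ring
        _ ≤ (n.choose w : ℝ) * (lam * n) * (h.eval u * u) := mul_le_mul_of_nonneg_left hhu hcn
        _ = _ := by rw [← hu]; ring
    have hsum := sum_le_sum key
    rw [← mul_sum, sum_sub_distrib, ← sum_mul] at hsum
    have hc : ∑ w ∈ range (n + 1), (n.choose w : ℝ) = 2 ^ n := by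
      exact_mod_cast Nat.sum_range_choose n
    rw [hc] at hsum
    have hE : (1 - e) * √(2 * n / π) ≤
        (∑ w ∈ range (n + 1), (n.choose w : ℝ) * |2 * (w : ℝ) - n|) / 2 ^ n := by
      refine le_trans (mul_le_mul_of_nonneg_right ?_ (Real.sqrt_nonneg _))
        (binomial_abs_lower n (by exact_mod_cast hnpos))
      have : 1 / (n:ℝ) ≤ e := by
        rw [div_le_iff₀ he0] at hne
        rw [div_le_iff₀ hnpos]; nlinarith
      linarith
    rw [le_div_iff₀ (by positivity)] at hE ⊢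
    have hR : κ * s = e * √(2 * n / π) := by
      rw [hκ, hsdef, mul_assoc, ← Real.sqrt_mul (by positivity)]
      congr 2; ring
    rw [hR] at hsum
    refine le_trans ?_ hsum
    exact scale_bound he0.le he4 he5 le_rfl (Real.sqrt_nonneg _) (by positivity) hE

end Vale.Agent.P047.Disproof
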