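import Vale.Agent.P047.Disproof.Defs
import Vale.Agent.P047.Disproof.MajorityPoly

/-!
A bounded polynomial of small degree with nearly the level-one mass of majority (owner: helper8).
-/

namespace Vale.Agent.P047.Disproof

open Filter Finset

section Weight

variable {n : ℕ}

/-- Hamming weight. -/
def weight (x : Cube n) : ℕ := (univ.filter fun i => x i = true).card

theorem weight_le (x : Cube n) : weight x ≤ n := by
  unfold weight
  exact (card_filter_le _ _).trans (by simp)

theorem weight_eq_sum (x : Cube n) : (weight x : ℝ) = ∑ i, (1 + sgn (x i)) / 2 := by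
  rw [weight, card_filter, Nat.cast_sum]
  exact sum_congr rfl fun i _ => by cases x i <;> simp [sgn]

theorem sum_sgn (x : Cube n) : ∑ i, sgn (x i) = 2 * (weight x : ℝ) - n := by
  rw [weight_eq_sum, mul_sum]
  simp only [mul_div_cancel₀ _ (two_ne_zero' ℝ), sum_add_distrib, sum_const, card_univ,
    Fintype.card_fin, nsmul_eq_mul, mul_one]
  ring

theorem sum_weight (F : ℕ → ℝ) :
    ∑ x : Cube n, F (weight x) = ∑ w ∈ range (n + 1), (n.choose w : ℝ) * F w := by
  let e : Cube n ≃ Finset (Fin n) :=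
    { toFun := fun x => univ.filter fun i => x i = true
      invFun := fun s i => decide (i ∈ s)
      left_inv := fun x => by funext i; simp
      right_inv := fun s => by ext i; simp }
  rw [Fintype.sum_equiv e (fun x => F (weight x)) (fun s => F s.card) (fun x => rfl),
    ← powerset_univ, sum_powerset_apply_card (fun k => F k)]
  simp [nsmul_eq_mul]

theorem degLE_const (c : ℝ) (d : ℕ) : DegLE (fun _ : Cube n => c) d := by
  intro S hS
  obtain ⟨i, hi⟩ := card_pos.1 (by omega : 0 < S.card)
  have hsum : ∑ x : Cube n, ∏ j ∈ S, sgn (x j) = 0 := by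
    have hinv : Function.Involutive (fun x : Cube n => Function.update x i (!x i)) := by
      intro x; funext j; by_cases h : j = i <;> simp [Function.update, h]
    have := Equiv.sum_comp hinv.toPerm (fun x : Cube n => ∏ j ∈ S, sgn (x j))
    change ∑ x : Cube n, ∏ j ∈ S, sgn (Function.update x i (!x i) j) = _ at this
    have hneg : ∀ x : Cube n, ∏ j ∈ S, sgn (Function.update x i (!x i) j) =
        -∏ j ∈ S, sgn (x j) := by
      intro x
      rw [← mul_prod_erase S _ hi, ← mul_prod_erase S (fun j => sgn (x j)) hi, ← neg_mul]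
      congr 1
      · cases x i <;> simp [sgn]
      · exact prod_congr rfl fun j hj => by rw [Function.update_of_ne (ne_of_mem_erase hj)]
    rw [sum_congr rfl fun x _ => hneg x, sum_neg_distrib] at this
    linarith
  simp [coef, ← mul_sum, hsum]

theorem degLE_add {f g : Cube n → ℝ} {d : ℕ} (hf : DegLE f d) (hg : DegLE g d) :
    DegLE (fun x => f x + g x) d := by
  intro S hS
  simp only [coef, add_mul, sum_add_distrib, add_div]
  simp only [← coef.eq_1, hf S hS, hg S hS, add_zero]

theorem degLE_sum {ι : Type*} (s : Finset ι) (f : ι → Cube n → ℝ) {d : ℕ}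
    (hf : ∀ i ∈ s, DegLE (f i) d) : DegLE (fun x => ∑ i ∈ s, f i x) d := by
  intro S hS
  simp only [coef, sum_mul]
  rw [sum_comm, sum_div]
  exact sum_eq_zero fun i hi => hf i hi S hS

theorem degLE_mono {f : Cube n → ℝ} {d e : ℕ} (h : d ≤ e) (hf : DegLE f d) : DegLE f e :=
  fun S hS => hf S (lt_of_le_of_lt h hS)

theorem degLE_mul_left {f : Cube n → ℝ} {d : ℕ} (c : ℝ) (hf : DegLE f d) :
    DegLE (fun x => c * f x) d := by
  intro S hS
  have := hf S hS
  simp only [coef, mul_assoc, ← mul_sum, mul_div_assoc] at this ⊢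
  rw [this, mul_zero]

theorem degLE_mul_sgn {f : Cube n → ℝ} {d : ℕ} (i : Fin n) (hf : DegLE f d) :
    DegLE (fun x => f x * sgn (x i)) (d + 1) := by
  intro S hS
  have hsq : ∀ b : Bool, sgn b * sgn b = 1 := fun b => by cases b <;> simp [sgn]
  by_cases hi : i ∈ S
  · have h := hf (S.erase i) (by rw [card_erase_of_mem hi]; omega)
    simp only [coef] at h ⊢
    rw [← h]
    congr 1
    refine sum_congr rfl fun x _ => ?_
    rw [← mul_prod_erase S (fun j => sgn (x j)) hi]
    linear_combination (f x * ∏ j ∈ S.erase i, sgn (x j)) * hsq (x i)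
  · have h := hf (insert i S) (by rw [card_insert_of_notMem hi]; omega)
    simp only [coef] at h ⊢
    rw [← h]
    congr 1
    refine sum_congr rfl fun x _ => ?_
    rw [prod_insert hi]; ring

theorem degLE_mul_weight {f : Cube n → ℝ} {d : ℕ} (hf : DegLE f d) :
    DegLE (fun x => f x * (weight x : ℝ)) (d + 1) := by
  have e : (fun x => f x * (weight x : ℝ)) =
      fun x => ∑ i, ((1 / 2) * f x + (1 / 2) * (f x * sgn (x i))) := by
    funext x
    rw [weight_eq_sum, mul_sum]
    exact sum_congr rfl fun i _ => by ring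
  rw [e]
  exact degLE_sum _ _ fun i _ => degLE_add (degLE_mul_left _ (degLE_mono (by omega) hf))
    (degLE_mul_left _ (degLE_mul_sgn i hf))

theorem degLE_eval_weight (p : Polynomial ℝ) :
    DegLE (fun x : Cube n => p.eval (weight x : ℝ)) p.natDegree := by
  have hpow : ∀ k : ℕ, DegLE (fun x : Cube n => (weight x : ℝ) ^ k) k := by
    intro k
    induction k with
    | zero => simpa using degLE_const (n := n) 1 0
    | succ k ih => simpa [pow_succ] using degLE_mul_weight ih
  simp only [Polynomial.eval_eq_sum_range]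
  exact degLE_sum _ _ fun k hk =>
    degLE_mul_left _ (degLE_mono (Nat.lt_succ_iff.1 (mem_range.1 hk)) (hpow k))

theorem levelOne_eq (f : Cube n → ℝ) :
    levelOne f = (∑ x, f x * (2 * (weight x : ℝ) - n)) / 2 ^ n := by
  simp only [levelOne, ← sum_sgn, mul_sum]
  rw [← sum_div, sum_comm]

end Weight

theorem exists_majority_target (ε : ℝ) (hε : 0 < ε) :
    ∃ η : ℝ, 0 < η ∧ η < 1 / 4 ∧ ∀ᶠ n : ℕ in atTop, ∃ q : Cube n → ℝ,
      (∀ x, η ≤ q x ∧ q x ≤ 1 - η) ∧ DegLE q (n / 2) ∧
      (Real.sqrt (2 / Real.pi) - ε) * Real.sqrt n ≤ 2 * levelOne q := by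
  obtain ⟨η, hη0, hη1, n₀, h⟩ := exists_majority_poly (min ε (1 / 2)) (lt_min hε (by norm_num))
  refine ⟨η, hη0, hη1, eventually_atTop.2 ⟨n₀, fun n hn => ?_⟩⟩
  obtain ⟨p, hdeg, hrange, hsymm, hval⟩ := h n hn
  refine ⟨fun x => p.eval (weight x : ℝ), fun x => hrange _ (weight_le x), ?_, ?_⟩
  · refine degLE_mono ?_ (degLE_eval_weight p)
    rw [Nat.le_div_iff_mul_le two_pos]
    have : (p.natDegree : ℝ) * 2 ≤ n := by
      have := mul_le_mul_of_nonneg_right (min_le_right ε (1 / 2)) (Nat.cast_nonneg' (α := ℝ) n)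
      linarith
    exact_mod_cast this
  · have e0 : ∑ w ∈ range (n + 1), (n.choose w : ℝ) * (2 * (w : ℝ) - n) = 0 := by
      have h0 := sum_choose_mul_sub n n
      rw [Nat.choose_eq_zero_of_lt (Nat.lt_succ_self n), Nat.cast_zero, mul_zero] at h0
      rw [← neg_eq_zero, ← h0, ← sum_neg_distrib]
      exact sum_congr rfl fun w _ => by ring
    have e1 : 2 * levelOne (fun x : Cube n => p.eval (weight x : ℝ)) =
        (∑ w ∈ range (n + 1),
          (n.choose w : ℝ) * ((2 * p.eval (w : ℝ) - 1) * (2 * (w : ℝ) - n))) / 2 ^ n := by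
      rw [levelOne_eq, sum_weight (fun w => p.eval (w : ℝ) * (2 * (w : ℝ) - n)), ← mul_div_assoc,
        mul_sum]
      congr 1
      calc ∑ w ∈ range (n + 1), 2 * ((n.choose w : ℝ) * (p.eval (w : ℝ) * (2 * (w : ℝ) - n)))
          = ∑ w ∈ range (n + 1), ((n.choose w : ℝ) * ((2 * p.eval (w : ℝ) - 1) * (2 * (w : ℝ) - n))
              + (n.choose w : ℝ) * (2 * (w : ℝ) - n)) := sum_congr rfl fun w _ => by ring
        _ = _ := by rw [sum_add_distrib, e0, add_zero]
    rw [e1]
    refine le_trans ?_ hval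
    have hsq : Real.sqrt (2 * n / Real.pi) = Real.sqrt (2 / Real.pi) * Real.sqrt n := by
      rw [← Real.sqrt_mul (by positivity)]; congr 1; ring
    have h1 : Real.sqrt (2 / Real.pi) ≤ 1 :=
      Real.sqrt_le_one.2 ((div_le_one Real.pi_pos).2 (by linarith [Real.two_le_pi]))
    rw [hsq, ← mul_assoc]
    refine mul_le_mul_of_nonneg_right ?_ (Real.sqrt_nonneg _)
    have := mul_le_of_le_one_right (lt_min hε (by norm_num : (0:ℝ) < 1/2)).le h1
    linarith [min_le_left ε (1 / 2)]

end Vale.Agent.P047.Disproof
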