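import Vale.Agent.P047.Disproof.MinorMajorBox

/-!
Products of periodic factors have nonzero integral over the torus.
-/

namespace Vale.Agent.P047.Disproof

open Finset Filter MeasureTheory Set

/-- Factors, majorised by an even log-concave kernel, strongly on `S`, and agreeing with it up to
a phase near zero. -/
structure Factors {n : ℕ} (S : Finset (Cube n)) where
  /-- periodic factors -/
  φ : Cube n → ℝ → ℂ
  /-- kernels -/
  g : Cube n → ℝ → ℝ
  /-- phases -/
  v : Cube n → ℝ
  φ_cont : ∀ x, Continuous (φ x)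
  φ_per : ∀ x y (k : ℤ), φ x (y + k) = φ x y
  g_cont : ∀ x, Continuous (g x)
  g_pos : ∀ x y, 0 < g x y
  g_even : ∀ x y, g x (-y) = g x y
  g_lc : ∀ x p q, g x p * g x q ≤ g x ((p + q) / 2) ^ 2
  g_slc : ∀ x ∈ S, ∀ p q,
    g x p * g x q * Real.exp (2 * ((p - q) / 2) ^ 2) ≤ g x ((p + q) / 2) ^ 2
  le_g : ∀ x y, |y| ≤ 13 / 25 → ‖φ x y‖ ≤ (1 + 1 / (8 * 2 ^ n)) * g x y
  near : ∀ x y, |y| ≤ 1 / 50 →
    ‖φ x y - Complex.exp (2 * Real.pi * Complex.I * (v x * y : ℝ)) * (g x y : ℂ)‖ ≤
      g x y / (8 * 2 ^ n)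
  v_orth : ∀ a : Idx n (tdeg n) → ℝ, ∑ x, v x * ev n (tdeg n) a x = 0

namespace MinorMajor

variable {n : ℕ} {C : Cover n} {S : Finset (Cube n)}

/-- The integrand. -/
noncomputable def prodφ (F : Factors S) (a : Idx n (tdeg n) → ℝ) : ℂ :=
  ∏ x, F.φ x (ev n (tdeg n) a x)

theorem continuous_prodφ (F : Factors S) : Continuous (prodφ F) :=
  continuous_finsetProd _ fun x _ => (F.φ_cont x).comp (continuous_ev n (tdeg n) x)

theorem prodφ_per (F : Factors S) (a : Idx n (tdeg n) → ℝ) (z : Idx n (tdeg n) → ℤ) :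
    prodφ F (a + cst z) = prodφ F a := by
  refine Finset.prod_congr rfl fun x _ => ?_
  rw [ev_add, show cst z = fun i => (z i : ℝ) from rfl, ev_intCast, F.φ_per]

theorem near_re (F : Factors S) {a : Idx n (tdeg n) → ℝ}
    (ha : ∀ x, |ev n (tdeg n) a x| ≤ 1 / 50) :
    3 / 4 * boxProd F.g (evL n (tdeg n)) 0 a ≤ (prodφ F a).re := by
  set G := boxProd F.g (evL n (tdeg n)) 0 a with hG
  set y := fun x => ev n (tdeg n) a x with hy
  set b : Cube n → ℂ := fun x =>
    Complex.exp (2 * Real.pi * Complex.I * (F.v x * y x : ℝ)) * (F.g x (y x) : ℂ) with hb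
  have hG' : ∏ x, F.g x (y x) = G := by simp [hG, boxProd, hy]
  have hnorm : ∀ x, ‖b x‖ ≤ F.g x (y x) := fun x => by
    simp [hb, Complex.norm_exp, abs_of_pos (F.g_pos x (y x))]
  have hprod : ∏ x, b x = (G : ℂ) := by
    rw [hb, Finset.prod_mul_distrib, ← Complex.exp_sum, ← Finset.mul_sum, ← Complex.ofReal_sum,
      F.v_orth a, Complex.ofReal_zero, mul_zero, Complex.exp_zero, one_mul, ← Complex.ofReal_prod,
      hG']
  have h := norm_prod_sub_prod_le Finset.univ (fun x => F.φ x (y x)) b (fun x => F.g x (y x))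
    (δ := 1 / (8 * 2 ^ n)) (by positivity) hnorm
    fun x => (F.near x (y x) (ha x)).trans_eq (by ring)
  rw [hprod, hG'] at h
  have hc : ((1 : ℝ) + 1 / (8 * 2 ^ n)) ^ (Finset.univ : Finset (Cube n)).card ≤ 5 / 4 := by
    have := one_add_pow_le (Finset.univ : Finset (Cube n)).card
    simpa using this
  have hG0 : 0 ≤ G := hG' ▸ Finset.prod_nonneg fun x _ => (F.g_pos x _).le
  have h2 := (abs_le.1 (Complex.abs_re_le_norm (prodφ F a - (G : ℂ)))).1
  have h3 : ‖prodφ F a - (G : ℂ)‖ ≤ 1 / 4 * G :=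
    h.trans (mul_le_mul_of_nonneg_right (by linarith) hG0)
  rw [Complex.sub_re, Complex.ofReal_re] at h2
  linarith

theorem norm_shift_le (F : Factors S) (c : Fin C.size) (hrad : rad n ≤ 1 / 50)
    {a : Idx n (tdeg n) → ℝ} (ha : a ∈ box n (tdeg n) (C.r c)) :
    ‖prodφ F (a + C.ctr c)‖ ≤ 5 / 4 * boxProd F.g (evL n (tdeg n)) (C.d c) a := by
  have h1 : ∀ x, ‖F.φ x (ev n (tdeg n) (a + C.ctr c) x)‖ ≤
      (1 + 1 / (8 * 2 ^ n)) * F.g x (C.d c x + ev n (tdeg n) a x) := fun x => by
    obtain ⟨k, hk⟩ := C.d_eq c x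
    rw [ev_add, hk, ← add_assoc, add_comm (ev n (tdeg n) a x), F.φ_per]
    refine F.le_g x _ ((abs_add_le _ _).trans ?_)
    linarith [C.d_abs c x, (ha x).trans (C.r_le c)]
  rw [prodφ, norm_prod]
  refine (Finset.prod_le_prod (fun x _ => norm_nonneg _) fun x _ => h1 x).trans ?_
  rw [Finset.prod_mul_distrib, Finset.prod_const]
  refine mul_le_mul_of_nonneg_right ?_ (Finset.prod_nonneg fun x _ => (F.g_pos x _).le)
  have := one_add_pow_le (Finset.univ : Finset (Cube n)).card
  simpa using this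

theorem box_integral_le (F : Factors S) {θ : ℝ} (hgood : Good C S θ) (c : Fin C.size) :
    ∫ a in box n (tdeg n) (C.r c), boxProd F.g (evL n (tdeg n)) (C.d c) a ≤
      Real.exp (-(θ / 2 * (kap n * C.w c))) *
        ∫ a in box n (tdeg n) (C.r c), boxProd F.g (evL n (tdeg n)) 0 a := by
  classical
  refine box_estimate_shift (c := fun x => if x ∈ S then (1 : ℝ) else 0) F.g_cont
    (fun x q => (F.g_pos x q).le) F.g_even (fun x p q => ?_) (convex_box _) (measurableSet_box _)
    (isBounded_box _) (fun _ => neg_mem_box) fun m hm => ?_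
  · by_cases h : x ∈ S
    · simpa [h] using F.g_slc x h p q
    · simpa [h] using F.g_lc x p q
  · refine (hgood.2 c m hm).trans_eq ?_
    simp [Finset.sum_ite_mem]

theorem main (F : Factors S) {θ : ℝ} (hn : 1 ≤ n) (hrad : rad n ≤ 1 / 50)
    (hkap : (2 : ℝ) ^ (-(n : ℝ) / 1000) ≤ θ / 2 * kap n) (hgood : Good C S θ) :
    ∫ a in unitCube (Idx n (tdeg n)), prodφ F a ≠ 0 := by
  set K := tdeg n with hK
  set L := evL n K
  set G := boxProd F.g L 0 with hG
  set B := box n K (rad n) with hB
  set A := unitCube (Idx n K) ∩ per B with hA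
  set E : Fin C.size → Set (Idx n K → ℝ) := fun c =>
    (fun a => a - C.ctr c) ⁻¹' box n K (C.r c) with hE
  have hφc := continuous_prodφ F
  have hGc : Continuous G := continuous_boxProd F.g_cont L 0
  have hG0 : ∀ a, 0 < G a := fun a => Finset.prod_pos fun x _ => F.g_pos x _
  have hr0 : 0 < rad n := Real.rpow_pos_of_pos two_pos _
  have hAm : MeasurableSet A := measurableSet_per_inter (measurableSet_box _) (isBounded_box _)
  have hBm : MeasurableSet B := measurableSet_box _
  have hBb : Bornology.IsBounded B := isBounded_box _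
  have hQi : IntegrableOn (prodφ F) (unitCube (Idx n K)) :=
    integrableOn_of_bounded hφc isBounded_unitCube
  set I := ∫ a in B, G a with hI
  have hIpos : 0 < I := by
    rw [hI, setIntegral_pos_iff_support_of_nonneg_ae (ae_of_all _ fun a => (hG0 a).le)
      (integrableOn_of_bounded hGc hBb),
      Function.support_eq_univ fun a => (hG0 a).ne', Set.univ_inter]
    exact volume_box_pos hr0
  have hmajor : 3 / 4 * I ≤ (∫ a in A, prodφ F a).re := by
    rw [hA, integral_per_inj hφc (prodφ_per F) hBm hBb (box_inj (by linarith)), hI,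
      ← integral_const_mul,
      show (∫ a in B, prodφ F a).re = ∫ a in B, (prodφ F a).re from
        (integral_re (integrableOn_of_bounded hφc hBb)).symm]
    exact setIntegral_mono_on ((integrableOn_of_bounded hGc hBb).const_mul _)
      (integrableOn_of_bounded hφc hBb).re hBm
      fun a ha => near_re F fun x => (ha x).trans hrad
  have hEm : ∀ c, MeasurableSet (E c) := fun c => measurable_sub_const _ (measurableSet_box _)
  have hEb : ∀ c, Bornology.IsBounded (E c) := fun c => by
    obtain ⟨R, hR⟩ := isBounded_iff_forall_norm_le.1 (isBounded_box (n := n) (k := K) (C.r c))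
    refine isBounded_iff_forall_norm_le.2 ⟨R + ‖C.ctr c‖, fun a ha => ?_⟩
    calc ‖a‖ = ‖(a - C.ctr c) + C.ctr c‖ := by rw [sub_add_cancel]
      _ ≤ ‖a - C.ctr c‖ + ‖C.ctr c‖ := norm_add_le _ _
      _ ≤ _ := by linarith [hR _ ha]
  have hcov : unitCube (Idx n K) \ A ⊆
      ⋃ c ∈ (Finset.univ : Finset (Fin C.size)), unitCube (Idx n K) ∩ per (E c) := by
    intro a ha
    obtain ⟨z, hz⟩ := C.covers a
    have e : cst (-z) = -fun i => (z i : ℝ) := by funext i; simp [cst]
    rcases hz with hz | ⟨c, hz⟩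
    · refine absurd ⟨ha.1, -z, ?_⟩ ha.2
      rw [e, ← sub_eq_add_neg]
      exact hz
    · refine mem_iUnion₂.2 ⟨c, Finset.mem_univ c, ha.1, -z, ?_⟩
      simp only [hE, Set.mem_preimage]
      rw [e, ← sub_eq_add_neg, sub_right_comm]
      exact hz
  set u := fun a => ‖prodφ F a‖ with hu
  have huc : Continuous u := hφc.norm
  have hbox : ∀ c, ∫ a in E c, u a ≤
      5 / 4 * (Real.exp (-((2 : ℝ) ^ (-(n : ℝ) / 1000) * C.w c)) * I) := fun c => by
    rw [← setIntegral_preimage_add (C.ctr c) u (E c)]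
    simp only [hE, preimage_preimage, add_sub_cancel_right, preimage_id']
    have hb := isBounded_box (n := n) (k := K) (C.r c)
    have hw : 0 ≤ C.w c := le_trans (Finset.sum_nonneg fun x _ => sq_nonneg _) (C.d_sq c)
    calc ∫ a in box n K (C.r c), u (a + C.ctr c)
        ≤ ∫ a in box n K (C.r c), 5 / 4 * boxProd F.g L (C.d c) a :=
          setIntegral_mono_on (integrableOn_of_bounded (huc.comp (continuous_add_const _)) hb)
            ((integrableOn_boxProd F.g_cont L (C.d c) hb).const_mul _) (measurableSet_box _)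
            fun a ha => norm_shift_le F c hrad ha
      _ = 5 / 4 * ∫ a in box n K (C.r c), boxProd F.g L (C.d c) a := integral_const_mul _ _
      _ ≤ 5 / 4 * (Real.exp (-(θ / 2 * (kap n * C.w c))) * ∫ a in box n K (C.r c), G a) :=
          mul_le_mul_of_nonneg_left (box_integral_le F hgood c) (by norm_num)
      _ ≤ _ := by
          refine mul_le_mul_of_nonneg_left ?_ (by norm_num)
          refine mul_le_mul (Real.exp_le_exp.2 ?_) ?_
            (setIntegral_nonneg (measurableSet_box _) fun a _ => (hG0 a).le) (Real.exp_pos _).le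
          · rw [neg_le_neg_iff, ← mul_assoc]
            exact mul_le_mul_of_nonneg_right hkap hw
          · exact setIntegral_mono_set (integrableOn_of_bounded hGc hBb)
              (ae_of_all _ fun a => (hG0 a).le) (LE.le.eventuallyLE (box_mono (C.r_le c)))
  have hrest : ‖∫ a in unitCube (Idx n K) \ A, prodφ F a‖ ≤ 5 / 4 * (1 / 2 * I) := by
    refine (norm_integral_le_integral_norm _).trans ?_
    refine (setIntegral_le_sum (u := u) Finset.univ (fun a => norm_nonneg _)
      (measurableSet_unitCube.diff hAm) (fun c _ => measurableSet_per_inter (hEm c) (hEb c))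
      (fun c _ => integrableOn_of_bounded huc (isBounded_unitCube.subset inter_subset_left))
      hcov).trans ?_
    refine (Finset.sum_le_sum fun c _ => (integral_per_le huc (fun a => norm_nonneg _)
      (fun a z => by simp only [hu, prodφ_per]) (hEm c) (hEb c)).trans (hbox c)).trans ?_
    rw [← Finset.mul_sum, ← Finset.sum_mul]
    refine mul_le_mul_of_nonneg_left (mul_le_mul_of_nonneg_right ?_ hIpos.le) (by norm_num)
    refine C.few.trans ?_
    have hn' : (1 : ℝ) ≤ (n : ℝ) ^ 2 := one_le_pow₀ (by exact_mod_cast hn)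
    calc Real.exp (-(n : ℝ) ^ 2) ≤ Real.exp (-1) := Real.exp_le_exp.2 (by linarith)
      _ ≤ 1 / 2 := by
          rw [Real.exp_neg, one_div]
          exact inv_anti₀ two_pos (by linarith [Real.add_one_le_exp 1])
  intro h0
  have hsplit := integral_inter_add_sdiff (μ := volume) (f := prodφ F) hAm hQi
  rw [show unitCube (Idx n K) ∩ A = A from inter_eq_right.2 inter_subset_left, h0] at hsplit
  have h1 := congrArg Complex.re hsplit
  rw [Complex.add_re, Complex.zero_re] at h1
  have h2 := (abs_le.1 ((Complex.abs_re_le_norm _).trans hrest)).1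
  linarith

theorem eventually_consts : ∀ᶠ n : ℕ in atTop, 1 ≤ n ∧ rad n ≤ 1 / 50 ∧
    ∀ θ : ℝ, (1 : ℝ) / n ≤ θ → (2 : ℝ) ^ (-(n : ℝ) / 1000) ≤ θ / 2 * kap n := by
  have hl : 0 < Real.log 2 := Real.log_pos one_lt_two
  have t1 := (tendsto_rpow_mul_exp_neg_mul_atTop_nhds_zero 0 (Real.log 2 / 2000)
    (by positivity)).comp tendsto_natCast_atTop_atTop
  have t2 := (tendsto_rpow_mul_exp_neg_mul_atTop_nhds_zero 1 (3 * Real.log 2 / 4000)
    (by positivity)).comp tendsto_natCast_atTop_atTop
  filter_upwards [eventually_ge_atTop 1,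
    t1.eventually_le_const (show (0 : ℝ) < 1 / 50 by norm_num),
    t2.eventually_le_const (show (0 : ℝ) < 1 / 2 by norm_num)] with n hn h1 h2
  simp only [Function.comp, Real.rpow_zero, Real.rpow_one, one_mul] at h1 h2
  refine ⟨hn, ?_, fun θ hθ => ?_⟩
  · rw [rad, Real.rpow_def_of_pos two_pos]
    exact le_of_eq_of_le (by congr 1; ring) h1
  · have hn0 : (0 : ℝ) < n := by exact_mod_cast hn
    refine le_trans ?_ (mul_le_mul_of_nonneg_right
      (div_le_div_of_nonneg_right hθ zero_le_two) (Real.rpow_pos_of_pos two_pos _).le)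
    rw [kap, Real.rpow_def_of_pos two_pos, Real.rpow_def_of_pos two_pos,
      show Real.log 2 * (-(n : ℝ) / 1000) =
        -(3 * Real.log 2 / 4000) * n + Real.log 2 * (-(n : ℝ) / 4000) by ring, Real.exp_add]
    refine mul_le_mul_of_nonneg_right ?_ (Real.exp_pos _).le
    rw [div_div, le_div_iff₀ (by positivity)]
    nlinarith

end MinorMajor

theorem integral_ne_zero : ∀ᶠ n : ℕ in atTop, ∀ (C : Cover n) (S : Finset (Cube n)) (θ : ℝ),
    (1 : ℝ) / n ≤ θ → Good C S θ → ∀ F : Factors S,
      ∫ a in Set.univ.pi (fun _ : Idx n (tdeg n) => Set.Ico (0 : ℝ) 1),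
        ∏ x, F.φ x (ev n (tdeg n) a x) ≠ 0 := by
  filter_upwards [MinorMajor.eventually_consts] with n ⟨hn, hrad, hk⟩ C S θ hθ hgood F
  exact MinorMajor.main F hn hrad (hk θ hθ) hgood

end Vale.Agent.P047.Disproof
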