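import Mathlib

/-!
Folding a bounded set into the unit cube along the integer lattice (owner: helper21).
-/

namespace Vale.Agent.P047.Disproof.MinorMajor

open MeasureTheory Set
open scoped Pointwise

variable {κ : Type*} [Fintype κ]

/-- An integer vector as a real one. -/
def cst (z : κ → ℤ) : κ → ℝ := fun i => z i

/-- The unit cube. -/
def unitCube (κ : Type*) : Set (κ → ℝ) := univ.pi fun _ => Ico 0 1

/-- The points having an integer translate in `E`. -/
def per (E : Set (κ → ℝ)) : Set (κ → ℝ) := {a | ∃ z : κ → ℤ, a + cst z ∈ E}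

theorem measurableSet_unitCube : MeasurableSet (unitCube κ) :=
  MeasurableSet.univ_pi fun _ => measurableSet_Ico

omit [Fintype κ] in
theorem floor_eq {a : κ → ℝ} {z : κ → ℤ} : a - cst z ∈ unitCube κ ↔ (fun i => ⌊a i⌋) = z := by
  simp only [unitCube, mem_univ_pi, Pi.sub_apply, cst, funext_iff, Int.floor_eq_iff, mem_Ico,
    sub_nonneg, sub_lt_iff_lt_add]
  exact forall_congr' fun i => and_congr Iff.rfl (by rw [add_comm])

theorem exists_translates {E : Set (κ → ℝ)} (hE : Bornology.IsBounded E) :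
    ∃ Z : Finset (κ → ℤ), ∀ a ∈ E, (fun i => ⌊a i⌋) ∈ Z := by
  classical
  obtain ⟨R, hR⟩ := isBounded_iff_forall_norm_le.1 hE
  refine ⟨Fintype.piFinset fun _ => Finset.Icc ⌊-R⌋ ⌊R⌋, fun a ha => Fintype.mem_piFinset.2 fun i => ?_⟩
  have h := abs_le.1 ((norm_le_pi_norm a i).trans (hR a ha))
  exact Finset.mem_Icc.2 ⟨Int.floor_mono h.1, Int.floor_mono h.2⟩

theorem measurableSet_piece {E : Set (κ → ℝ)} (hEm : MeasurableSet E) (z : κ → ℤ) :
    MeasurableSet (unitCube κ ∩ (fun a => a + cst z) ⁻¹' E) :=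
  measurableSet_unitCube.inter (measurable_add_const _ hEm)

omit [Fintype κ] in
theorem per_inter_eq {E : Set (κ → ℝ)} {Z : Finset (κ → ℤ)}
    (hZ : ∀ a ∈ E, (fun i => ⌊a i⌋) ∈ Z) :
    unitCube κ ∩ per E = ⋃ z ∈ Z, unitCube κ ∩ (fun a => a + cst z) ⁻¹' E := by
  ext a
  simp only [mem_iUnion, mem_inter_iff, mem_preimage, per, mem_ofPred_eq, exists_prop]
  constructor
  · rintro ⟨ha, z, hz⟩
    refine ⟨z, ?_, ha, hz⟩
    have := hZ _ hz
    rwa [floor_eq.1 (by simpa using ha : a + cst z - cst z ∈ unitCube κ)] at this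
  · rintro ⟨z, -, ha, hz⟩
    exact ⟨ha, z, hz⟩

theorem measurableSet_per_inter {E : Set (κ → ℝ)} (hEm : MeasurableSet E)
    (hEb : Bornology.IsBounded E) : MeasurableSet (unitCube κ ∩ per E) := by
  obtain ⟨Z, hZ⟩ := exists_translates hEb
  rw [per_inter_eq hZ]
  exact Z.measurableSet_biUnion fun z _ => measurableSet_piece hEm z

variable {F : Type*} [NormedAddCommGroup F] [NormedSpace ℝ F] {f : (κ → ℝ) → F}

omit [NormedSpace ℝ F] in
theorem integrableOn_of_bounded (hf : Continuous f) {s : Set (κ → ℝ)}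
    (hs : Bornology.IsBounded s) : IntegrableOn f s :=
  (hf.continuousOn.integrableOn_compact hs.isCompact_closure).mono_set subset_closure

omit [Fintype κ] in
theorem isBounded_unitCube : Bornology.IsBounded (unitCube κ) :=
  Bornology.IsBounded.pi fun _ => Metric.isBounded_Ico 0 1

theorem setIntegral_preimage_add (c : κ → ℝ) (f : (κ → ℝ) → F) (s : Set (κ → ℝ)) :
    ∫ a in (fun a => a + c) ⁻¹' s, f (a + c) = ∫ a in s, f a :=
  (measurePreserving_add_right volume c).setIntegral_preimage_emb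
    (MeasurableEquiv.addRight c).measurableEmbedding f s

theorem integral_eq_sum_translates (hf : Continuous f) (hper : ∀ a z, f (a + cst z) = f a)
    {E : Set (κ → ℝ)} (hEm : MeasurableSet E) (hEb : Bornology.IsBounded E)
    {Z : Finset (κ → ℤ)} (hZ : ∀ a ∈ E, (fun i => ⌊a i⌋) ∈ Z) :
    ∫ a in E, f a = ∑ z ∈ Z, ∫ a in unitCube κ ∩ (fun a => a + cst z) ⁻¹' E, f a := by
  set P : (κ → ℤ) → Set (κ → ℝ) := fun z => E ∩ (fun a => a - cst z) ⁻¹' unitCube κ with hP
  have hU : E = ⋃ z ∈ Z, P z := by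
    ext a
    simp only [hP, mem_iUnion, mem_inter_iff, mem_preimage, exists_prop]
    exact ⟨fun ha => ⟨_, hZ a ha, ha, floor_eq.2 rfl⟩, fun ⟨_, _, ha, _⟩ => ha⟩
  have hdis : (Z : Set (κ → ℤ)).Pairwise (Function.onFun Disjoint P) := fun z _ z' _ hne =>
    disjoint_left.2 fun a ha ha' => hne ((floor_eq.1 ha.2).symm.trans (floor_eq.1 ha'.2))
  conv_lhs => rw [hU]
  rw [integral_biUnion_finset Z (fun z _ => hEm.inter (measurable_sub_const _ measurableSet_unitCube))
    hdis (fun z _ => integrableOn_of_bounded hf (hEb.subset inter_subset_left))]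
  refine Finset.sum_congr rfl fun z _ => ?_
  rw [← setIntegral_preimage_add (cst z) f (P z)]
  simp only [hP, preimage_inter, preimage_preimage, add_sub_cancel_right, preimage_id', hper]
  rw [inter_comm]

theorem integral_per_inj (hf : Continuous f) (hper : ∀ a z, f (a + cst z) = f a)
    {E : Set (κ → ℝ)} (hEm : MeasurableSet E) (hEb : Bornology.IsBounded E)
    (hinj : ∀ a z z', a + cst z ∈ E → a + cst z' ∈ E → z = z') :
    ∫ a in unitCube κ ∩ per E, f a = ∫ a in E, f a := by
  obtain ⟨Z, hZ⟩ := exists_translates hEb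
  rw [integral_eq_sum_translates hf hper hEm hEb hZ, per_inter_eq hZ]
  refine integral_biUnion_finset Z (fun z _ => measurableSet_piece hEm z)
    (fun z _ z' _ hne => disjoint_left.2 fun a ha ha' => hne (hinj a z z' ha.2 ha'.2))
    (fun z _ => integrableOn_of_bounded hf (isBounded_unitCube.subset inter_subset_left))

theorem setIntegral_le_sum {ι : Type*} (T : Finset ι) {s : Set (κ → ℝ)} {P : ι → Set (κ → ℝ)}
    {u : (κ → ℝ) → ℝ} (hu0 : ∀ a, 0 ≤ u a) (hs : MeasurableSet s)
    (hP : ∀ i ∈ T, MeasurableSet (P i)) (hi : ∀ i ∈ T, IntegrableOn u (P i))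
    (hcov : s ⊆ ⋃ i ∈ T, P i) : ∫ a in s, u a ≤ ∑ i ∈ T, ∫ a in P i, u a := by
  rw [← integral_indicator hs,
    Finset.sum_congr rfl fun i h => (integral_indicator (hP i h)).symm,
    ← integral_finsetSum T fun i h => (hi i h).integrable_indicator (hP i h)]
  refine integral_mono_of_nonneg (ae_of_all _ fun a => indicator_nonneg (fun b _ => hu0 b) a)
    (integrable_finsetSum T fun i h => (hi i h).integrable_indicator (hP i h))
    (ae_of_all _ fun a => ?_)
  by_cases ha : a ∈ s
  · obtain ⟨i, hiT, hai⟩ := mem_iUnion₂.1 (hcov ha)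
    rw [indicator_of_mem ha]
    calc u a = (P i).indicator u a := (indicator_of_mem hai u).symm
      _ ≤ _ := Finset.single_le_sum (f := fun i => (P i).indicator u a)
          (fun j _ => indicator_nonneg (fun b _ => hu0 b) a) hiT
  · rw [indicator_of_notMem ha]
    exact Finset.sum_nonneg fun j _ => indicator_nonneg (fun b _ => hu0 b) a

theorem integral_per_le {u : (κ → ℝ) → ℝ} (hu : Continuous u) (hu0 : ∀ a, 0 ≤ u a)
    (hper : ∀ a z, u (a + cst z) = u a) {E : Set (κ → ℝ)} (hEm : MeasurableSet E)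
    (hEb : Bornology.IsBounded E) : ∫ a in unitCube κ ∩ per E, u a ≤ ∫ a in E, u a := by
  obtain ⟨Z, hZ⟩ := exists_translates hEb
  rw [integral_eq_sum_translates hu hper hEm hEb hZ]
  exact setIntegral_le_sum Z hu0 (measurableSet_per_inter hEm hEb)
    (fun z _ => measurableSet_piece hEm z)
    (fun z _ => integrableOn_of_bounded hu (isBounded_unitCube.subset inter_subset_left))
    (per_inter_eq hZ).subset

end Vale.Agent.P047.Disproof.MinorMajor
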