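import Vale.Agent.P047.Disproof.PrekopaPi

/-! The box estimate: translates of an integral of a product of log-concave factors over a
symmetric convex set, by one application of Prékopa-Leindler. -/

open MeasureTheory Set
open scoped ENNReal Pointwise

noncomputable section

namespace Vale.Agent.P047.Disproof

/-- Prékopa-Leindler for real integrals. -/
theorem MidPL.integral_mul_le {E : Type*} [AddCommGroup E] [Module ℝ E] [MeasurableSpace E]
    {μ : Measure E} (hμ : MidPL μ) {f g h : E → ℝ} (hf : Measurable f) (hg : Measurable g)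
    (hh : Measurable h) (hfi : Integrable f μ) (hgi : Integrable g μ) (hhi : Integrable h μ)
    (hf0 : ∀ a, 0 ≤ f a) (hg0 : ∀ a, 0 ≤ g a) (hh0 : ∀ a, 0 ≤ h a)
    (hfg : ∀ a b, f a * g b ≤ h ((1 / 2 : ℝ) • (a + b)) ^ 2) :
    (∫ a, f a ∂μ) * ∫ b, g b ∂μ ≤ (∫ m, h m ∂μ) ^ 2 := by
  have key := hμ (fun a => ENNReal.ofReal (f a)) (fun a => ENNReal.ofReal (g a))
    (fun a => ENNReal.ofReal (h a)) hf.ennreal_ofReal hg.ennreal_ofReal hh.ennreal_ofReal
    fun a b => by
      rw [← ENNReal.ofReal_mul (hf0 a), ← ENNReal.ofReal_pow (hh0 _)]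
      exact ENNReal.ofReal_le_ofReal (hfg a b)
  rw [← ofReal_integral_eq_lintegral_ofReal hfi (ae_of_all _ hf0),
    ← ofReal_integral_eq_lintegral_ofReal hgi (ae_of_all _ hg0),
    ← ofReal_integral_eq_lintegral_ofReal hhi (ae_of_all _ hh0),
    ← ENNReal.ofReal_mul (integral_nonneg hf0), ← ENNReal.ofReal_pow (integral_nonneg hh0)] at key
  exact (ENNReal.ofReal_le_ofReal_iff (sq_nonneg _)).1 key

variable {κ ι : Type*} [Fintype κ] [Fintype ι]

/-- The product of the factors along a shifted linear image. -/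
def boxProd (g : ι → ℝ → ℝ) (L : (κ → ℝ) →ₗ[ℝ] (ι → ℝ)) (u : ι → ℝ) (a : κ → ℝ) : ℝ :=
  ∏ x, g x (u x + L a x)

omit [Fintype ι] in
lemma continuous_boxArg (L : (κ → ℝ) →ₗ[ℝ] (ι → ℝ)) (u : ι → ℝ) (x : ι) :
    Continuous fun a => u x + L a x :=
  continuous_const.add ((LinearMap.proj x ∘ₗ L).continuous_of_finiteDimensional)

lemma continuous_boxProd {g : ι → ℝ → ℝ} (hg : ∀ x, Continuous (g x))
    (L : (κ → ℝ) →ₗ[ℝ] (ι → ℝ)) (u : ι → ℝ) : Continuous (boxProd g L u) :=
  continuous_finsetProd _ fun x _ => (hg x).comp (continuous_boxArg L u x)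

lemma integrableOn_boxProd {g : ι → ℝ → ℝ} (hg : ∀ x, Continuous (g x))
    (L : (κ → ℝ) →ₗ[ℝ] (ι → ℝ)) (u : ι → ℝ) {B : Set (κ → ℝ)}
    (hBb : Bornology.IsBounded B) : IntegrableOn (boxProd g L u) B :=
  ((continuous_boxProd hg L u).continuousOn.integrableOn_compact hBb.isCompact_closure).mono_set
    subset_closure

/-- **Box estimate.** Let `B` be a bounded symmetric convex set and `B'` a part of it. If every
midpoint of `B'` keeps `u + L m` at `c`-weighted squared distance `D` from zero, then the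
integral over `B'` of the shifted product is at most `exp (-D)` times the centred integral
over `B`. -/
theorem box_estimate {g : ι → ℝ → ℝ} {c : ι → ℝ} {D : ℝ} {L : (κ → ℝ) →ₗ[ℝ] (ι → ℝ)} {u : ι → ℝ}
    {B B' : Set (κ → ℝ)} (hgc : ∀ x, Continuous (g x)) (hg0 : ∀ x q, 0 ≤ g x q)
    (heven : ∀ x q, g x (-q) = g x q)
    (hlc : ∀ x p q, g x p * g x q * Real.exp (2 * c x * ((p - q) / 2) ^ 2) ≤ g x ((p + q) / 2) ^ 2)
    (hB : Convex ℝ B) (hBm : MeasurableSet B) (hBb : Bornology.IsBounded B)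
    (hBs : ∀ m ∈ B, -m ∈ B) (hB' : B' ⊆ B) (hB'm : MeasurableSet B')
    (hD : ∀ a ∈ B', ∀ b ∈ B', D ≤ ∑ x, c x * (u x + L ((1 / 2 : ℝ) • (a + b)) x) ^ 2) :
    ∫ a in B', boxProd g L u a ≤ Real.exp (-D) * ∫ a in B, boxProd g L 0 a := by
  set P := boxProd g L with hP
  have hP0 : ∀ w a, 0 ≤ P w a := fun w a => Finset.prod_nonneg fun x _ => hg0 x _
  have hneg : ∀ a, P (-u) (-a) = P u a := fun a => Finset.prod_congr rfl fun x _ => by
    rw [← heven x (u x + L a x), map_neg, Pi.neg_apply, Pi.neg_apply, neg_add]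
  have hint : ∀ w, Integrable (B.indicator (P w)) := fun w =>
    (integrableOn_boxProd hgc L w hBb).integrable_indicator hBm
  have hint' : Integrable (B'.indicator (P u)) :=
    ((integrableOn_boxProd hgc L u hBb).mono_set hB').integrable_indicator hB'm
  set E := Real.exp D with hE
  set f : (κ → ℝ) → ℝ := fun a => E * B'.indicator (P u) a with hf
  set f' : (κ → ℝ) → ℝ := fun b => f (-b) with hf'
  have hf0 : ∀ a, 0 ≤ f a := fun a =>
    mul_nonneg (Real.exp_pos _).le (indicator_nonneg (fun b _ => hP0 u b) a)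
  have hfm : Measurable f :=
    ((continuous_boxProd hgc L u).measurable.indicator hB'm).const_mul E
  have key := (midPL_fintype κ).integral_mul_le (f := f) (g := f') (h := B.indicator (P 0)) hfm
    (hfm.comp measurable_neg) ((continuous_boxProd hgc L 0).measurable.indicator hBm)
    (hint'.const_mul E) (hint'.const_mul E).comp_neg (hint 0) hf0 (fun b => hf0 _)
    (indicator_nonneg fun a _ => hP0 0 a) ?_
  · rw [hf', integral_neg_eq_self f, ← sq, integral_indicator hBm, hf, integral_const_mul,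
      integral_indicator hB'm] at key
    have h2 := le_of_pow_le_pow_left₀ two_ne_zero
      (setIntegral_nonneg hBm fun a _ => hP0 0 a) key
    rw [Real.exp_neg, le_inv_mul_iff₀ (Real.exp_pos _)]
    exact h2
  intro a b
  simp only [hf', hf]
  by_cases ha : a ∈ B'
  swap
  · rw [indicator_of_notMem ha, mul_zero, zero_mul]; exact sq_nonneg _
  by_cases hb : -b ∈ B'
  swap
  · rw [indicator_of_notMem hb, mul_zero, mul_zero]; exact sq_nonneg _
  have hm : (1 / 2 : ℝ) • (a + b) ∈ B := by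
    have := hB (hB' ha) (by simpa using hBs _ (hB' hb)) (by norm_num : (0 : ℝ) ≤ 1 / 2)
      (by norm_num : (0 : ℝ) ≤ 1 / 2) (by norm_num)
    rwa [← smul_add] at this
  rw [indicator_of_mem ha, indicator_of_mem hb, indicator_of_mem hm,
    ← hneg (-b), neg_neg]
  have hD' := hD a ha (-b) hb
  have e : ∀ x, u x + L ((1 / 2 : ℝ) • (a + -b)) x =
      ((u x + L a x) - (-u x + L b x)) / 2 := fun x => by
    simp; ring
  simp only [e] at hD'
  calc E * P u a * (E * P (-u) b) = Real.exp (D + D) * (P u a * P (-u) b) := by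
        rw [Real.exp_add]; ring
    _ ≤ Real.exp (∑ x, 2 * c x * (((u x + L a x) - (-u x + L b x)) / 2) ^ 2) *
          (P u a * P (-u) b) := by
        refine mul_le_mul_of_nonneg_right (Real.exp_le_exp.2 ?_) (mul_nonneg (hP0 _ _) (hP0 _ _))
        simp only [mul_assoc, ← Finset.mul_sum]
        linarith
    _ = ∏ x, g x (u x + L a x) * g x (-u x + L b x) *
          Real.exp (2 * c x * (((u x + L a x) - (-u x + L b x)) / 2) ^ 2) := by
        rw [Finset.prod_mul_distrib, Finset.prod_mul_distrib, ← Real.exp_sum]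
        simp only [hP, boxProd, Pi.neg_apply]
        ring
    _ ≤ ∏ x, g x (((u x + L a x) + (-u x + L b x)) / 2) ^ 2 :=
        Finset.prod_le_prod (fun x _ => mul_nonneg (mul_nonneg (hg0 x _) (hg0 x _))
          (Real.exp_pos _).le) fun x _ => hlc x _ _
    _ = P 0 ((1 / 2 : ℝ) • (a + b)) ^ 2 := by
        rw [Finset.prod_pow, hP, boxProd]
        congr 1
        refine Finset.prod_congr rfl fun x _ => congrArg (g x) ?_
        simp; ring

/-- Translates lose `exp (-D)` when the box keeps at weighted squared distance `D` from `-u`. -/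
theorem box_estimate_shift {g : ι → ℝ → ℝ} {c : ι → ℝ} {D : ℝ} {L : (κ → ℝ) →ₗ[ℝ] (ι → ℝ)} {u : ι → ℝ}
    {B : Set (κ → ℝ)} (hgc : ∀ x, Continuous (g x)) (hg0 : ∀ x q, 0 ≤ g x q)
    (heven : ∀ x q, g x (-q) = g x q)
    (hlc : ∀ x p q, g x p * g x q * Real.exp (2 * c x * ((p - q) / 2) ^ 2) ≤ g x ((p + q) / 2) ^ 2)
    (hB : Convex ℝ B) (hBm : MeasurableSet B) (hBb : Bornology.IsBounded B)
    (hBs : ∀ m ∈ B, -m ∈ B) (hD : ∀ m ∈ B, D ≤ ∑ x, c x * (u x + L m x) ^ 2) :
    ∫ a in B, boxProd g L u a ≤ Real.exp (-D) * ∫ a in B, boxProd g L 0 a :=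
  box_estimate hgc hg0 heven hlc hB hBm hBb hBs subset_rfl hBm fun a ha b hb =>
    hD _ (by
      have := hB ha hb (by norm_num : (0 : ℝ) ≤ 1 / 2) (by norm_num : (0 : ℝ) ≤ 1 / 2) (by norm_num)
      rwa [← smul_add] at this)

end Vale.Agent.P047.Disproof
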