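import Vale.Agent.P047.Disproof.Cover
import Vale.Agent.P047.Disproof.PrekopaBox
import Vale.Agent.P047.Disproof.TorusBasic
import Vale.Agent.P047.Disproof.MinorMajorFold

/-!
Boxes in coefficient space and the size of products on them (owner: helper21).
-/

namespace Vale.Agent.P047.Disproof.MinorMajor

open MeasureTheory Set

variable {n k : ℕ}

theorem continuous_ev (m k : ℕ) (x : Cube m) : Continuous fun θ : Idx m k → ℝ => ev m k θ x :=
  (LinearMap.proj x ∘ₗ evL m k).continuous_of_finiteDimensional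

/-- The coefficient vectors whose values are at most `r`. -/
def box (n k : ℕ) (r : ℝ) : Set (Idx n k → ℝ) := {a | ∀ x, |ev n k a x| ≤ r}

theorem convex_box (r : ℝ) : Convex ℝ (box n k r) := by
  intro a ha b hb s t hs ht hst x
  have h : ev n k (s • a + t • b) x = s * ev n k a x + t * ev n k b x := by
    simp [← evL_apply]
  have h1 := abs_le.1 (ha x)
  have h2 := abs_le.1 (hb x)
  rw [h, abs_le]
  have e : s * r + t * r = r := by rw [← add_mul, hst, one_mul]
  constructor
  · nlinarith [mul_le_mul_of_nonneg_left h1.1 hs, mul_le_mul_of_nonneg_left h2.1 ht]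
  · nlinarith [mul_le_mul_of_nonneg_left h1.2 hs, mul_le_mul_of_nonneg_left h2.2 ht]

theorem measurableSet_box (r : ℝ) : MeasurableSet (box n k r) := by
  rw [box, ofPred_forall]
  exact MeasurableSet.iInter fun x =>
    measurableSet_le (continuous_ev n k x).abs.measurable measurable_const

theorem isBounded_box (r : ℝ) : Bornology.IsBounded (box n k r) := by
  obtain ⟨K, -, hK⟩ := (evL n k).exists_antilipschitzWith (LinearMap.ker_eq_bot.2 (evL_injective n k))
  refine isBounded_iff_forall_norm_le.2 ⟨K * max r 0, fun a ha => ?_⟩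
  refine le_trans ?_ (mul_le_mul_of_nonneg_left (a := (K : ℝ))
    ((pi_norm_le_iff_of_nonneg (le_max_right r 0)).2
      fun x => (ha x).trans (le_max_left r 0) : ‖evL n k a‖ ≤ max r 0) K.coe_nonneg)
  simpa using hK.le_mul_dist a 0

theorem neg_mem_box {r : ℝ} {a : Idx n k → ℝ} (ha : a ∈ box n k r) : -a ∈ box n k r := fun x => by
  have h : ev n k (-a) x = -ev n k a x := by simp [← evL_apply]
  rw [h, abs_neg]
  exact ha x

theorem box_mono {r s : ℝ} (h : r ≤ s) : box n k r ⊆ box n k s := fun _ ha x => (ha x).trans h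

theorem box_inj {r : ℝ} (hr : r < 1 / 2) (a : Idx n k → ℝ) (z z' : Idx n k → ℤ)
    (h : a + cst z ∈ box n k r) (h' : a + cst z' ∈ box n k r) : z = z' := by
  have hz : (fun i => z i - z' i) = (0 : Idx n k → ℤ) := ev_injective n k <| funext fun x => by
    have e : ((ev n k (fun i => z i - z' i) x : ℤ) : ℝ) =
        ev n k (a + cst z) x - ev n k (a + cst z') x := by
      rw [← ev_intCast, show (fun i => ((z i - z' i : ℤ) : ℝ)) = (a + cst z) - (a + cst z') by
        funext i; simp [cst]]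
      simp [← evL_apply]
    have : |((ev n k (fun i => z i - z' i) x : ℤ) : ℝ)| < 1 := by
      rw [e, abs_lt]
      have := abs_le.1 (h x)
      have := abs_le.1 (h' x)
      constructor <;> linarith
    rw [ev_zero]
    exact Int.abs_lt_one_iff.1 (by exact_mod_cast this)
  funext i
  exact sub_eq_zero.1 (congrFun hz i)

theorem volume_box_pos {r : ℝ} (hr : 0 < r) : 0 < volume (box n k r) := by
  have hopen : IsOpen {a : Idx n k → ℝ | ∀ x, |ev n k a x| < r} := by
    rw [ofPred_forall]
    exact isOpen_iInter_of_finite fun x => isOpen_lt (continuous_ev n k x).abs continuous_const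
  refine (hopen.measure_pos volume ⟨0, fun x => ?_⟩).trans_le
    (measure_mono fun a ha x => (ha x).le)
  rw [← evL_apply, map_zero]
  simpa using hr

theorem one_add_pow_le (N : ℕ) : (1 + 1 / (8 * (N : ℝ))) ^ N ≤ 5 / 4 := by
  rcases Nat.eq_zero_or_pos N with rfl | hN
  · norm_num
  have hN' : (0 : ℝ) < N := by exact_mod_cast hN
  calc (1 + 1 / (8 * (N : ℝ))) ^ N ≤ Real.exp (1 / (8 * N)) ^ N :=
        pow_le_pow_left₀ (by positivity) (by linarith [Real.add_one_le_exp (1 / (8 * (N : ℝ)))]) N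
    _ = Real.exp (1 / 8) := by rw [← Real.exp_nat_mul]; congr 1; field_simp
    _ ≤ 5 / 4 := by
        have := Real.abs_exp_sub_one_le (x := 1 / 8) (by norm_num)
        rw [abs_le] at this
        have e : |(1 / 8 : ℝ)| = 1 / 8 := by norm_num
        linarith [this.2]

theorem norm_prod_sub_prod_le {ι : Type*} (s : Finset ι) (a b : ι → ℂ) (β : ι → ℝ) {δ : ℝ}
    (hδ : 0 ≤ δ) (hb : ∀ i, ‖b i‖ ≤ β i) (hab : ∀ i, ‖a i - b i‖ ≤ δ * β i) :
    ‖∏ i ∈ s, a i - ∏ i ∈ s, b i‖ ≤ ((1 + δ) ^ s.card - 1) * ∏ i ∈ s, β i := by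
  classical
  have hβ : ∀ i, 0 ≤ β i := fun i => (norm_nonneg _).trans (hb i)
  induction s using Finset.induction_on with
  | empty => simp
  | insert i s hi ih =>
    rw [Finset.prod_insert hi, Finset.prod_insert hi, Finset.prod_insert hi,
      Finset.card_insert_of_notMem hi]
    have ha : ‖a i‖ ≤ (1 + δ) * β i := by
      calc ‖a i‖ = ‖(a i - b i) + b i‖ := by rw [sub_add_cancel]
        _ ≤ ‖a i - b i‖ + ‖b i‖ := norm_add_le _ _
        _ ≤ _ := by linarith [hab i, hb i]
    have hB : ‖∏ j ∈ s, b j‖ ≤ ∏ j ∈ s, β j := by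
      rw [norm_prod]; exact Finset.prod_le_prod (fun j _ => norm_nonneg _) fun j _ => hb j
    calc ‖a i * ∏ j ∈ s, a j - b i * ∏ j ∈ s, b j‖
        = ‖a i * (∏ j ∈ s, a j - ∏ j ∈ s, b j) + (a i - b i) * ∏ j ∈ s, b j‖ := by
          congr 1; ring
      _ ≤ ‖a i‖ * ‖∏ j ∈ s, a j - ∏ j ∈ s, b j‖ + ‖a i - b i‖ * ‖∏ j ∈ s, b j‖ := by
          refine (norm_add_le _ _).trans ?_
          rw [norm_mul, norm_mul]
      _ ≤ (1 + δ) * β i * (((1 + δ) ^ s.card - 1) * ∏ j ∈ s, β j) +
            δ * β i * ∏ j ∈ s, β j :=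
          add_le_add (mul_le_mul ha ih (norm_nonneg _) (mul_nonneg (by linarith) (hβ i)))
            (mul_le_mul (hab i) hB (norm_nonneg _) (mul_nonneg hδ (hβ i)))
      _ = _ := by ring

end Vale.Agent.P047.Disproof.MinorMajor
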