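import Vale.Agent.P047.Disproof.Correction
import Vale.Agent.P047.Disproof.SamplingCube

/-!
The numerical conditions of the construction, for large dimension.
-/

namespace Vale.Agent.P047.Disproof

open Finset Filter

lemma eventually_params {η : ℝ} (hη : 0 < η) : ∀ᶠ n : ℕ in atTop, ∃ m L j : ℕ,
    (2 : ℝ) ^ (m + 1) ≤ Real.sqrt n ∧ (L : ℝ) ≤ η / 2 * 2 ^ m ∧ 1 ≤ η / 2 * (2 : ℝ) ^ m ∧
      j ≤ L ∧ (1 / 2 : ℝ) ^ j ≤ η / 2 ∧ (n : ℝ) ^ 9 ≤ 2 ^ L := by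
  obtain ⟨j, hj⟩ := exists_pow_lt_of_lt_one (half_pos hη) (by norm_num : (1 / 2 : ℝ) < 1)
  have hlim : Tendsto (fun n : ℕ => Real.sqrt (Real.sqrt n)) atTop atTop :=
    Real.tendsto_sqrt_atTop.comp (Real.tendsto_sqrt_atTop.comp tendsto_natCast_atTop_atTop)
  filter_upwards [hlim.eventually_ge_atTop ((72 + (9 + j + 1 : ℝ)) * (8 / η) + 3),
    eventually_ge_atTop 4] with n hu hn
  set u := Real.sqrt (Real.sqrt n)
  have hu2 : u ^ 2 = Real.sqrt n := Real.sq_sqrt (Real.sqrt_nonneg _)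
  have hu4 : u ^ 4 = n := by
    rw [show u ^ 4 = (u ^ 2) ^ 2 by ring, hu2, Real.sq_sqrt (Nat.cast_nonneg n)]
  have hB : 0 ≤ (72 + (9 + j + 1 : ℝ)) * (8 / η) := by positivity
  have hu3 : 3 ≤ u := by linarith
  have hu0 : 0 < u := by linarith
  set s := Nat.sqrt n
  have hs2 : 2 ≤ s := Nat.le_sqrt.mpr (by omega)
  have hsle : (s : ℝ) ≤ Real.sqrt n := Real.nat_sqrt_le_real_sqrt
  have hsge : Real.sqrt n ≤ (s : ℝ) + 1 := Real.real_sqrt_le_nat_sqrt_succ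
  have hlog1 : 1 ≤ Nat.log 2 s := Nat.log_pos one_lt_two hs2
  set m := Nat.log 2 s - 1
  set L := Nat.clog 2 (n ^ 9) + j
  have hm1 : (2 : ℝ) ^ (m + 1) ≤ s := by
    rw [show m + 1 = Nat.log 2 s by omega]
    exact_mod_cast Nat.pow_log_le_self 2 (by omega)
  have hm2 : (s : ℝ) ≤ 2 ^ m * 4 := by
    have h : s < 2 ^ (Nat.log 2 s).succ := Nat.lt_pow_succ_log_self one_lt_two s
    rw [show (Nat.log 2 s).succ = m + 2 by omega, pow_add] at h
    exact_mod_cast h.le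
  have hL : (L : ℝ) ≤ 72 * u + (9 + j) := by
    have h1 : Nat.clog 2 (n ^ 9) ≤ 9 * (Nat.log 2 n + 1) := by
      refine Nat.clog_le_of_le_pow ?_
      rw [mul_comm, pow_mul]
      exact Nat.pow_le_pow_left (Nat.lt_pow_succ_log_self one_lt_two n).le 9
    have h2 : (Nat.log 2 n : ℝ) ≤ 8 * u := by
      refine (Real.natLog_le_logb n 2).trans ?_
      rw [Nat.cast_ofNat, Real.logb, div_le_iff₀ (Real.log_pos one_lt_two)]
      have : Real.log n ≤ 4 * u := by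
        rw [← hu4, Real.log_pow]
        have := Real.log_le_sub_one_of_pos hu0
        push_cast
        linarith
      nlinarith [Real.log_two_gt_d9]
    have h3 : (Nat.clog 2 (n ^ 9) : ℝ) ≤ 9 * ((Nat.log 2 n : ℝ) + 1) := by exact_mod_cast h1
    simp only [L, Nat.cast_add]
    linarith
  have hkey : (72 * u + (9 + j + 1)) * 8 ≤ η * (s : ℝ) := by
    have h1 : (72 + (9 + j + 1 : ℝ)) * 8 + 3 * η ≤ η * u := by
      have := mul_le_mul_of_nonneg_left hu hη.le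
      rw [mul_add, show η * ((72 + (9 + j + 1 : ℝ)) * (8 / η)) = (72 + (9 + j + 1 : ℝ)) * 8 by
        field_simp] at this
      linarith
    nlinarith [mul_le_mul_of_nonneg_right h1 hu0.le, mul_nonneg hη.le (sub_nonneg.mpr hu3),
      Nat.cast_nonneg (α := ℝ) j]
  refine ⟨m, L, j, hm1.trans hsle, ?_, ?_, Nat.le_add_left _ _, hj.le, ?_⟩
  · nlinarith
  · nlinarith [Nat.cast_nonneg (α := ℝ) j]
  · refine le_trans ?_ (pow_le_pow_right₀ one_le_two (Nat.le_add_right _ j))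
    exact_mod_cast Nat.le_pow_clog one_lt_two (n ^ 9)

lemma lowFrac_le (n : ℕ) : lowFrac n (tdeg n) ≤ (2 : ℝ) ^ (-(7 * (n : ℝ)) / 200) := lowCount_le

/-- The failure probability of all linear forms is small. -/
lemma eventually_tail : ∀ᶠ n : ℕ in atTop,
    ((2 : ℝ) ^ n + 1) * (2 * Real.exp (-((1 / (n : ℝ) ^ 2) ^ 2 /
      (2 * (4 * (n : ℝ) ^ 2 * (2 : ℝ) ^ (-(7 * (n : ℝ)) / 200)))))) ≤ 1 / 4 := by
  filter_upwards [eventually_poly_le_two_rpow 16 7 (by norm_num : (0 : ℝ) < 7 / 200),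
    eventually_ge_atTop 5] with n hn hn5
  have hn0 : (0 : ℝ) < n := by norm_cast; omega
  have he : (2 : ℝ) ^ (-(7 * (n : ℝ)) / 200) = 1 / (2 : ℝ) ^ (7 / 200 * (n : ℝ)) := by
    rw [show -(7 * (n : ℝ)) / 200 = -(7 / 200 * (n : ℝ)) by ring, Real.rpow_neg zero_le_two,
      one_div]
  rw [he]
  set P := (2 : ℝ) ^ (7 / 200 * (n : ℝ))
  have hP : 0 < P := by positivity
  have h1 : 2 * (n : ℝ) ≤
      (1 / (n : ℝ) ^ 2) ^ 2 / (2 * (4 * (n : ℝ) ^ 2 * (1 / P))) := by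
    have : (1 / (n : ℝ) ^ 2) ^ 2 / (2 * (4 * (n : ℝ) ^ 2 * (1 / P))) = P / (8 * (n : ℝ) ^ 6) := by
      field_simp
      ring
    rw [this, le_div_iff₀ (by positivity)]
    calc 2 * (n : ℝ) * (8 * (n : ℝ) ^ 6) = 16 * (n : ℝ) ^ 7 := by ring
      _ ≤ P := hn
  refine le_trans (mul_le_mul_of_nonneg_left (mul_le_mul_of_nonneg_left
    (Real.exp_le_exp.mpr (neg_le_neg h1)) zero_le_two) (by positivity)) ?_
  have hexp : Real.exp (-(2 * (n : ℝ))) ≤ (1 / 4 : ℝ) ^ n := by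
    rw [show -(2 * (n : ℝ)) = (n : ℝ) * (-2) by ring, Real.exp_nat_mul]
    refine pow_le_pow_left₀ (Real.exp_pos _).le ?_ n
    rw [show (-2 : ℝ) = -1 + -1 by norm_num, Real.exp_add]
    nlinarith [Real.exp_neg_one_lt_d9, Real.exp_pos (-1 : ℝ)]
  refine le_trans (mul_le_mul_of_nonneg_left (mul_le_mul_of_nonneg_left hexp zero_le_two)
    (by positivity)) ?_
  have h32 : (32 : ℝ) ≤ 2 ^ n :=
    le_trans (by norm_num) (pow_le_pow_right₀ one_le_two hn5)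
  have hq : (1 / 4 : ℝ) ^ n = 1 / ((2 : ℝ) ^ n * 2 ^ n) := by
    rw [← mul_pow, ← one_div_pow]; norm_num
  rw [hq, mul_one_div, mul_div_assoc', div_le_iff₀ (by positivity)]
  nlinarith

/-- The degree is below `0.636 n`. -/
lemma eventually_final : ∀ᶠ n : ℕ in atTop, tdeg n + 1 ≤ n ∧ n / 2 ≤ n - tdeg n - 1 ∧
    Real.sqrt (((n - tdeg n - 1 : ℕ) : ℝ) + 1) <
      (Real.sqrt (2 / Real.pi) - 3 / 10000) * Real.sqrt n - 8 := by
  filter_upwards [eventually_ge_atTop (10 ^ 10)] with n hn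
  have ht1 : tdeg n * 200 ≤ 73 * n := Nat.div_mul_le_self _ _
  have ht2 : 73 * n < 200 * (tdeg n + 1) := Nat.lt_mul_div_succ _ (by norm_num)
  refine ⟨by omega, by omega, ?_⟩
  set D := n - tdeg n - 1
  have hD : (200 : ℝ) * ((D : ℝ) + 1) ≤ 127 * n + 200 := by
    have : 200 * (D + 1) ≤ 127 * n + 200 := by omega
    exact_mod_cast this
  have hnR : (10 : ℝ) ^ 10 ≤ n := by exact_mod_cast hn
  set v := Real.sqrt (n : ℝ)
  have hv2 : v * v = n := Real.mul_self_sqrt (Nat.cast_nonneg n)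
  have hv : (10 : ℝ) ^ 5 ≤ v :=
    (Real.le_sqrt (by positivity) (Nat.cast_nonneg n)).mpr (le_trans (by norm_num) hnR)
  have hpi : (7978 : ℝ) / 10000 ≤ Real.sqrt (2 / Real.pi) := by
    rw [Real.le_sqrt (by norm_num) (by positivity), le_div_iff₀ Real.pi_pos]
    nlinarith [Real.pi_lt_d6, Real.pi_pos]
  calc Real.sqrt ((D : ℝ) + 1) < 797 / 1000 * v + 1 / 10000 * v := by
        rw [Real.sqrt_lt' (by positivity)]
        nlinarith
    _ ≤ (7978 / 10000 - 3 / 10000) * v - 8 := by linarith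
    _ ≤ _ := by
        have := mul_le_mul_of_nonneg_right hpi (Real.sqrt_nonneg (n : ℝ))
        linarith

end Vale.Agent.P047.Disproof
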