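import Vale.Agent.P047.Disproof.PrekopaPi

/-!
The Prékopa–Leindler inequality at the midpoint (owner: helper21).
-/

namespace Vale.Agent.P047.Disproof

open MeasureTheory
open scoped ENNReal

theorem prekopa_half {ι : Type} [Fintype ι] (f g h : (ι → ℝ) → ℝ≥0∞)
    (hf : Measurable f) (hg : Measurable g) (hh : Measurable h)
    (hle : ∀ a b, f a * g b ≤ h ((2 : ℝ)⁻¹ • (a + b)) ^ 2) :
    (∫⁻ a, f a) * (∫⁻ b, g b) ≤ (∫⁻ z, h z) ^ 2 :=
  midPL_fintype ι f g h hf hg hh fun a b => by simpa using hle a b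

end Vale.Agent.P047.Disproof
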