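import Mathlib

/-! The Prékopa-Leindler inequality with weight one half, in finite dimension, in the form
`(∫ f) (∫ g) ≤ (∫ h) ^ 2` whenever `f a * g b ≤ h ((a + b) / 2) ^ 2`. -/

open MeasureTheory Set
open scoped ENNReal Pointwise

noncomputable section

namespace Vale.Agent.P047.Disproof

/-- The midpoint Prékopa-Leindler property of a measure. -/
def MidPL {E : Type*} [AddCommGroup E] [Module ℝ E] [MeasurableSpace E] (μ : Measure E) : Prop :=
  ∀ f g h : E → ℝ≥0∞, Measurable f → Measurable g → Measurable h →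
    (∀ a b, f a * g b ≤ h ((1 / 2 : ℝ) • (a + b)) ^ 2) →
    (∫⁻ a, f a ∂μ) * ∫⁻ b, g b ∂μ ≤ (∫⁻ m, h m ∂μ) ^ 2

/-- The one-dimensional Brunn-Minkowski inequality for compact sets. -/
lemma volume_add_le_of_isCompact {K L : Set ℝ} (hK : IsCompact K) (hL : IsCompact L)
    (hK0 : K.Nonempty) (hL0 : L.Nonempty) : volume K + volume L ≤ volume (K + L) := by
  obtain ⟨a, ha, ha'⟩ := hK.exists_isMaxOn hK0 continuousOn_id
  obtain ⟨b, hb, hb'⟩ := hL.exists_isMinOn hL0 continuousOn_id
  set K' := (fun t => t + b) '' K with hK'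
  set L' := (fun t => a + t) '' L with hL'
  have h1 : volume K' = volume K := by
    rw [hK', image_add_right, measure_preimage_add_right]
  have h2 : volume L' = volume L := by
    rw [hL', image_add_left, measure_preimage_add]
  have hd : AEDisjoint volume K' L' := by
    refine measure_mono_null (fun t ht => ?_) (measure_singleton (a + b))
    obtain ⟨⟨u, hu, rfl⟩, w, hw, hwe⟩ := ht
    have := isMaxOn_iff.1 ha' u hu
    have := isMinOn_iff.1 hb' w hw
    simp only [id_eq] at *
    simp only [mem_singleton_iff]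
    linarith
  calc volume K + volume L = volume (K' ∪ L') := by
        rw [measure_union₀ (hL.image (by fun_prop)).measurableSet.nullMeasurableSet hd, h1, h2]
    _ ≤ volume (K + L) := measure_mono (union_subset
        (image_subset_iff.2 fun t ht => add_mem_add ht hb)
        (image_subset_iff.2 fun t ht => add_mem_add ha ht))

/-- Brunn-Minkowski on the line, at the midpoint. -/
lemma volume_add_le_two_mul {S T U : Set ℝ} (hS : MeasurableSet S) (hT : MeasurableSet T)
    (hS0 : S.Nonempty) (hT0 : T.Nonempty)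
    (hU : ∀ a ∈ S, ∀ b ∈ T, (a + b) / 2 ∈ U) : volume S + volume T ≤ 2 * volume U := by
  have e : ∀ A : Set ℝ, MeasurableSet A →
      volume A = ⨆ K : {K : Set ℝ // K ⊆ A ∧ IsCompact K}, volume K.1 := fun A hA => by
    rw [hA.measure_eq_iSup_isCompact]
    simp only [iSup_subtype, iSup_and]
  have : ∀ A : Set ℝ, Nonempty {K : Set ℝ // K ⊆ A ∧ IsCompact K} :=
    fun A => ⟨⟨∅, empty_subset A, isCompact_empty⟩⟩
  rw [e S hS, e T hT]
  refine ENNReal.iSup_add_iSup_le fun K L => ?_
  obtain ⟨K, hKS, hKc⟩ := K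
  obtain ⟨L, hLT, hLc⟩ := L
  obtain ⟨a, ha⟩ := hS0
  obtain ⟨b, hb⟩ := hT0
  refine le_trans (add_le_add (measure_mono (subset_union_left (t := {a})))
    (measure_mono (subset_union_left (t := {b})))) ?_
  refine (volume_add_le_of_isCompact (hKc.union isCompact_singleton) (hLc.union isCompact_singleton)
    ⟨a, by simp⟩ ⟨b, by simp⟩).trans ?_
  refine (measure_mono (t := (fun t => 2 * t) '' U) ?_).trans ?_
  · rintro _ ⟨u, hu, w, hw, rfl⟩
    have hu' : u ∈ S := hu.elim (fun h => hKS h) fun h => h ▸ ha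
    have hw' : w ∈ T := hw.elim (fun h => hLT h) fun h => h ▸ hb
    exact ⟨(u + w) / 2, hU u hu' w hw', by ring⟩
  · have : (fun t : ℝ => 2 * t) '' U = (2 : ℝ) • U := rfl
    rw [this, Measure.addHaar_smul]
    simp

lemma mul_le_half_sq (x y : ℝ≥0∞) : x * y ≤ ((x + y) / 2) ^ 2 := by
  rcases eq_or_ne x ∞ with rfl | hx
  · simp [ENNReal.top_div_of_ne_top, pow_two]
  rcases eq_or_ne y ∞ with rfl | hy
  · simp [ENNReal.top_div_of_ne_top, pow_two]
  lift x to NNReal using hx
  lift y to NNReal using hy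
  rw [show (2 : ℝ≥0∞) = ((2 : NNReal) : ℝ≥0∞) from rfl, ← ENNReal.coe_add,
    ← ENNReal.coe_div two_ne_zero, ← ENNReal.coe_mul, ← ENNReal.coe_pow, ENNReal.coe_le_coe,
    ← NNReal.coe_le_coe]
  push_cast
  nlinarith [sq_nonneg ((x : ℝ) - y)]

/-- Truncation reduces the inequality to bounded functions. -/
lemma midPL_of_bounded {E : Type*} [AddCommGroup E] [Module ℝ E] [MeasurableSpace E]
    {μ : Measure E}
    (h₀ : ∀ f g h : E → ℝ≥0∞, Measurable f → Measurable g → Measurable h →
      (∀ a b, f a * g b ≤ h ((1 / 2 : ℝ) • (a + b)) ^ 2) →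
      ⨆ a, f a < ∞ → ⨆ b, g b < ∞ →
      (∫⁻ a, f a ∂μ) * ∫⁻ b, g b ∂μ ≤ (∫⁻ m, h m ∂μ) ^ 2) : MidPL μ := by
  intro f g h hf hg hh hfg
  have hsup : ∀ F : E → ℝ≥0∞, Measurable F →
      ∫⁻ a, F a ∂μ = ⨆ n : ℕ, ∫⁻ a, min (F a) n ∂μ := fun F hF => by
    rw [← lintegral_iSup (fun n => hF.min measurable_const)
      fun i j hij a => min_le_min le_rfl (Nat.cast_le.2 hij)]
    refine lintegral_congr fun a => ?_
    rw [← inf_iSup_eq, ENNReal.iSup_natCast, inf_top_eq]
  rw [hsup f hf, hsup g hg]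
  rw [ENNReal.iSup_mul]
  refine iSup_le fun i => ?_
  rw [ENNReal.mul_iSup]
  refine iSup_le fun j => ?_
  refine h₀ _ _ h (hf.min measurable_const) (hg.min measurable_const) hh
    (fun a b => (mul_le_mul' (min_le_left _ _) (min_le_left _ _)).trans (hfg a b)) ?_ ?_
  · exact (iSup_le fun a => min_le_right _ _).trans_lt (ENNReal.natCast_lt_top i)
  · exact (iSup_le fun a => min_le_right _ _).trans_lt (ENNReal.natCast_lt_top j)

/-- Prékopa-Leindler on the line. -/
theorem midPL_real : MidPL (volume : Measure ℝ) := by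
  refine midPL_of_bounded fun f g h hf hg hh hfg hA hB => ?_
  set A := ⨆ a, f a with hA'
  set B := ⨆ b, g b with hB'
  rcases eq_or_ne A 0 with hA0 | hA0
  · rw [show f = fun _ => 0 from funext fun a => le_antisymm ((le_iSup f a).trans hA0.le) zero_le]
    simp
  rcases eq_or_ne B 0 with hB0 | hB0
  · rw [show g = fun _ => 0 from funext fun a => le_antisymm ((le_iSup g a).trans hB0.le) zero_le]
    simp
  set a₀ := A.toReal
  set b₀ := B.toReal
  have ha₀ : 0 < a₀ := ENNReal.toReal_pos hA0 hA.ne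
  have hb₀ : 0 < b₀ := ENNReal.toReal_pos hB0 hB.ne
  set k := Real.sqrt (a₀ * b₀)
  have hk : 0 < k := Real.sqrt_pos.2 (by positivity)
  have hk2 : k * k = a₀ * b₀ := Real.mul_self_sqrt (by positivity)
  set f' : ℝ → ℝ := fun a => (f a).toReal / a₀ with hf'
  set g' : ℝ → ℝ := fun b => (g b).toReal / b₀ with hg'
  set h' : ℝ → ℝ := fun m => (min (h m) (ENNReal.ofReal k)).toReal / k with hh'
  have hf1 : ∀ a, f' a ≤ 1 := fun a => by
    rw [hf', div_le_one ha₀]; exact ENNReal.toReal_mono hA.ne (le_iSup f a)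
  have hg1 : ∀ b, g' b ≤ 1 := fun b => by
    rw [hg', div_le_one hb₀]; exact ENNReal.toReal_mono hB.ne (le_iSup g b)
  have hpt : ∀ a b, f' a * g' b ≤ h' ((a + b) / 2) ^ 2 := fun a b => by
    have e : (a + b) / 2 = (1 / 2 : ℝ) • (a + b) := by rw [smul_eq_mul]; ring
    have hfa : f a ≠ ∞ := ((le_iSup f a).trans_lt hA).ne
    have hgb : g b ≠ ∞ := ((le_iSup g b).trans_lt hB).ne
    have h1 : f a * g b ≤ min (h ((1 / 2 : ℝ) • (a + b))) (ENNReal.ofReal k) ^ 2 := by
      rcases min_choice (h ((1 / 2 : ℝ) • (a + b))) (ENNReal.ofReal k) with h0 | h0 <;> rw [h0]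
      · exact hfg a b
      · refine (mul_le_mul' (le_iSup f a) (le_iSup g b)).trans (le_of_eq ?_)
        rw [← ENNReal.ofReal_pow hk.le, sq, hk2, ENNReal.ofReal_mul ha₀.le,
          ENNReal.ofReal_toReal hA.ne, ENNReal.ofReal_toReal hB.ne]
    have h2 := ENNReal.toReal_mono (ENNReal.pow_ne_top
      (ne_top_of_le_ne_top ENNReal.ofReal_ne_top (min_le_right _ _))) h1
    rw [ENNReal.toReal_mul, ENNReal.toReal_pow] at h2
    simp only [hf', hg', hh', e, div_pow, sq k, hk2, div_mul_div_comm]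
    exact div_le_div_of_nonneg_right h2 (by positivity)
  have hf'0 : ∀ a, 0 ≤ f' a := fun a => by positivity
  have hg'0 : ∀ b, 0 ≤ g' b := fun b => by positivity
  have hh'0 : ∀ m, 0 ≤ h' m := fun m => by positivity
  have mf : Measurable f' := hf.ennreal_toReal.div_const _
  have mg : Measurable g' := hg.ennreal_toReal.div_const _
  have mh : Measurable h' := (hh.min measurable_const).ennreal_toReal.div_const _
  have key : (∫⁻ a, ENNReal.ofReal (f' a)) + ∫⁻ b, ENNReal.ofReal (g' b) ≤
      2 * ∫⁻ m, ENNReal.ofReal (h' m) := by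
    rw [lintegral_eq_lintegral_meas_lt _ (ae_of_all _ hf'0) mf.aemeasurable,
      lintegral_eq_lintegral_meas_lt _ (ae_of_all _ hg'0) mg.aemeasurable,
      lintegral_eq_lintegral_meas_lt _ (ae_of_all _ hh'0) mh.aemeasurable,
      ← lintegral_const_mul' 2 _ ENNReal.ofNat_ne_top]
    refine le_trans (le_lintegral_add _ _) (setLIntegral_mono' measurableSet_Ioi fun t ht => ?_)
    have ht0 : (0 : ℝ) < t := ht
    rcases le_or_gt 1 t with ht1 | ht1
    · rw [show {a | t < f' a} = ∅ from eq_empty_of_forall_notMem fun a ha =>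
          (ht1.trans_lt ha).not_ge (hf1 a),
        show {b | t < g' b} = ∅ from eq_empty_of_forall_notMem fun b hb =>
          (ht1.trans_lt hb).not_ge (hg1 b)]
      simp
    refine volume_add_le_two_mul (measurableSet_lt measurable_const mf)
      (measurableSet_lt measurable_const mg) ?_ ?_ fun a ha b hb => ?_
    · have : ENNReal.ofReal (t * a₀) < A := by
        rw [ENNReal.ofReal_lt_iff_lt_toReal (by positivity) hA.ne]
        exact mul_lt_of_lt_one_left ha₀ ht1
      obtain ⟨a, ha⟩ := lt_iSup_iff.1 this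
      refine ⟨a, ?_⟩
      rw [ENNReal.ofReal_lt_iff_lt_toReal (by positivity) ((le_iSup f a).trans_lt hA).ne] at ha
      show t < (f a).toReal / a₀
      rwa [lt_div_iff₀ ha₀]
    · have : ENNReal.ofReal (t * b₀) < B := by
        rw [ENNReal.ofReal_lt_iff_lt_toReal (by positivity) hB.ne]
        exact mul_lt_of_lt_one_left hb₀ ht1
      obtain ⟨b, hb⟩ := lt_iSup_iff.1 this
      refine ⟨b, ?_⟩
      rw [ENNReal.ofReal_lt_iff_lt_toReal (by positivity) ((le_iSup g b).trans_lt hB).ne] at hb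
      show t < (g b).toReal / b₀
      rwa [lt_div_iff₀ hb₀]
    · show t < h' ((a + b) / 2)
      have h1 : t ^ 2 < f' a * g' b := by
        rw [sq]; exact mul_lt_mul'' ha hb ht0.le ht0.le
      exact lt_of_pow_lt_pow_left₀ 2 (hh'0 _) (h1.trans_le (hpt a b))
  set If := ∫⁻ a, ENNReal.ofReal (f' a)
  set Ig := ∫⁻ b, ENNReal.ofReal (g' b)
  set Ih := ∫⁻ m, ENNReal.ofReal (h' m)
  have efa : ∫⁻ a, f a = A * If := by
    rw [← lintegral_const_mul' _ _ hA.ne]
    refine lintegral_congr fun a => ?_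
    rw [← ENNReal.ofReal_toReal hA.ne, ← ENNReal.ofReal_mul ha₀.le, hf']
    simp only [mul_div_cancel₀ _ ha₀.ne']
    exact (ENNReal.ofReal_toReal ((le_iSup f a).trans_lt hA).ne).symm
  have egb : ∫⁻ b, g b = B * Ig := by
    rw [← lintegral_const_mul' _ _ hB.ne]
    refine lintegral_congr fun b => ?_
    rw [← ENNReal.ofReal_toReal hB.ne, ← ENNReal.ofReal_mul hb₀.le, hg']
    simp only [mul_div_cancel₀ _ hb₀.ne']
    exact (ENNReal.ofReal_toReal ((le_iSup g b).trans_lt hB).ne).symm
  have ehm : ENNReal.ofReal k * Ih ≤ ∫⁻ m, h m := by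
    rw [← lintegral_const_mul' _ _ ENNReal.ofReal_ne_top]
    refine lintegral_mono fun m => ?_
    rw [← ENNReal.ofReal_mul hk.le, hh']
    simp only [mul_div_cancel₀ _ hk.ne']
    exact ENNReal.ofReal_toReal_le.trans (min_le_left _ _)
  calc (∫⁻ a, f a) * ∫⁻ b, g b = A * B * (If * Ig) := by rw [efa, egb]; ring
    _ ≤ A * B * Ih ^ 2 := by
        refine mul_le_mul' le_rfl ((mul_le_half_sq If Ig).trans (pow_le_pow_left₀ zero_le ?_ 2))
        exact ENNReal.div_le_of_le_mul' key
    _ = (ENNReal.ofReal k * Ih) ^ 2 := by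
        rw [mul_pow, ← ENNReal.ofReal_pow hk.le, sq k, hk2, ENNReal.ofReal_mul ha₀.le,
          ENNReal.ofReal_toReal hA.ne, ENNReal.ofReal_toReal hB.ne]
    _ ≤ (∫⁻ m, h m) ^ 2 := pow_le_pow_left₀ zero_le ehm 2

/-- The property passes to products. -/
theorem MidPL.prod {E F : Type*} [AddCommGroup E] [Module ℝ E] [MeasurableSpace E]
    [AddCommGroup F] [Module ℝ F] [MeasurableSpace F] {μ : Measure E} {ν : Measure F}
    [SFinite ν] (hμ : MidPL μ) (hν : MidPL ν) : MidPL (μ.prod ν) := by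
  intro f g h hf hg hh hfg
  rw [lintegral_prod f hf.aemeasurable, lintegral_prod g hg.aemeasurable,
    lintegral_prod h hh.aemeasurable]
  refine hμ _ _ _ hf.lintegral_prod_right' hg.lintegral_prod_right' hh.lintegral_prod_right'
    fun a b => hν _ _ _ (hf.comp measurable_prodMk_left) (hg.comp measurable_prodMk_left)
      (hh.comp measurable_prodMk_left) fun u w => ?_
  exact hfg (a, u) (b, w)

/-- The property passes along measure preserving linear maps. -/
theorem MidPL.map {E F : Type*} [AddCommGroup E] [Module ℝ E] [MeasurableSpace E]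
    [AddCommGroup F] [Module ℝ F] [MeasurableSpace F] {μ : Measure E} {ν : Measure F}
    (hμ : MidPL μ) (e : E → F) (he : MeasurePreserving e μ ν)
    (hlin : ∀ a b, e ((1 / 2 : ℝ) • (a + b)) = (1 / 2 : ℝ) • (e a + e b)) : MidPL ν := by
  intro f g h hf hg hh hfg
  rw [← he.lintegral_comp hf, ← he.lintegral_comp hg, ← he.lintegral_comp hh]
  exact hμ _ _ _ (hf.comp he.measurable) (hg.comp he.measurable) (hh.comp he.measurable)
    fun a b => by simp only [hlin]; exact hfg _ _

/-- Prékopa-Leindler in every finite dimension. -/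
theorem midPL_pi : ∀ n : ℕ, MidPL (volume : Measure (Fin n → ℝ))
  | 0 => by
    intro f g h _ _ _ hfg
    have e : ∀ F : (Fin 0 → ℝ) → ℝ≥0∞, ∫⁻ a, F a = F 0 := fun F => by
      rw [lintegral_unique]
      simp [volume_pi]
      exact congrArg F (Subsingleton.elim _ _)
    simp only [e]
    simpa using hfg 0 0
  | n + 1 => by
    refine (midPL_real.prod (midPL_pi n)).map
      (MeasurableEquiv.piFinSuccAbove (fun _ => ℝ) 0).symm
      ((volume_preserving_piFinSuccAbove (fun _ : Fin (n + 1) => ℝ) 0).symm _) fun a b => ?_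
    funext i
    refine Fin.cases ?_ (fun j => ?_) i <;> simp [MeasurableEquiv.piFinSuccAbove, mul_add]

/-- Prékopa-Leindler over any finite index type. -/
theorem midPL_fintype (κ : Type*) [Fintype κ] : MidPL (volume : Measure (κ → ℝ)) := by
  refine (midPL_pi (Fintype.card κ)).map
    (MeasurableEquiv.piCongrLeft (fun _ : κ => ℝ) (Fintype.equivFin κ).symm)
    (volume_measurePreserving_piCongrLeft (fun _ : κ => ℝ) (Fintype.equivFin κ).symm)
    (fun a b => funext fun i => ?_)
  obtain ⟨j, rfl⟩ := (Fintype.equivFin κ).symm.surjective i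
  simp [MeasurableEquiv.coe_piCongrLeft, Equiv.piCongrLeft_apply_apply, mul_add]

end Vale.Agent.P047.Disproof
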