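import Vale.Agent.P047.Disproof.Labels
import Vale.Agent.P047.Disproof.Params
import Vale.Agent.P047.Disproof.Descend

/-!
The real starting function: exact powers of `1 / 2` on good sets, low degree, the level-one mass of
the target.
-/

namespace Vale.Agent.P047.Disproof

open Finset Filter

/-- The value attached to the label number `k` and the auxiliary bit. -/
noncomputable def tau (L j k : ℕ) (b : Bool) : ℝ :=
  if k < L then (1 / 2) ^ (k + 1) else if b then 1 - (1 / 2) ^ j else (1 / 2) ^ j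

lemma tau_mem (L j k : ℕ) (b : Bool) : 0 ≤ tau L j k b ∧ tau L j k b ≤ 1 := by
  have h0 : (0 : ℝ) ≤ (1 / 2) ^ j := by positivity
  have h1 : ((1 : ℝ) / 2) ^ j ≤ 1 := pow_le_one₀ (by norm_num) (by norm_num)
  unfold tau
  split_ifs
  · exact ⟨by positivity, pow_le_one₀ (by norm_num) (by norm_num)⟩
  · constructor <;> linarith
  · exact ⟨h0, h1⟩

lemma two_pow_mul_half {i L : ℕ} (h : i ≤ L) :
    (2 : ℝ) ^ L * (1 / 2) ^ i = 2 ^ (L - i) := by
  obtain ⟨k, rfl⟩ := Nat.exists_eq_add_of_le h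
  rw [Nat.add_sub_cancel_left, pow_add, mul_right_comm, ← mul_pow]
  norm_num

lemma tau_int {L j : ℕ} (hjL : j ≤ L) (k : ℕ) (b : Bool) :
    ∃ z : ℤ, (2 : ℝ) ^ L * tau L j k b = z ∧ 0 ≤ z ∧ z ≤ 2 ^ L := by
  unfold tau
  split_ifs with h1 h2
  · refine ⟨2 ^ (L - (k + 1)), ?_, by positivity, pow_le_pow_right₀ (by norm_num) (Nat.sub_le _ _)⟩
    rw [two_pow_mul_half h1]
    norm_num
  · refine ⟨2 ^ L - 2 ^ (L - j), ?_, ?_, ?_⟩
    · rw [mul_sub, mul_one, two_pow_mul_half hjL]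
      norm_num
    · exact sub_nonneg.mpr (pow_le_pow_right₀ (by norm_num) (Nat.sub_le _ _))
    · exact sub_le_self _ (by positivity)
  · refine ⟨2 ^ (L - j), ?_, by positivity, pow_le_pow_right₀ (by norm_num) (Nat.sub_le _ _)⟩
    rw [two_pow_mul_half hjL]
    norm_num

lemma sum_half_pow (L : ℕ) : ∑ k ∈ range L, (1 / 2 : ℝ) ^ (k + 1) = 1 - (1 / 2) ^ L := by
  induction L with
  | zero => simp
  | succ L ih => rw [sum_range_succ, ih]; ring

/-- The bit can be biased so that the mean value is `q`. -/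
lemma exists_mean {η q : ℝ} {K L j : ℕ} (hη : 0 < η) (hη4 : η < 1 / 4) (hq : η ≤ q ∧ q ≤ 1 - η)
    (hj : (1 / 2 : ℝ) ^ j ≤ η / 2) (hKL : (L : ℝ) ≤ η / 2 * K) (h1 : 1 ≤ η / 2 * (K : ℝ)) :
    ∃ p : ℝ, (0 ≤ p ∧ p ≤ 1) ∧
      ∑ k : Fin K, (p * (tau L j k true - q) + (1 - p) * (tau L j k false - q)) = 0 := by
  have hS : 0 ≤ ∑ k ∈ range L, (1 / 2 : ℝ) ^ (k + 1) ∧
      ∑ k ∈ range L, (1 / 2 : ℝ) ^ (k + 1) ≤ 1 := by
    refine ⟨sum_nonneg fun k _ => by positivity, ?_⟩
    rw [sum_half_pow]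
    linarith [pow_pos (by norm_num : (0 : ℝ) < 1 / 2) L]
  have hLK : L ≤ K := by
    have : (L : ℝ) ≤ K := by nlinarith [Nat.cast_nonneg (α := ℝ) K]
    exact_mod_cast this
  obtain ⟨p, hp, hpq⟩ := pool_prob hq hη4 (by positivity) hj hS hKL h1
  refine ⟨p, hp, ?_⟩
  rw [Fin.sum_univ_eq_sum_range
    (fun k => p * (tau L j k true - q) + (1 - p) * (tau L j k false - q)) K]
  obtain ⟨P, rfl⟩ := Nat.exists_eq_add_of_le hLK
  rw [sum_range_add]
  have e1 : ∀ k ∈ range L, p * (tau L j k true - q) + (1 - p) * (tau L j k false - q) =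
      (1 / 2 : ℝ) ^ (k + 1) - q := fun k hk => by
    simp only [tau, if_pos (mem_range.mp hk)]
    ring
  have e2 : ∀ k ∈ range P, p * (tau L j (L + k) true - q) + (1 - p) * (tau L j (L + k) false - q) =
      p * (1 - (1 / 2 : ℝ) ^ j) + (1 - p) * (1 / 2) ^ j - q := fun k _ => by
    simp only [tau, if_neg (show ¬ L + k < L by omega), if_true, Bool.false_eq_true, if_false]
    ring
  rw [sum_congr rfl e1, sum_congr rfl e2, sum_sub_distrib, sum_const, sum_const, card_range,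
    card_range, nsmul_eq_mul, nsmul_eq_mul]
  push_cast at hpq
  linarith

lemma abs_parity {n : ℕ} (x : Cube n) : |parity x| = 1 :=
  (mul_self_eq_one_iff.mp (parity_mul_self x)).elim (fun h => by simp [h]) fun h => by simp [h]

/-- Replace `q` by `τ` on `R`; correct off `R` by the kernel. -/
lemma corrected {n D t : ℕ} (hn : n = D + t + 1) {q τ : Cube n → ℝ} (hq : DegLE q D)
    (R : Finset (Cube n)) (z : Cube n → Cube n → ℝ)
    (hz : ∀ (ξ : Cube n → ℝ) (b : Idx n t → ℝ),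
      ∑ x ∈ Rᶜ, (∑ y ∈ R, z x y * ξ y) * ev n t b x = ∑ y ∈ R, ξ y * ev n t b y)
    {u : ℝ} (hu : 0 ≤ u)
    (hψ : ∀ x, |∑ y ∈ R, z x y * ((τ y - q y) * parity y)| ≤ u)
    (hlev : |∑ y ∈ R, (τ y - q y) * lev y| ≤ u) :
    ∃ v : Cube n → ℝ, DegLE v D ∧ (∀ x ∈ R, v x = τ x) ∧ (∀ x ∉ R, |v x - q x| ≤ u) ∧
      levelOne q - (u + n * u) ≤ levelOne v := by
  classical
  set ψ := fun x => ∑ y ∈ R, z x y * ((τ y - q y) * parity y) with hψdef
  set g : Cube n → ℝ := fun x => if x ∈ R then 0 else -(parity x * ψ x) with hg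
  set h : Cube n → ℝ := fun x => if x ∈ R then τ x - q x else 0 with hh
  have hgb : ∀ x, |g x| ≤ u := fun x => by
    simp only [hg]
    split_ifs
    · rw [abs_zero]; exact hu
    · rw [abs_neg, abs_mul, abs_parity, one_mul]; exact hψ x
  refine ⟨fun x => q x + (h x + g x), ?_, fun x hx => by simp [hh, hg, hx],
    fun x hx => by simpa [hh, hx] using hgb x, ?_⟩
  · rw [degLE_iff_orth hn]
    intro b
    have e1 : ∑ x, h x * parity x * ev n t b x = ∑ y ∈ R, (τ y - q y) * parity y * ev n t b y := by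
      simp only [hh, ite_mul, zero_mul]
      rw [sum_ite_mem, univ_inter]
    have e2 : ∑ x, g x * parity x * ev n t b x = -∑ x ∈ Rᶜ, ψ x * ev n t b x := by
      rw [← sum_neg_distrib, ← sum_subset (subset_univ Rᶜ) fun x _ hx => ?_]
      · refine sum_congr rfl fun x hx => ?_
        simp only [hg, if_neg (mem_compl.mp hx)]
        linear_combination (-(ψ x * ev n t b x)) * parity_mul_self x
      · simp [hg, show x ∈ R by simpa using hx]
    simp only [add_mul, sum_add_distrib, (degLE_iff_orth hn q).mp hq b, e1, e2, zero_add]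
    rw [hψdef, hz (fun y => (τ y - q y) * parity y) b]
    ring
  · rw [levelOne_add, levelOne_add]
    have h1 : |levelOne h| ≤ u := by
      rw [levelOne_eq_sum]
      simp only [hh, ite_mul, zero_mul]
      rwa [sum_ite_mem, univ_inter]
    linarith [abs_le.mp h1, abs_le.mp (abs_levelOne_le g hgb)]

/-- The coefficients of the linear forms to be controlled. -/
noncomputable def forms {n : ℕ} (R : Finset (Cube n)) (z : Cube n → Cube n → ℝ)
    (i : Option (Cube n)) (y : Cube n) : ℝ :=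
  if y ∈ R then i.elim (lev y) (fun w => z w y * parity y) else 0

lemma sum_forms_sq {n : ℕ} (hn : 1 ≤ n) (R : Finset (Cube n)) (z : Cube n → Cube n → ℝ) {θ : ℝ}
    (hθ : (1 : ℝ) / n ≤ θ) (hz : ∀ x, ∑ y, z x y ^ 2 ≤ lowFrac n (tdeg n) / (θ / 2) ^ 2)
    (i : Option (Cube n)) :
    ∑ y, forms R z i y ^ 2 ≤ 4 * (n : ℝ) ^ 2 * (2 : ℝ) ^ (-(7 * (n : ℝ)) / 200) := by
  classical
  have hn0 : (1 : ℝ) ≤ n := Nat.one_le_cast.mpr hn
  set ρ : ℝ := (2 : ℝ) ^ (-(7 * (n : ℝ)) / 200)
  rcases i with _ | w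
  · calc ∑ y, forms R z none y ^ 2 ≤ ∑ _y : Cube n, ((n : ℝ) / 2 ^ n) ^ 2 := by
          refine sum_le_sum fun y _ => ?_
          simp only [forms, Option.elim_none]
          split_ifs
          · rw [← sq_abs]; exact pow_le_pow_left₀ (abs_nonneg _) (abs_lev_le y) 2
          · simp only [zero_pow two_ne_zero]; positivity
      _ = (n : ℝ) ^ 2 * (2 : ℝ) ^ (-(n : ℝ)) := by
          rw [sum_const, card_univ, Fintype.card_fun, Fintype.card_bool, Fintype.card_fin,
            nsmul_eq_mul, Real.rpow_neg zero_le_two, Real.rpow_natCast]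
          push_cast
          field_simp
      _ ≤ _ := by
          have : (2 : ℝ) ^ (-(n : ℝ)) ≤ ρ :=
            Real.rpow_le_rpow_of_exponent_le one_le_two (by linarith)
          nlinarith [Real.rpow_nonneg zero_le_two (-(n : ℝ))]
  · calc ∑ y, forms R z (some w) y ^ 2 ≤ ∑ y, z w y ^ 2 := by
          refine sum_le_sum fun y _ => ?_
          simp only [forms, Option.elim_some]
          split_ifs
          · rw [mul_pow, sq (parity y), parity_mul_self, mul_one]
          · simp only [zero_pow two_ne_zero]; positivity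
      _ ≤ lowFrac n (tdeg n) / (θ / 2) ^ 2 := hz w
      _ ≤ ρ / (1 / (2 * n)) ^ 2 := by
          refine div_le_div₀ (Real.rpow_nonneg zero_le_two _) (lowFrac_le n) (by positivity)
            (pow_le_pow_left₀ (by positivity) ?_ 2)
          rw [mul_comm 2 (n : ℝ), ← div_div]
          linarith
      _ = _ := by field_simp; ring

lemma abs_forms {n : ℕ} (R : Finset (Cube n)) (z : Cube n → Cube n → ℝ) (ξ : Cube n → ℝ)
    (i : Option (Cube n)) :
    ∑ y, forms R z i y * ξ y = ∑ y ∈ R, i.elim (lev y) (fun w => z w y * parity y) * ξ y := by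
  classical
  simp only [forms, ite_mul, zero_mul]
  rw [sum_ite_mem, univ_inter]

open Classical in
/-- What the start gives. -/
theorem exists_start {η : ℝ} (hη : 0 < η) (hη4 : η < 1 / 4) : ∀ᶠ n : ℕ in atTop,
    ∀ (C : Cover n) (q : Cube n → ℝ), (∀ x, η ≤ q x ∧ q x ≤ 1 - η) →
      DegLE q (n - tdeg n - 1) → tdeg n + 1 ≤ n →
      ∃ (L : ℕ) (θ : ℝ) (U R : Finset (Cube n)) (S : ℕ → Finset (Cube n)) (v : Cube n → ℝ),
        (1 : ℝ) / n ≤ θ ∧ (n : ℝ) ^ 9 ≤ 2 ^ L ∧ Disjoint U R ∧ Good C U θ ∧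
        (∀ i < L, Good C (S i) θ) ∧ DegLE v (n - tdeg n - 1) ∧
        (∀ x ∈ R, ∃ k : ℤ, (2 : ℝ) ^ L * v x = k ∧ 0 ≤ k ∧ k ≤ 2 ^ L) ∧
        (∀ x ∉ R, η / 2 ≤ v x ∧ v x ≤ 1 - η / 2) ∧
        (∀ i < L, ∀ x ∈ S i, x ∈ R ∧ (2 : ℝ) ^ L * v x = 2 ^ (L - 1 - i)) ∧
        levelOne q - 2 ≤ levelOne v := by
  filter_upwards [exists_split, eventually_params hη, eventually_tail, eventually_ge_atTop 1,
    (tendsto_natCast_atTop_atTop (R := ℝ)).eventually_ge_atTop (2 / η)] with
    n hsplit ⟨m, L, j, hmn, hKL, hK1, hjL, hj, hn9⟩ htail hn1 hnη C q hq hqdeg htn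
  have hn0 : (1 : ℝ) ≤ n := Nat.one_le_cast.mpr hn1
  have hθn : (1 : ℝ) / n ≤ (1 / 2) ^ (m + 1) := by
    rw [one_div_pow]
    refine one_div_le_one_div_of_le (by positivity) (hmn.trans ?_)
    rw [Real.sqrt_le_left (by positivity)]
    nlinarith
  obtain ⟨A, hA⟩ := hsplit C m hmn
  set θ : ℝ := (1 / 2) ^ (m + 1)
  have hθ0 : 0 < θ := lt_of_lt_of_le (by positivity) hθn
  have hcardL : Fintype.card (Fin m → Bool) = 2 ^ m := by simp
  set e : (Fin m → Bool) ≃ Fin (2 ^ m) := Fintype.equivFinOfCardEq hcardL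
  choose p hp hpq using fun x => exists_mean (K := 2 ^ m) (L := L) hη hη4 (hq x) hj
    (by push_cast; exact hKL) (by push_cast; exact hK1)
  have hLK : L ≤ 2 ^ m := by
    have : (L : ℝ) ≤ (2 : ℝ) ^ m := by nlinarith [pow_pos (two_pos : (0 : ℝ) < 2) m]
    exact_mod_cast this
  set R := univ.filter fun x => A x = false with hR
  -- one good labelling gives the kernel
  obtain ⟨g₀, hg₀⟩ : ∃ g : Cube n → Fin m → Bool, ∀ b l,
      Good C (univ.filter fun x => A x = b ∧ g x = l) θ := by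
    by_contra hc
    push Not at hc
    rw [filter_true_of_mem fun g _ => hc g, card_univ] at hA
    linarith [Nat.cast_nonneg (α := ℝ) (Fintype.card (Cube n → Fin m → Bool))]
  have hsub : ∀ (g : Cube n → Fin m → Bool) l,
      (univ.filter fun x => A x = true ∧ g x = l) ⊆ Rᶜ := fun g l x hx => by
    simp [hR, (mem_filter.mp hx).2.1]
  obtain ⟨z, hz, hzsq⟩ := exists_kernel (t := tdeg n) R (half_pos hθ0)
    ((hg₀ true fun _ => false).mono (hsub g₀ _)).1
  -- the linear forms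
  have hsmall : (Fintype.card (Option (Cube n)) : ℝ) * (2 * Real.exp (-((1 / (n : ℝ) ^ 2) ^ 2 /
      (2 * (4 * (n : ℝ) ^ 2 * (2 : ℝ) ^ (-(7 * (n : ℝ)) / 200)))))) ≤ 1 / 4 := by
    rw [Fintype.card_option, Fintype.card_fun, Fintype.card_bool, Fintype.card_fin]
    exact_mod_cast htail
  obtain ⟨ω, hω, hforms⟩ := exists_choice
    (fun g => ∃ b l, ¬ Good C (univ.filter fun x => A x = b ∧ g x = l) θ)
    (lt_of_eq_of_lt (by congr!) hA) p hp
    (fun x (o : (Fin m → Bool) × Bool) => tau L j (e o.1) o.2 - q x)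
    (fun x o => abs_le.mpr ⟨by linarith [tau_mem L j (e o.1) o.2, hq x],
      by linarith [tau_mem L j (e o.1) o.2, hq x]⟩)
    (fun x => (e.sum_comp fun k : Fin (2 ^ m) =>
      p x * (tau L j k true - q x) + (1 - p x) * (tau L j k false - q x)).trans (hpq x))
    (forms R z) (sum_forms_sq hn1 R z hθn hzsq) (by positivity) (by positivity) hsmall
  set τ := fun x => tau L j (e (ω x).1) (ω x).2 with hτ
  have hgood : ∀ b l, Good C (univ.filter fun x => A x = b ∧ (ω x).1 = l) θ := fun b l =>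
    not_not.mp fun h => hω ⟨b, l, h⟩
  obtain ⟨v, hvdeg, hvR, hvU, hvlev⟩ := corrected (τ := τ) (t := tdeg n) (by omega) hqdeg R z hz
    (by positivity : (0 : ℝ) ≤ 1 / (n : ℝ) ^ 2)
    (fun x => by
      have h := hforms (some x)
      rw [abs_forms] at h
      refine le_of_eq_of_le (congrArg abs (sum_congr rfl fun y _ => ?_)) h
      simp only [Option.elim_some, hτ]
      ring)
    (by
      have h := hforms none
      rw [abs_forms] at h
      refine le_of_eq_of_le (congrArg abs (sum_congr rfl fun y _ => ?_)) h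
      simp only [Option.elim_none, hτ]
      ring)
  refine ⟨L, θ, univ.filter fun x => A x = true ∧ (ω x).1 = fun _ => false, R,
    fun i => if h : i < 2 ^ m then univ.filter fun x => A x = false ∧ (ω x).1 = e.symm ⟨i, h⟩
      else univ,
    v, hθn, hn9, disjoint_left.mpr fun x hx => mem_compl.mp (hsub (fun y => (ω y).1) _ hx),
    hgood _ _, fun i hi => ?_, hvdeg, fun x hx => hvR x hx ▸ tau_int hjL _ _, fun x hx => ?_,
    fun i hi x hx => ?_, ?_⟩
  · simp only [dif_pos (hi.trans_le hLK)]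
    exact hgood _ _
  · have hn2 : 1 / (n : ℝ) ^ 2 ≤ η / 2 := by
      rw [div_le_iff₀ hη] at hnη
      rw [div_le_iff₀ (by positivity)]
      nlinarith [mul_le_mul_of_nonneg_left hn0 (mul_nonneg hη.le (Nat.cast_nonneg n))]
    have := abs_le.mp ((hvU x hx).trans hn2)
    constructor <;> linarith [hq x]
  · simp only [dif_pos (hi.trans_le hLK)] at hx
    obtain ⟨h1, h2⟩ := (mem_filter.mp hx).2
    have hxR : x ∈ R := mem_filter.mpr ⟨mem_univ _, h1⟩
    refine ⟨hxR, ?_⟩
    rw [hvR x hxR, hτ]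
    simp only [h2, Equiv.apply_symm_apply, tau, if_pos hi]
    rw [two_pow_mul_half (Nat.succ_le_of_lt hi)]
    congr 1
    omega
  · have h3 : (n : ℝ) * (1 / (n : ℝ) ^ 2) ≤ 1 := by
      rw [mul_one_div, div_le_one (by positivity)]
      nlinarith
    have h4 : 1 / (n : ℝ) ^ 2 ≤ 1 := by rw [div_le_one (by positivity)]; nlinarith
    linarith

end Vale.Agent.P047.Disproof
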