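import Vale.Agent.P047.Disproof.Defs

/-!
Coordinates for real polynomials of degree at most `k` on `m` bits and the nearness to integers.
-/

namespace Vale.Agent.P047.Disproof

open Finset

/-- Monomials of degree at most `k` in `m` bits, split along the first bit. -/
def Idx : ℕ → ℕ → Type
  | 0, _ => Unit
  | _ + 1, 0 => Unit
  | m + 1, k + 1 => Idx m (k + 1) ⊕ Idx m k

instance instFintypeIdx : (m k : ℕ) → Fintype (Idx m k)
  | 0, _ => inferInstanceAs (Fintype Unit)
  | _ + 1, 0 => inferInstanceAs (Fintype Unit)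
  | m + 1, k + 1 =>
    letI := instFintypeIdx m (k + 1)
    letI := instFintypeIdx m k
    inferInstanceAs (Fintype (Idx m (k + 1) ⊕ Idx m k))

variable {G : Type*} [AddCommGroup G]

/-- Evaluation of a polynomial given by its integral-basis coordinates. -/
def ev : (m k : ℕ) → (Idx m k → G) → Cube m → G
  | 0, _, θ, _ => θ ()
  | _ + 1, 0, θ, _ => θ ()
  | m + 1, k + 1, θ, x =>
    ev m (k + 1) (fun i => θ (Sum.inl i)) (Fin.tail x) +
      if x 0 then ev m k (fun i => θ (Sum.inr i)) (Fin.tail x) else 0

/-- Inclusion of degree `k` into degree `k + 1`. -/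
def emb : (m k : ℕ) → (Idx m k → G) → Idx m (k + 1) → G
  | 0, _, θ => fun _ => θ ()
  | m + 1, 0, θ => fun i => Sum.elim (emb m 0 (fun _ => θ ())) (fun _ => 0) i
  | m + 1, k + 1, θ => fun i =>
    Sum.elim (emb m (k + 1) (fun j => θ (Sum.inl j))) (emb m k (fun j => θ (Sum.inr j))) i

/-- Distance to the nearest integer. -/
noncomputable def dist1 (q : ℝ) : ℝ := |q - round q|

/-- Squared distance of a function to the integer functions. -/
noncomputable def W {n : ℕ} (a : Cube n → ℝ) : ℝ := ∑ x, dist1 (a x) ^ 2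

/-- The degree deficit used throughout. -/
def tdeg (n : ℕ) : ℕ := 73 * n / 200

/-- The separation scale. -/
noncomputable def eta (n : ℕ) : ℝ := (2 : ℝ) ^ (-(n : ℝ) / 1000)

/-- The counting exponent. -/
noncomputable def alph (n : ℕ) : ℝ := (2 : ℝ) ^ (-(n : ℝ) / 500)

end Vale.Agent.P047.Disproof
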